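import Claimed.Agent.R252.Prep.Hubs
import Claimed.Agent.R252.S2s.Api

/-! PACKED FILE (helper31, closed unit PREP of row 252, FROZEN): parts Prep.H0a, Prep.H0b.  Each part is wrapped in its own `section`. -/

section PkPrepH0a

/-!
# ROW 252 (S0492), unit PREP, post BP-252-PREP-H0 (sub-architect helper69, chief helper31), file 1 of 2.        CONTRACT file (leaves L-252-KPB-*; prefix `kpb_`).

GOAL of the post: `kpb_base` (file `H0b.lean`) = `kpr_base` of `Prep/Hubs.lean` VERBATIM:  `X.Ok p τ'` ⟹ `OkLab (N^(C τ'))` and `Deep (N^(-1/(C τ')))` for the base record `𝐑 = kpbR X p G rc dflt = X.prep p (kprZ0 X G rc dflt)`.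
PAPER-FREE: everything is bookkeeping between the two records `KpTan.Ok` (S4/Tan.lean) and `KsRef.OkLab` (Prep/Parts.lean).
## Layout
* §1 MEASURE API of the bridge (PROVED): `W × Lam` carries `ksTanMS X = ⊤ × mLam` (local instance), slices `kpbSl X S γ`, `kpb_meas_iff`, `kpb_meas_inc_iff`, `kpb_nu_apply` (ALL sets),
  `kpb_prior_eq` (measurable sets), `kpb_prior_le`, `kpb_lam0_le`, `kpb_lam0_par` (ALL sets: no measurability is ever needed for an upper bound).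
* §2 the 55 fields of `OkLab` in 6 groups (+ `ref_Q`, leaf R in `H0b.lean`) `R.LabM`, `R.LabP K`, `R.LabS K`, `R.LabT K`, `R.LabC K`, `R.LabD K`; assembly `kpb_assemble` (PROVED).
* §3 the CONTEXT `KpbCtx p G X rc τ' C` = all hypotheses of all leaves; `K₀ := N^τ' ≥ 100` is the slack of `X.Ok`, `K := N^(C τ') = K₀^C` the slack of the conclusion; helper lemmas (PROVED).
* §4 DICTIONARY: everything of `𝐑` is `rfl`-equal to an object of `X` (`kpb_dict`: use `show`/`change`, or `simp only [...]` never needed).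
* §5 the leaves of this file: M (measurability, masses), P (native bounds), S (scales), T1, T2 (labels, tests, centres), DEEP.
RULES for provers: prove IN PLACE (splice only your theorem + helper lemmas directly above it, prefix `kpb_`), statement unchanged (false? one line to helper69), earlier statements of the file and of `Prep/Hubs.lean`
(`kpr_nd_spec`, `kpr_nd_mono`, `kpr_anc`) are black boxes; `S2s/Api.lean` (sorry-free API of `KbPb`, `KbSys`: `k2s_*`) and `State/KsLoc.lean` (`ksl_kbI_inj`, ..) are imported.   `pull --rebase` before landing.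
-/

set_option autoImplicit false

namespace Claimed.Agent.R252

open MeasureTheory
open scoped ENNReal BigOperators

noncomputable section

variable {v : KbVer}

/-! ## 1. The measure API of the bridge -/

attribute [local instance] ksTanMS

/-- the slice of a set of incidences of the mixture in the world `γ` -/
def kpbSl (X : KpTan v) (S : Set ((X.P.W × X.P.Lam) × ℝ)) (γ : X.P.W) : Set (X.P.Lam × ℝ) := {x | ((γ, x.1), x.2) ∈ S}

theorem kpb_mk_emb (X : KpTan v) (γ : X.P.W) : MeasurableEmbedding (Prod.mk γ : X.P.Lam → X.P.W × X.P.Lam) := by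
  let _ : MeasurableSpace X.P.W := ⊤
  have : MeasurableSingletonClass X.P.W := ⟨fun _ => trivial⟩
  exact measurableEmbedding_prodMk_left γ

theorem kpb_meas_iff (X : KpTan v) (S : Set (X.P.W × X.P.Lam)) :
    MeasurableSet S ↔ ∀ γ, MeasurableSet {l | (γ, l) ∈ S} := by
  constructor
  · intro h γ
    exact (kpb_mk_emb X γ).measurable h
  · intro h
    have : S = ⋃ γ, Prod.mk γ '' {l | (γ, l) ∈ S} := by
      ext ⟨γ, l⟩
      simp
    rw [this]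
    exact MeasurableSet.iUnion fun γ => (kpb_mk_emb X γ).measurableSet_image.2 (h γ)

theorem kpb_nu_apply (X : KpTan v) (S : Set (X.P.W × X.P.Lam)) :
    ksTanNu X S = ∑ γ, X.P.om γ * X.P.nu γ {l | (γ, l) ∈ S} := by
  unfold ksTanNu
  rw [Measure.finsetSum_apply]
  refine Finset.sum_congr rfl fun γ _ => ?_
  rw [Measure.smul_apply, (kpb_mk_emb X γ).map_apply]
  rfl

/-- the embedding of the incidences of one world -/
def kpbIn (X : KpTan v) (γ : X.P.W) (x : X.P.Lam × ℝ) : (X.P.W × X.P.Lam) × ℝ := ((γ, x.1), x.2)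

theorem kpb_in_emb (X : KpTan v) (γ : X.P.W) : MeasurableEmbedding (kpbIn X γ) :=
  (kpb_mk_emb X γ).prodMap MeasurableEmbedding.id

theorem kpb_meas_inc_iff (X : KpTan v) (S : Set ((X.P.W × X.P.Lam) × ℝ)) :
    MeasurableSet S ↔ ∀ γ, MeasurableSet (kpbSl X S γ) := by
  constructor
  · intro h γ
    exact (kpb_in_emb X γ).measurable h
  · intro h
    have : S = ⋃ γ, kpbIn X γ '' kpbSl X S γ := by
      ext ⟨⟨γ, l⟩, t⟩
      simp [kpbIn, kpbSl]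
    rw [this]
    exact MeasurableSet.iUnion fun γ => (kpb_in_emb X γ).measurableSet_image.2 (h γ)

theorem kpb_prod_eq (X : KpTan v) {S : Set ((X.P.W × X.P.Lam) × ℝ)} (hS : MeasurableSet S) :
    ((ksTanNu X).prod KbPb.tm) S = ∑ γ, X.P.om γ * ((X.P.nu γ).prod KbPb.tm) (kpbSl X S γ) := by
  have : SFinite (KbPb.tm) := by unfold KbPb.tm; infer_instance
  rw [Measure.prod_apply hS]
  unfold ksTanNu
  rw [lintegral_finsetSum_measure]
  refine Finset.sum_congr rfl fun γ _ => ?_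
  rw [lintegral_smul_measure, (kpb_mk_emb X γ).lintegral_map, Measure.prod_apply ((kpb_meas_inc_iff X S).1 hS γ)]
  rfl

theorem kpb_prod_le (X : KpTan v) (S : Set ((X.P.W × X.P.Lam) × ℝ)) :
    ((ksTanNu X).prod KbPb.tm) S ≤ ∑ γ, X.P.om γ * ((X.P.nu γ).prod KbPb.tm) (kpbSl X S γ) := by
  let T : Set ((X.P.W × X.P.Lam) × ℝ) := {q | (q.1.2, q.2) ∈ toMeasurable ((X.P.nu q.1.1).prod KbPb.tm) (kpbSl X S q.1.1)}
  have hTs : ∀ γ, kpbSl X T γ = toMeasurable ((X.P.nu γ).prod KbPb.tm) (kpbSl X S γ) := fun γ => rfl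
  have hT : MeasurableSet T := (kpb_meas_inc_iff X T).2 fun γ => by
    rw [hTs]; exact measurableSet_toMeasurable _ _
  have hST : S ⊆ T := fun q hq => subset_toMeasurable _ _ (show (q.1.2, q.2) ∈ kpbSl X S q.1.1 from hq)
  refine (measure_mono hST).trans ?_
  rw [kpb_prod_eq X hT]
  refine Finset.sum_le_sum fun γ _ => ?_
  rw [hTs, measure_toMeasurable]

/-- the prior of the bridge, measurable sets -/
theorem kpb_prior_eq (X : KpTan v) (p : KpPrm) (Z : KsPrep X) {S : Set ((X.prep p Z).L × ℝ)} (hS : MeasurableSet S) :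
    (X.prep p Z).prior S = ∑ γ, X.P.om γ * ((X.P.nu γ).prod KbPb.tm) (kpbSl X S γ) :=
  kpb_prod_eq X hS

/-- the prior of the bridge, ALL sets -/
theorem kpb_prior_le (X : KpTan v) (p : KpPrm) (Z : KsPrep X) (S : Set ((X.prep p Z).L × ℝ)) :
    (X.prep p Z).prior S ≤ ∑ γ, X.P.om γ * ((X.P.nu γ).prod KbPb.tm) (kpbSl X S γ) :=
  kpb_prod_le X S

/-- the prepared law of a bridge whose selection is measurable, ALL sets -/
theorem kpb_lam0_le (X : KpTan v) (p : KpPrm) (Z : KsPrep X) (hZ : ∀ γ, MeasurableSet (Z.Ev0 γ)) (S : Set ((X.prep p Z).L × ℝ)) :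
    (X.prep p Z).lam0 S ≤ ∑ γ, X.P.om γ * (((X.P.nu γ).prod KbPb.tm).restrict (Z.Ev0 γ)) (kpbSl X S γ) := by
  have hE : MeasurableSet (X.prep p Z).Ev0 := (kpb_meas_inc_iff X (ksSel X Z.Ev0)).2 hZ
  have h1 : (X.prep p Z).lam0 S = (X.prep p Z).prior (S ∩ (X.prep p Z).Ev0) := Measure.restrict_apply' hE
  rw [h1]
  refine (kpb_prior_le X p Z _).trans (Finset.sum_le_sum fun γ _ => ?_)
  rw [Measure.restrict_apply' (hZ γ)]
  exact le_rfl

/-- the same for a set of incidences of ONE parent -/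
theorem kpb_lam0_par (X : KpTan v) (p : KpPrm) (Z : KsPrep X) (hZ : ∀ γ, MeasurableSet (Z.Ev0 γ)) (A : X.P.W) (S : Set ((X.prep p Z).L × ℝ))
    (hS : ∀ q ∈ S, (X.prep p Z).par q.1 = A) :
    (X.prep p Z).lam0 S ≤ X.P.om A * (((X.P.nu A).prod KbPb.tm).restrict (Z.Ev0 A)) (kpbSl X S A) := by
  classical
  refine (kpb_lam0_le X p Z hZ S).trans ?_
  rw [Finset.sum_eq_single A]
  · intro γ _ hγ
    have : kpbSl X S γ = ∅ := by
      ext x
      simp only [Set.mem_empty_iff_false, iff_false]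
      intro hx
      exact hγ (hS _ hx)
    rw [this, measure_empty, mul_zero]
  · intro h
    exact absurd (Finset.mem_univ A) h


/-! ## 2. The groups of fields of `OkLab` -/

namespace KsRef

variable (R : KsRef v)

/-- group of fields of `OkLab`: measurability, probability -/
structure LabM : Prop where
  prob : IsProbabilityMeasure R.ν
  m_co : Measurable R.co
  m_Sp : MeasurableSet R.Sp
  m_Ev0 : MeasurableSet R.Ev0
  m_par : KsLab R.par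
  m_hist : KsLab R.hist
  m_asg : ∀ Q, MeasurableSet (R.asg Q)
  Sp_full : R.ν R.Spᶜ = 0
  Ev0_sub : R.Ev0 ⊆ R.Sp ×ˢ Set.Icc (0 : ℝ) 1

/-- group of fields of `OkLab`: pointwise native bounds, trivial facts on the labels -/
structure LabP (K : ℝ) : Prop where
  y_bd : ∀ l ∈ R.Sp, ∀ t ∈ Set.Icc (0 : ℝ) 1, ‖R.y l t‖ ≤ K
  V_bd : ∀ l ∈ R.Sp, ‖R.V l‖ ≤ K
  X_bd : ∀ l ∈ R.Sp, ∀ t ∈ Set.Icc (0 : ℝ) 1, |R.X l t| ≤ K
  nat_adm : ∀ A, KbAdm (R.nat A)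
  nat_v1 : v = KbVer.one → ∀ A t y w, R.nat A t y w = w
  nat_w : ∀ l ∈ R.Sp, ∀ t ∈ Set.Icc (0 : ℝ) 1, |R.ev (kbDw (R.nat (R.par l))) l t| ≤ K
  nat_ww : ∀ A t y w, |kbDww (R.nat A) t y w| ≤ K
  nat_lo : ∀ p ∈ R.Ev0, 1 ≤ K * |R.ev (kbDw (R.nat (R.par p.1))) p.1 p.2|
  χ_pos : 0 < R.χ
  χ_le : R.χ ≤ 1
  dep_mem : ∀ Q, R.dep Q ∈ R.depths
  dep_nonneg : ∀ Q, 0 ≤ R.dep Q
  lev_dep : ∀ Q Q', R.dep Q = R.dep Q' → R.lev Q = R.lev Q'
  iv_lt : ∀ Q, R.iv Q < 2 ^ R.lev Q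
  asg_Sp : ∀ Q, R.asg Q ⊆ R.Sp
  asg_par : ∀ Q, R.asg Q ⊆ R.par ⁻¹' {R.lpar Q}

/-- group of fields of `OkLab`: the scales of the labels at the NOMINAL depths -/
structure LabS (K : ℝ) : Prop where
  q_lo : ∀ Q, R.a (R.k * R.dep Q) ≤ K * R.q Q
  q_hi : ∀ Q, R.q Q ≤ K * R.a (R.k * R.dep Q)
  inv : ∀ Q, (R.ch Q).D * (R.ch Q).Di = 1
  J_lo : ∀ Q, R.q Q ^ v.j * R.a (R.ell * R.dep Q) ≤ K * R.J Q
  J_hi : ∀ Q, R.J Q ≤ K * (R.q Q ^ v.j * R.a (R.ell * R.dep Q))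
  D_hi : ∀ Q, kbMn (R.ch Q).D ≤ K * R.q Q
  ν_lo : ∀ Q, R.pA (R.lpar Q) * ENNReal.ofReal (R.a (R.dep Q) ^ R.d * R.J Q) ≤ ENNReal.ofReal K * R.νQ Q
  ν_hi : ∀ Q, R.νQ Q ≤ ENNReal.ofReal K * (R.pA (R.lpar Q) * ENNReal.ofReal (R.a (R.dep Q) ^ R.d * R.J Q))

/-- group of fields of `OkLab`: combinatorics of the labels, boxes, fitted tests, speed of the centres -/
structure LabT (K : ℝ) : Prop where
  disj : ∀ Q Q', R.dep Q = R.dep Q' → R.iv Q = R.iv Q' → Q ≠ Q' → Disjoint (R.asg Q) (R.asg Q')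
  nested : ∀ Q', ∀ s ∈ R.depths, s ≤ R.dep Q' → ∃ Q, R.dep Q = s ∧ R.Desc Q' Q
  box_mem : ∀ Q, ∀ l ∈ R.asg Q, ∀ t ∈ R.blk Q, ‖(R.unit Q (t, R.y l t)).2‖ ≤ K
  tst_adm : ∀ Q, KbAdm (R.tst Q)
  tst_val : ∀ Q, ∀ l ∈ R.asg Q, ∀ t ∈ R.blk Q, |R.ev (R.tst Q) l t| ≤ K * R.a (R.dep Q)
  tst_w : ∀ Q, ∀ l ∈ R.asg Q, ∀ t ∈ R.blk Q, |R.ev (kbDw (R.tst Q)) l t| ≤ K
  tst_ww : ∀ Q t y w, |kbDww (R.tst Q) t y w| * R.a (R.dep Q) ≤ K
  tst_lo : ∀ Q, ∀ p ∈ R.Ev0 ∩ R.inc Q, 1 ≤ K * |R.ev (kbDw (R.tst Q)) p.1 p.2|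
  lab_ex : ∀ s ∈ R.depths, ∀ p ∈ R.Ev0, ∃ Q, R.IsLab s p Q
  cen : ∀ Q, ‖(R.ch Q).y1‖ ≤ K

/-- group of fields of `OkLab`: the caps -/
structure LabC (K : ℝ) : Prop where
  capX : ∀ r ∈ R.widths, ∀ A (U : Set (ℝ × KbB v)) (f : ℝ × KbB v → ℝ), MeasurableSet U → Measurable f →
    R.lam0 {p | R.par p.1 = A ∧ R.base p ∈ U ∧ |R.X p.1 p.2 - f (R.base p)| ≤ R.a r}
      ≤ ENNReal.ofReal K * ENNReal.ofReal (R.a r ^ R.d) * R.pA A * volume U
  capw : ∀ r ∈ R.widths, ∀ A (U : Set (ℝ × KbB v)) (f : ℝ × KbB v → ℝ), MeasurableSet U → Measurable f →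
    R.lam0 {p | R.par p.1 = A ∧ R.base p ∈ U ∧ |R.w p.1 p.2 - f (R.base p)| ≤ R.a r}
      ≤ ENNReal.ofReal K * ENNReal.ofReal (R.a r ^ R.d) * R.pA A * volume U
  capQ : ∀ Q (U : Set (ℝ × KbB v)), MeasurableSet U →
    ENNReal.ofReal (R.J Q) * R.lam0 (R.inc Q ∩ R.base ⁻¹' U) ≤ ENNReal.ofReal K * R.νQ Q * volume U

/-- group of fields of `OkLab`: palette, reference weights, domination -/
structure LabD (K : ℝ) : Prop where
  pal_le : ∀ A, R.pal A Set.univ ≤ 1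
  pal_ball : ∀ A x p, R.χ ≤ p → R.pal A (Metric.closedBall x p) ≤ ENNReal.ofReal (K * p ^ R.S)
  ref_par : ∀ A, ∑ h, R.ref (A, h) ≤ ENNReal.ofReal K * R.pA A
  dom : KsDom R.lam0 R.st R.vT (fun x b => R.pi x.1 b) R.ref (ENNReal.ofReal K)
end KsRef

/-- assembly of `OkLab` -/
theorem kpb_assemble {R : KsRef v} {K : ℝ} (hN_ge : 2 ≤ R.N) (hK_ge : 1 ≤ K) (hprm : R.prm.Ok) (hell_v1 : v = KbVer.one → R.ell = 0)
    (hM : R.LabM) (hP : R.LabP K) (hS : R.LabS K) (hT : R.LabT K) (hC : R.LabC K) (hD : R.LabD K)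
    (hR : ∀ Q, ∑ x ∈ R.histIn Q, R.ref x ≤ ENNReal.ofReal K * (ENNReal.ofReal (R.q Q) * R.νQ Q)) : R.OkLab K where
  N_ge := hN_ge
  K_ge := hK_ge
  prm := hprm
  ell_v1 := hell_v1
  prob := hM.prob
  m_co := hM.m_co
  m_Sp := hM.m_Sp
  m_Ev0 := hM.m_Ev0
  m_par := hM.m_par
  m_hist := hM.m_hist
  m_asg := hM.m_asg
  Sp_full := hM.Sp_full
  Ev0_sub := hM.Ev0_sub
  y_bd := hP.y_bd
  V_bd := hP.V_bd
  X_bd := hP.X_bd
  nat_adm := hP.nat_adm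
  nat_v1 := hP.nat_v1
  nat_w := hP.nat_w
  nat_ww := hP.nat_ww
  nat_lo := hP.nat_lo
  χ_pos := hP.χ_pos
  χ_le := hP.χ_le
  pal_le := hD.pal_le
  pal_ball := hD.pal_ball
  ref_par := hD.ref_par
  ref_Q := hR
  dep_mem := hP.dep_mem
  dep_nonneg := hP.dep_nonneg
  lev_dep := hP.lev_dep
  iv_lt := hP.iv_lt
  asg_Sp := hP.asg_Sp
  asg_par := hP.asg_par
  q_lo := hS.q_lo
  q_hi := hS.q_hi
  inv := hS.inv
  J_lo := hS.J_lo
  J_hi := hS.J_hi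
  D_hi := hS.D_hi
  ν_lo := hS.ν_lo
  ν_hi := hS.ν_hi
  disj := hT.disj
  nested := hT.nested
  box_mem := hT.box_mem
  tst_adm := hT.tst_adm
  tst_val := hT.tst_val
  tst_w := hT.tst_w
  tst_ww := hT.tst_ww
  tst_lo := hT.tst_lo
  lab_ex := hT.lab_ex
  capX := hC.capX
  capw := hC.capw
  capQ := hC.capQ
  dom := hD.dom
  cen := hT.cen

/-! ## 3. The context -/

/-- the base record of H0 -/
abbrev kpbR (X : KpTan v) (p : KpPrm) (G : KsReq) (rc : KbChart v → KbChart v) (dflt : KsPLab X G.depths (kprNd X)) : KsRef v :=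
  X.prep p (kprZ0 X G rc dflt)

/-- **all hypotheses of the leaves of H0**.   `K₀ = N^τ'` = slack of `X.Ok`, `K = N^(C τ')` = slack of the conclusions. -/
structure KpbCtx (p : KpPrm) (G : KsReq) (X : KpTan v) (rc : KbChart v → KbChart v) (τ' C : ℝ) : Prop where
  hp : p.Ok
  hv : v = KbVer.one → p.ell = 0
  hG : G.Ok
  rc : KprRc rc
  ok : X.Ok p τ'
  τ_pos : 0 < τ'
  Cτ : C * τ' ≤ 1
  C_ge : 20 + p.ell ≤ C
  C_dep : ∀ s ∈ G.depths, s + 1 ≤ C ∧ 40 ≤ C * s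
  C_wid : ∀ r ∈ G.widths, r ≤ C
  C_U : G.U ≤ C
  C_k : 4 ≤ C * p.k
  N_big : 100 ≤ X.N ^ τ'

namespace KpbCtx

variable {p : KpPrm} {G : KsReq} {X : KpTan v} {rc : KbChart v → KbChart v} {τ' C : ℝ}

theorem N_pos (h : KpbCtx p G X rc τ' C) : 0 < X.N := by linarith [h.ok.N_two]

theorem N_one (h : KpbCtx p G X rc τ' C) : 1 ≤ X.N := by linarith [h.ok.N_two]

theorem C_pos (h : KpbCtx p G X rc τ' C) : 20 ≤ C := by linarith [h.C_ge, h.hp.ell_nonneg]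

/-- `C ≤ 1/τ'` -/
theorem C_le (h : KpbCtx p G X rc τ' C) : C ≤ 1 / τ' := by
  rw [le_div_iff₀ h.τ_pos]; exact h.Cτ

theorem τ_le (h : KpbCtx p G X rc τ' C) : τ' ≤ 1 / 20 := by
  have := h.Cτ
  have := h.C_pos
  have := h.τ_pos
  rw [le_div_iff₀ (by norm_num)]
  nlinarith

/-- monotonicity of `N^·` -/
theorem mono (h : KpbCtx p G X rc τ' C) {a b : ℝ} (hab : a ≤ b) : X.N ^ a ≤ X.N ^ b :=
  Real.rpow_le_rpow_of_exponent_le h.N_one hab

/-- `N^(e τ') ≤ K` for `e ≤ C` -/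
theorem pw (h : KpbCtx p G X rc τ' C) {e : ℝ} (he : e ≤ C) : X.N ^ (e * τ') ≤ X.N ^ (C * τ') :=
  h.mono (mul_le_mul_of_nonneg_right he h.τ_pos.le)

/-- `K₀^n ≤ K` for `n ≤ C` -/
theorem K0_pow (h : KpbCtx p G X rc τ' C) (n : ℕ) (hn : (n : ℝ) ≤ C) : (X.N ^ τ') ^ n ≤ X.N ^ (C * τ') := by
  rw [← Real.rpow_natCast, ← Real.rpow_mul h.N_pos.le, mul_comm τ']
  exact h.pw hn

/-- `c K₀^n ≤ K` for `c ≤ 100`, `n + 1 ≤ C` -/
theorem cK0_pow (h : KpbCtx p G X rc τ' C) (c : ℝ) (hc : c ≤ 100) (n : ℕ) (hn : (n : ℝ) + 1 ≤ C) : c * (X.N ^ τ') ^ n ≤ X.N ^ (C * τ') := by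
  have h1 := h.K0_pow (n + 1) (by push_cast; exact hn)
  have h2 : 0 ≤ (X.N ^ τ') ^ n := by have := h.N_big; positivity
  calc c * (X.N ^ τ') ^ n ≤ X.N ^ τ' * (X.N ^ τ') ^ n := mul_le_mul_of_nonneg_right (hc.trans h.N_big) h2
    _ = (X.N ^ τ') ^ (n + 1) := by ring
    _ ≤ _ := h1

theorem K_ge (h : KpbCtx p G X rc τ' C) : 1 ≤ X.N ^ (C * τ') :=
  Real.one_le_rpow h.N_one (mul_nonneg (by linarith [h.C_pos]) h.τ_pos.le)

/-- the node of a required depth -/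
theorem node (h : KpbCtx p G X rc τ' C) {s : ℝ} (hs : s ∈ G.depths) :
    kprNd X s ≤ X.G ∧ s ≤ X.dep (kprNd X s) ∧ X.dep (kprNd X s) ≤ s + τ' :=
  kpr_nd_spec h.ok h.τ_pos (h.hG.depths s hs) (by linarith [(h.C_dep s hs).1, h.C_le])

end KpbCtx

/-! ## 4. Dictionary (all `rfl`) -/

section dict

variable (X : KpTan v) (p : KpPrm) (G : KsReq) (rc : KbChart v → KbChart v) (dflt : KsPLab X G.depths (kprNd X))

local notation "𝐑" => kpbR X p G rc dflt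

/-- the dictionary between `𝐑` and `X` : every line is `rfl`.   `Q : 𝐑.Lab` is a pair `⟨s, c⟩`, `s : {s // s ∈ G.depths}`, `c : (X.Q (kprNd X s)).C`; an incidence of `𝐑` is `((γ, l), t)`. -/
theorem kpb_dict (Q : (𝐑).Lab) (l : (𝐑).L) (t s : ℝ) (q : (𝐑).L × ℝ) (T : KbTest v) :
    (𝐑).N = X.N ∧ (𝐑).prm = p ∧ (𝐑).a s = X.N ^ (-s) ∧ (𝐑).depths = G.depths ∧ (𝐑).widths = G.widths ∧ (𝐑).χ = X.N ^ (-G.U) ∧
    (𝐑).dep Q = Q.1 ∧ (𝐑).lpar Q = (X.Q (kprNd X Q.1)).wd Q.2 ∧ (𝐑).lev Q = (X.Q (kprNd X Q.1)).n ∧ (𝐑).iv Q = (X.Q (kprNd X Q.1)).iv Q.2 ∧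
    (𝐑).q Q = (X.Q (kprNd X Q.1)).q ∧ (𝐑).blk Q = (X.Q (kprNd X Q.1)).I Q.2 ∧ (𝐑).ch Q = rc ((X.Q (kprNd X Q.1)).ch Q.2) ∧
    (𝐑).asg Q = {x | x.1 = (X.Q (kprNd X Q.1)).wd Q.2 ∧ x.2 ∈ (X.Q (kprNd X Q.1)).A Q.2} ∧
    (𝐑).Sp = {x | x.2 ∈ X.P.Sp x.1} ∧ (𝐑).Ev0 = ksSel X X.P.Ev ∧ (𝐑).par l = l.1 ∧ (𝐑).nat = X.P.Pst ∧ (𝐑).pal = X.pal ∧
    (𝐑).y l t = kbY (X.P.co l.1 l.2) t ∧ (𝐑).V l = kbV (X.P.co l.1 l.2) ∧ (𝐑).w l t = kbW (X.P.co l.1 l.2) t ∧ (𝐑).ev T l t = kbX T (X.P.co l.1 l.2) t ∧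
    (𝐑).X l t = kbX (X.P.Pst l.1) (X.P.co l.1 l.2) t ∧ (𝐑).base q = X.P.bs q.1.1 (q.1.2, q.2) ∧ (𝐑).hist q = X.lab X.G q.1.1 (q.1.2, q.2) ∧
    (𝐑).X q.1 q.2 = X.P.sig q.1.1 (q.1.2, q.2) ∧ (𝐑).w q.1 q.2 = X.P.hw q.1.1 (q.1.2, q.2) ∧ (𝐑).vel l = kpPv p (kbV (X.P.co l.1 l.2)) :=
  ⟨rfl, rfl, rfl, rfl, rfl, rfl, rfl, rfl, rfl, rfl, rfl, rfl, rfl, rfl, rfl, rfl, rfl, rfl, rfl, rfl, rfl, rfl, rfl, rfl, rfl, rfl, rfl, rfl, rfl⟩

/-- the prepared law of the base record, ALL sets -/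
theorem kpb_lam0_le' (hX : X.P.WF) (S : Set ((𝐑).L × ℝ)) : (𝐑).lam0 S ≤ ∑ γ, X.P.om γ * X.P.mu γ (kpbSl X S γ) :=
  kpb_lam0_le X p _ hX.Ev_meas S

/-- the prepared law of the base record on incidences of ONE parent, ALL sets -/
theorem kpb_lam0_par' (hX : X.P.WF) (A : X.P.W) (S : Set ((𝐑).L × ℝ)) (hS : ∀ q ∈ S, (𝐑).par q.1 = A) :
    (𝐑).lam0 S ≤ X.P.om A * X.P.mu A (kpbSl X S A) :=
  kpb_lam0_par X p _ hX.Ev_meas A S hS

end dict

/-! ## 5. The leaves of this file -/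

section leaves

variable {p : KpPrm} {G : KsReq} {X : KpTan v} {rc : KbChart v → KbChart v} {τ' C : ℝ}

/-- the packet of an incidence at a node is unique -/
theorem kpb_uniq (hX : X.Ok p τ') {m : ℕ} (hm : m ≤ X.G) {c c' : (X.Q m).C} (hw : (X.Q m).wd c = (X.Q m).wd c') {l : X.P.Lam} {t : ℝ}
    (h1 : l ∈ (X.Q m).A c) (h2 : t ∈ (X.Q m).I c) (h1' : l ∈ (X.Q m).A c') (h2' : t ∈ (X.Q m).I c') : c = c' := by
  by_contra hne
  exact Set.disjoint_left.1 ((hX.sys_wf m hm).A_disj c c' hne hw (ksl_kbI_inj h2 h2')) h1 h1'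

/-- the path label, from the definition -/
theorem kpb_lab_of_some {m : ℕ} {γ : X.P.W} {x : X.P.Lam × ℝ} {c : (X.Q m).C} (h : X.lab m γ x = some c) : (X.Q m).wd c = γ ∧ x ∈ (X.Q m).S c := by
  classical
  unfold KpTan.lab at h
  split_ifs at h with hex
  have := hex.choose_spec
  rw [Option.some.inj h] at this
  exact this

/-- the path label of a selected incidence -/
theorem kpb_lab_some (hX : X.Ok p τ') {m : ℕ} (hm : m ≤ X.G) (c : (X.Q m).C) {x : X.P.Lam × ℝ} (hx : x ∈ (X.Q m).S c) :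
    X.lab m ((X.Q m).wd c) x = some c := by
  classical
  have hex : ∃ c', (X.Q m).wd c' = (X.Q m).wd c ∧ x ∈ (X.Q m).S c' := ⟨c, rfl, hx⟩
  have e : X.lab m ((X.Q m).wd c) x = some hex.choose := by
    unfold KpTan.lab
    rw [dif_pos hex]
  rw [e]
  have hs := hex.choose_spec
  have a := ((hX.sys_wf m hm).S_sub _ hs.2).2
  have b := ((hX.sys_wf m hm).S_sub _ hx).2
  exact congrArg some (kpb_uniq hX hm hs.1 a.1 a.2 b.1 b.2)

/-- every incidence of the prepared path has a path label -/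
theorem kpb_lab_ex (hX : X.Ok p τ') {m : ℕ} (hm : m ≤ X.G) {γ : X.P.W} {x : X.P.Lam × ℝ} (hx : x ∈ X.P.Ev γ) :
    ∃ c : (X.Q m).C, (X.Q m).wd c = γ ∧ x ∈ (X.Q m).S c ∧ X.lab m γ x = some c := by
  have := hX.cover m hm γ hx
  simp only [KbSys.sel, Set.mem_iUnion, exists_prop] at this
  obtain ⟨c, hc, hxc⟩ := this
  exact ⟨c, hc, hxc, hc ▸ kpb_lab_some hX hm c hxc⟩

/-- the parent weights of the base record -/
theorem kpb_pA (hX : X.P.WF) (p : KpPrm) (Z : KsPrep X) (A : X.P.W) : (X.prep p Z).pA A = X.P.om A := by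
  classical
  have h1 : (X.prep p Z).pA A = ∑ γ, X.P.om γ * X.P.nu γ {l | (γ, l) ∈ ((X.prep p Z).par ⁻¹' {A} : Set (X.P.W × X.P.Lam))} := kpb_nu_apply X _
  rw [h1, Finset.sum_eq_single A]
  · have : {l : X.P.Lam | (A, l) ∈ ((X.prep p Z).par ⁻¹' {A} : Set (X.P.W × X.P.Lam))} = Set.univ := by
      ext l; exact ⟨fun _ => trivial, fun _ => (rfl : A = A)⟩
    have hp := hX.prob A
    rw [this, measure_univ, mul_one]
  · intro γ _ hγ
    have : {l : X.P.Lam | (γ, l) ∈ ((X.prep p Z).par ⁻¹' {A} : Set (X.P.W × X.P.Lam))} = ∅ := by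
      ext l; exact ⟨fun hl => hγ hl, fun hl => hl.elim⟩
    rw [this, measure_empty, mul_zero]
  · intro h; exact absurd (Finset.mem_univ A) h

/-- the assigned masses of the labels of a bridge -/
theorem kpb_nuQ (p : KpPrm) (Z : KsPrep X) (Q : (X.prep p Z).Lab) :
    (X.prep p Z).νQ Q = X.P.om ((X.Q (Z.nd Q.1)).wd Q.2) * (X.Q (Z.nd Q.1)).nuC Q.2 := by
  classical
  have h1 : (X.prep p Z).νQ Q = ∑ γ, X.P.om γ * X.P.nu γ {l | (γ, l) ∈ ((X.prep p Z).asg Q : Set (X.P.W × X.P.Lam))} := kpb_nu_apply X _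
  rw [h1, Finset.sum_eq_single ((X.Q (Z.nd Q.1)).wd Q.2)]
  · have : {l : X.P.Lam | ((X.Q (Z.nd Q.1)).wd Q.2, l) ∈ ((X.prep p Z).asg Q : Set (X.P.W × X.P.Lam))} = (X.Q (Z.nd Q.1)).A Q.2 := by
      ext l; exact ⟨fun hl => hl.2, fun hl => ⟨rfl, hl⟩⟩
    rw [this]; rfl
  · intro γ _ hγ
    have : {l : X.P.Lam | (γ, l) ∈ ((X.prep p Z).asg Q : Set (X.P.W × X.P.Lam))} = ∅ := by
      ext l; exact ⟨fun hl => hγ hl.1, fun hl => hl.elim⟩
    rw [this, measure_empty, mul_zero]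
  · intro h; exact absurd (Finset.mem_univ _) h

/-- the events of the path labels are measurable -/
theorem kpb_lab_meas (hX : X.Ok p τ') {m : ℕ} (hm : m ≤ X.G) (γ : X.P.W) (o : Option (X.Q m).C) : MeasurableSet {x | X.lab m γ x = o} := by
  have hsome : ∀ e : (X.Q m).C, MeasurableSet {x | X.lab m γ x = some e} := by
    intro e
    by_cases he : (X.Q m).wd e = γ
    · have : {x | X.lab m γ x = some e} = (X.Q m).S e := by
        ext x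
        constructor
        · intro hx
          exact (kpb_lab_of_some hx).2
        · intro hx
          show X.lab m γ x = some e
          rw [← he]
          exact kpb_lab_some hX hm e hx
      rw [this]
      exact (hX.sys_wf m hm).S_meas e
    · have : {x | X.lab m γ x = some e} = ∅ := by
        ext x
        simp only [Set.mem_empty_iff_false, iff_false]
        intro hx
        exact he (kpb_lab_of_some hx).1
      rw [this]
      exact MeasurableSet.empty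
  cases o with
  | some e => exact hsome e
  | none =>
    have : {x | X.lab m γ x = none} = (⋃ e, {x | X.lab m γ x = some e})ᶜ := by
      ext x
      simp only [Set.mem_compl_iff, Set.mem_iUnion, not_exists]
      constructor
      · intro hx e he
        have h1 : X.lab m γ x = none := hx
        have h2 : X.lab m γ x = some e := he
        rw [h1] at h2
        exact absurd h2 (by simp)
      · intro hx
        show X.lab m γ x = none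
        rcases hl : X.lab m γ x with _ | e
        · rfl
        · exact absurd hl (hx e)
    rw [this]
    exact (MeasurableSet.iUnion hsome).compl

/-- **L-252-KPB-M**  measurability and probability.
PLAN.  `prob`: `kpb_nu_apply` at `univ`, `WF.prob`, `WF.om_sum`.   `m_co`: a function on `W × Lam` is measurable iff all `f (γ, ·)` are (preimages: `kpb_meas_iff`; `WF.co_meas`).   `m_Sp`, `m_asg`, `m_par`: `kpb_meas_iff` (slices are `Sp γ`, `A c` or `∅`, `univ` or `∅`: `by_cases` on the world).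
`m_Ev0`: `kpb_meas_inc_iff`, slices `= X.P.Ev γ`.   `m_hist`: `kpb_meas_inc_iff`; the slice of `hist ⁻¹' {some e}` in `γ` is `(X.Q X.G).S e` if `wd e = γ` (`kpb_lab_some`, `kpb_lab_of_some`), `∅` otherwise; the slice of `hist ⁻¹' {none}` is the complement of the finite union of the `S e`, `wd e = γ`.
`Sp_full`: `kpb_nu_apply`, `WF.Sp_full`.   `Ev0_sub`: `WF.Ev_sub`.   ~200 l. -/
theorem kpb_labM (h : KpbCtx p G X rc τ' C) (dflt : KsPLab X G.depths (kprNd X)) : (kpbR X p G rc dflt).LabM := by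
  have hX := h.ok
  refine ⟨⟨?_⟩, ?_, ?_, ?_, ?_, ?_, ?_, ?_, ?_⟩
  · show ksTanNu X Set.univ = 1
    rw [kpb_nu_apply, ← hX.wf.om_sum]
    refine Finset.sum_congr rfl fun γ _ => ?_
    have := hX.wf.prob γ
    have e : {l : X.P.Lam | (γ, l) ∈ (Set.univ : Set (X.P.W × X.P.Lam))} = Set.univ := by
      ext l
      simp
    rw [e, measure_univ, mul_one]
  · intro s hs
    exact (kpb_meas_iff X _).2 fun γ => hX.wf.co_meas γ hs
  · exact (kpb_meas_iff X _).2 fun γ => hX.wf.Sp_meas γ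
  · exact (kpb_meas_inc_iff X _).2 fun γ => hX.wf.Ev_meas γ
  · intro A
    exact (kpb_meas_iff X _).2 fun γ => MeasurableSet.const (γ = A)
  · intro o
    exact (kpb_meas_inc_iff X _).2 fun γ => kpb_lab_meas hX le_rfl γ o
  · intro Q
    exact (kpb_meas_iff X _).2 fun γ =>
      (MeasurableSet.const (γ = (X.Q (kprNd X Q.1)).wd Q.2)).inter ((hX.sys_wf _ (h.node Q.1.2).1).A_meas Q.2)
  · show ksTanNu X {x : X.P.W × X.P.Lam | x.2 ∈ X.P.Sp x.1}ᶜ = 0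
    rw [kpb_nu_apply]
    refine Finset.sum_eq_zero fun γ _ => ?_
    have e : {l : X.P.Lam | (γ, l) ∈ ({x : X.P.W × X.P.Lam | x.2 ∈ X.P.Sp x.1}ᶜ : Set (X.P.W × X.P.Lam))} = (X.P.Sp γ)ᶜ := rfl
    rw [e, hX.wf.Sp_full γ, mul_zero]
  · intro q hq
    have := hX.wf.Ev_sub q.1.1 (show (q.1.2, q.2) ∈ X.P.Ev q.1.1 from hq)
    exact ⟨this.1, this.2⟩

/-- **L-252-KPB-P**  native bounds and trivial facts.
PLAN.  Everything is a field of `h.ok` after `show` (dictionary `kpb_dict`), with `K₀ = N^τ' ≤ K` (`h.pw` with `e = 1`, `one_mul`) and `B = 1` (`h.ok.B_one`): `y_bd`, `V_bd` from `ntv.base` (norms are nonnegative; `t = 0` for `V_bd`), `X_bd` `ntv.sig`, `nat_w` `ntv.dw`, `nat_ww` `ntv.dww`, `nat_lo` `ntv.dw_low`,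
`nat_adm`, `nat_v1` from `wf`.   `χ = N^(-U)`, `U ≥ 0`.   `dep_mem` = `Q.1.2`, `dep_nonneg` from `hG.depths`, `lev_dep`: `Subtype.ext` then `rfl` after `cases`/`subst` (write `Q = ⟨s, c⟩`), `iv_lt`, `asg_Sp` from `sys_wf` at the node (`h.node`).   ~150 l. -/
theorem kpb_labP (h : KpbCtx p G X rc τ' C) (dflt : KsPLab X G.depths (kprNd X)) : (kpbR X p G rc dflt).LabP (X.N ^ (C * τ')) := by
  have hK0 : X.N ^ τ' ≤ X.N ^ (C * τ') := by
    have := h.pw (e := 1) (by linarith [h.C_pos])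
    rwa [one_mul] at this
  have hX := h.ok
  refine ⟨?_, ?_, ?_, ?_, ?_, ?_, ?_, ?_, ?_, ?_, ?_, ?_, ?_, ?_, ?_, ?_⟩
  · intro l hl t ht
    have := hX.ntv.base l.1 l.2 hl t ht
    show ‖kbY (X.P.co l.1 l.2) t‖ ≤ _
    linarith [norm_nonneg (kbV (X.P.co l.1 l.2))]
  · intro l hl
    have := hX.ntv.base l.1 l.2 hl 0 ⟨le_rfl, zero_le_one⟩
    show ‖kbV (X.P.co l.1 l.2)‖ ≤ _
    linarith [norm_nonneg (kbY (X.P.co l.1 l.2) 0)]
  · intro l hl t ht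
    exact (hX.ntv.sig l.1 l.2 hl t ht).trans hK0
  · exact fun A => hX.wf.Pst_adm A
  · exact fun hv A => (hX.wf.v1 hv A).2
  · intro l hl t ht
    have := hX.ntv.dw l.1 l.2 hl t ht
    rw [hX.B_one, mul_one] at this
    exact this.trans hK0
  · intro A t y w
    have := hX.ntv.dww A t y w
    rw [hX.B_one (A : X.P.W), one_pow, mul_one] at this
    exact this.trans hK0
  · intro q hq
    have := hX.ntv.dw_low q.1.1 (q.1.2, q.2) hq
    rw [hX.B_one] at this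
    exact this.trans (mul_le_mul_of_nonneg_right hK0 (abs_nonneg _))
  · exact Real.rpow_pos_of_pos h.N_pos _
  · exact Real.rpow_le_one_of_one_le_of_nonpos h.N_one (by linarith [h.hG.U])
  · exact fun Q => Q.1.2
  · exact fun Q => (h.hG.depths _ Q.1.2).le
  · rintro ⟨s, c⟩ ⟨s', c'⟩ hd
    have : s = s' := Subtype.ext hd
    subst this
    rfl
  · exact fun Q => (hX.sys_wf _ (h.node Q.1.2).1).iv_lt Q.2
  · rintro Q x ⟨hx1, hx2⟩
    have := (hX.sys_wf _ (h.node Q.1.2).1).A_sub Q.2 hx2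
    show x.2 ∈ X.P.Sp x.1
    rw [hx1]
    exact this
  · rintro Q x ⟨hx1, _⟩
    exact hx1

/-- `N^x ≤ K N^y` for `x ≤ C τ' + y` -/
theorem kpb_split (h : KpbCtx p G X rc τ' C) {x y : ℝ} (hxy : x ≤ C * τ' + y) : X.N ^ x ≤ X.N ^ (C * τ') * X.N ^ y := by
  rw [← Real.rpow_add h.N_pos]
  exact h.mono hxy

/-- **L-252-KPB-S**  the scales at the nominal depths.   `Q = ⟨s, c⟩`, `m = kprNd X s`, `s ≤ dep m ≤ s + τ'` (`h.node`).
PLAN.  All bounds are `N^x ≤ N^y` (`h.mono`) after `Real.rpow_add h.N_pos` / `← Real.rpow_add`: `q_lo`: `N^(-k s) ≤ N^(C τ') N^(-k dep m - τ')` since `k ≤ 1`, `C ≥ 2`;   `q_hi`;   `J_lo`, `J_hi` with `(rc ch).J = ch.J` (`h.rc.J`), exponent `ell + 1 ≤ C`;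
`inv`: `h.rc.inv` + `sys_wf.inv`;   `D_hi`: `h.rc.size`, `geo.size`, `2 K₀ ≤ K` (`h.cK0_pow 2 _ 1`);   `ν_lo`, `ν_hi`: `kpb_pA`, `kpb_nuQ`, `nu_lo`, `nu_hi`; `(N^(-s))^d = N^(-s d)` (`Real.rpow_mul`); in `ℝ≥0∞`: `ENNReal.ofReal_mul`, `ENNReal.ofReal_le_ofReal`, `mul_le_mul'`, commutativity.   ~250 l. -/
theorem kpb_labS (h : KpbCtx p G X rc τ' C) (dflt : KsPLab X G.depths (kprNd X)) : (kpbR X p G rc dflt).LabS (X.N ^ (C * τ')) := by
  have hX := h.ok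
  have hτ := h.τ_pos
  have hC := h.C_ge
  have hp := h.hp
  have hK0 : 0 < X.N ^ (C * τ') := Real.rpow_pos_of_pos h.N_pos _
  have hpos : ∀ x : ℝ, 0 < X.N ^ x := fun x => Real.rpow_pos_of_pos h.N_pos x
  have hCτ : ∀ e : ℝ, e ≤ C → e * τ' ≤ C * τ' := fun e he => mul_le_mul_of_nonneg_right he hτ.le
  refine ⟨fun Q => ?_, fun Q => ?_, fun Q => ?_, fun Q => ?_, fun Q => ?_, fun Q => ?_, fun Q => ?_, fun Q => ?_⟩
  · obtain ⟨hm, hs1, hs2⟩ := h.node Q.1.2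
    show X.N ^ (-(p.k * (Q.1 : ℝ))) ≤ X.N ^ (C * τ') * (X.Q (kprNd X Q.1)).q
    refine (kpb_split h (y := -p.k * X.dep (kprNd X Q.1) - τ') ?_).trans (mul_le_mul_of_nonneg_left (hX.q_lo _ hm) hK0.le)
    have := hCτ 2 (by linarith [hp.ell_nonneg])
    nlinarith [hp.k_pos, hp.k_le]
  · obtain ⟨hm, hs1, hs2⟩ := h.node Q.1.2
    show (X.Q (kprNd X Q.1)).q ≤ X.N ^ (C * τ') * X.N ^ (-(p.k * (Q.1 : ℝ)))
    refine (hX.q_hi _ hm).trans (kpb_split h ?_)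
    have := hCτ 1 (by linarith [hp.ell_nonneg])
    nlinarith [hp.k_pos, hp.k_le]
  · exact h.rc.inv _ ((hX.sys_wf _ (h.node Q.1.2).1).inv Q.2)
  · obtain ⟨hm, hs1, hs2⟩ := h.node Q.1.2
    show (X.Q (kprNd X Q.1)).q ^ v.j * X.N ^ (-(p.ell * (Q.1 : ℝ))) ≤ X.N ^ (C * τ') * (rc ((X.Q (kprNd X Q.1)).ch Q.2)).J
    rw [h.rc.J]
    have hq : 0 ≤ (X.Q (kprNd X Q.1)).q ^ v.j := pow_nonneg (k2s_q_pos _).le _
    have h1 : X.N ^ (-(p.ell * (Q.1 : ℝ))) ≤ X.N ^ (C * τ') * X.N ^ (-p.ell * X.dep (kprNd X Q.1) - τ') := by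
      refine kpb_split h ?_
      have := hCτ (p.ell + 1) (by linarith)
      nlinarith [hp.ell_nonneg]
    calc (X.Q (kprNd X Q.1)).q ^ v.j * X.N ^ (-(p.ell * (Q.1 : ℝ)))
        ≤ (X.Q (kprNd X Q.1)).q ^ v.j * (X.N ^ (C * τ') * X.N ^ (-p.ell * X.dep (kprNd X Q.1) - τ')) := mul_le_mul_of_nonneg_left h1 hq
      _ = X.N ^ (C * τ') * ((X.Q (kprNd X Q.1)).q ^ v.j * X.N ^ (-p.ell * X.dep (kprNd X Q.1) - τ')) := by ring
      _ ≤ _ := mul_le_mul_of_nonneg_left (hX.J_lo _ hm Q.2) hK0.le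
  · obtain ⟨hm, hs1, hs2⟩ := h.node Q.1.2
    show (rc ((X.Q (kprNd X Q.1)).ch Q.2)).J ≤ X.N ^ (C * τ') * ((X.Q (kprNd X Q.1)).q ^ v.j * X.N ^ (-(p.ell * (Q.1 : ℝ))))
    rw [h.rc.J]
    have hq : 0 ≤ (X.Q (kprNd X Q.1)).q ^ v.j := pow_nonneg (k2s_q_pos _).le _
    have h1 : X.N ^ (-p.ell * X.dep (kprNd X Q.1) + τ') ≤ X.N ^ (C * τ') * X.N ^ (-(p.ell * (Q.1 : ℝ))) := by
      refine kpb_split h ?_
      have := hCτ 1 (by linarith [hp.ell_nonneg])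
      nlinarith [hp.ell_nonneg]
    calc ((X.Q (kprNd X Q.1)).ch Q.2).J ≤ (X.Q (kprNd X Q.1)).q ^ v.j * X.N ^ (-p.ell * X.dep (kprNd X Q.1) + τ') := hX.J_hi _ hm Q.2
      _ ≤ (X.Q (kprNd X Q.1)).q ^ v.j * (X.N ^ (C * τ') * X.N ^ (-(p.ell * (Q.1 : ℝ)))) := mul_le_mul_of_nonneg_left h1 hq
      _ = _ := by ring
  · obtain ⟨hm, hs1, hs2⟩ := h.node Q.1.2
    show kbMn (rc ((X.Q (kprNd X Q.1)).ch Q.2)).D ≤ X.N ^ (C * τ') * (X.Q (kprNd X Q.1)).q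
    have h1 := h.rc.size ((X.Q (kprNd X Q.1)).ch Q.2)
    have h2 := (hX.geo _ hm).size Q.2
    have h3 := h.cK0_pow 2 (by norm_num) 1 (by push_cast; linarith [hp.ell_nonneg])
    rw [pow_one] at h3
    have hq : 0 < (X.Q (kprNd X Q.1)).q := k2s_q_pos _
    calc kbMn (rc ((X.Q (kprNd X Q.1)).ch Q.2)).D ≤ 2 * kbMn ((X.Q (kprNd X Q.1)).ch Q.2).D := h1
      _ ≤ 2 * ((X.Q (kprNd X Q.1)).q * X.N ^ τ') := by linarith
      _ = (2 * X.N ^ τ') * (X.Q (kprNd X Q.1)).q := by ring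
      _ ≤ _ := mul_le_mul_of_nonneg_right h3 hq.le
  · obtain ⟨hm, hs1, hs2⟩ := h.node Q.1.2
    have e1 : (kpbR X p G rc dflt).pA ((kpbR X p G rc dflt).lpar Q) = X.P.om ((X.Q (kprNd X Q.1)).wd Q.2) := kpb_pA hX.wf p _ _
    have e2 : (kpbR X p G rc dflt).νQ Q = X.P.om ((X.Q (kprNd X Q.1)).wd Q.2) * (X.Q (kprNd X Q.1)).nuC Q.2 := kpb_nuQ p _ Q
    rw [e1, e2]
    show X.P.om ((X.Q (kprNd X Q.1)).wd Q.2) * ENNReal.ofReal ((X.N ^ (-(Q.1 : ℝ))) ^ p.d * (rc ((X.Q (kprNd X Q.1)).ch Q.2)).J)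
      ≤ ENNReal.ofReal (X.N ^ (C * τ')) * (X.P.om ((X.Q (kprNd X Q.1)).wd Q.2) * (X.Q (kprNd X Q.1)).nuC Q.2)
    rw [h.rc.J]
    have hJ : 0 ≤ ((X.Q (kprNd X Q.1)).ch Q.2).J := abs_nonneg _
    have h1 : (X.N ^ (-(Q.1 : ℝ))) ^ p.d ≤ X.N ^ (C * τ') * X.N ^ (-p.d * X.dep (kprNd X Q.1) - τ') := by
      rw [← Real.rpow_mul h.N_pos.le]
      refine kpb_split h ?_
      have := hCτ 2 (by linarith [hp.ell_nonneg])
      nlinarith [hp.d_nonneg, hp.d_lt]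
    have h2 : ENNReal.ofReal ((X.N ^ (-(Q.1 : ℝ))) ^ p.d * ((X.Q (kprNd X Q.1)).ch Q.2).J)
        ≤ ENNReal.ofReal (X.N ^ (C * τ')) * (X.Q (kprNd X Q.1)).nuC Q.2 := by
      calc ENNReal.ofReal ((X.N ^ (-(Q.1 : ℝ))) ^ p.d * ((X.Q (kprNd X Q.1)).ch Q.2).J)
          ≤ ENNReal.ofReal (X.N ^ (C * τ') * (X.N ^ (-p.d * X.dep (kprNd X Q.1) - τ') * ((X.Q (kprNd X Q.1)).ch Q.2).J)) := by
            refine ENNReal.ofReal_le_ofReal ?_
            rw [← mul_assoc]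
            exact mul_le_mul_of_nonneg_right h1 hJ
        _ = ENNReal.ofReal (X.N ^ (C * τ')) * ENNReal.ofReal (X.N ^ (-p.d * X.dep (kprNd X Q.1) - τ') * ((X.Q (kprNd X Q.1)).ch Q.2).J) :=
            ENNReal.ofReal_mul hK0.le
        _ ≤ _ := mul_le_mul' le_rfl (hX.nu_lo _ hm Q.2)
    calc _ ≤ X.P.om ((X.Q (kprNd X Q.1)).wd Q.2) * (ENNReal.ofReal (X.N ^ (C * τ')) * (X.Q (kprNd X Q.1)).nuC Q.2) := mul_le_mul' le_rfl h2
      _ = _ := by ring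
  · obtain ⟨hm, hs1, hs2⟩ := h.node Q.1.2
    have e1 : (kpbR X p G rc dflt).pA ((kpbR X p G rc dflt).lpar Q) = X.P.om ((X.Q (kprNd X Q.1)).wd Q.2) := kpb_pA hX.wf p _ _
    have e2 : (kpbR X p G rc dflt).νQ Q = X.P.om ((X.Q (kprNd X Q.1)).wd Q.2) * (X.Q (kprNd X Q.1)).nuC Q.2 := kpb_nuQ p _ Q
    rw [e1, e2]
    show X.P.om ((X.Q (kprNd X Q.1)).wd Q.2) * (X.Q (kprNd X Q.1)).nuC Q.2
      ≤ ENNReal.ofReal (X.N ^ (C * τ')) * (X.P.om ((X.Q (kprNd X Q.1)).wd Q.2) * ENNReal.ofReal ((X.N ^ (-(Q.1 : ℝ))) ^ p.d * (rc ((X.Q (kprNd X Q.1)).ch Q.2)).J))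
    rw [h.rc.J]
    have hJ : 0 ≤ ((X.Q (kprNd X Q.1)).ch Q.2).J := abs_nonneg _
    have h1 : X.N ^ (-p.d * X.dep (kprNd X Q.1) + τ') ≤ X.N ^ (C * τ') * (X.N ^ (-(Q.1 : ℝ))) ^ p.d := by
      rw [← Real.rpow_mul h.N_pos.le]
      refine kpb_split h ?_
      have := hCτ 1 (by linarith [hp.ell_nonneg])
      nlinarith [hp.d_nonneg, hp.d_lt]
    have h2 : (X.Q (kprNd X Q.1)).nuC Q.2
        ≤ ENNReal.ofReal (X.N ^ (C * τ')) * ENNReal.ofReal ((X.N ^ (-(Q.1 : ℝ))) ^ p.d * ((X.Q (kprNd X Q.1)).ch Q.2).J) := by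
      calc (X.Q (kprNd X Q.1)).nuC Q.2 ≤ ENNReal.ofReal (X.N ^ (-p.d * X.dep (kprNd X Q.1) + τ') * ((X.Q (kprNd X Q.1)).ch Q.2).J) := hX.nu_hi _ hm Q.2
        _ ≤ ENNReal.ofReal (X.N ^ (C * τ') * ((X.N ^ (-(Q.1 : ℝ))) ^ p.d * ((X.Q (kprNd X Q.1)).ch Q.2).J)) := by
            refine ENNReal.ofReal_le_ofReal ?_
            rw [← mul_assoc]
            exact mul_le_mul_of_nonneg_right h1 hJ
        _ = _ := ENNReal.ofReal_mul hK0.le
    calc _ ≤ X.P.om ((X.Q (kprNd X Q.1)).wd Q.2) * (ENNReal.ofReal (X.N ^ (C * τ')) * ENNReal.ofReal ((X.N ^ (-(Q.1 : ℝ))) ^ p.d * ((X.Q (kprNd X Q.1)).ch Q.2).J)) :=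
          mul_le_mul' le_rfl h2
      _ = _ := by ring

/-- **L-252-KPB-T1**  an assigned piece stays within `q K₀²` of the centre.   PLAN: `y - y_c = D (Di (y - y_c))` (`sys_wf.inv`, `Matrix.mulVec_mulVec`), `k2s_mulVec_le`, `geo.size`, `geo.box`. -/
theorem kpb_pos_err (hX : X.Ok p τ') {m : ℕ} (hm : m ≤ X.G) (c : (X.Q m).C) {l : X.P.Lam} (hl : l ∈ (X.Q m).A c) {t : ℝ} (ht : t ∈ (X.Q m).I c) :
    ‖kbY (X.P.co ((X.Q m).wd c) l) t - ((X.Q m).ch c).yc t‖ ≤ (X.Q m).q * (X.N ^ τ') ^ 2 := by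
  have hg := hX.geo m hm
  have hbox := hg.box c l hl t ht
  have hN : 0 < X.N ^ τ' := Real.rpow_pos_of_pos (by linarith [hX.N_two]) _
  have hq : 0 < (X.Q m).q := k2s_q_pos _
  have e : kbY (X.P.co ((X.Q m).wd c) l) t - ((X.Q m).ch c).yc t
      = ((X.Q m).ch c).D.mulVec (((X.Q m).ch c).Di.mulVec (kbY (X.P.co ((X.Q m).wd c) l) t - ((X.Q m).ch c).yc t)) := by
    rw [Matrix.mulVec_mulVec, (hX.sys_wf m hm).inv c, Matrix.one_mulVec]
  have h1 := k2s_mulVec_le ((X.Q m).ch c).D (((X.Q m).ch c).Di.mulVec (kbY (X.P.co ((X.Q m).wd c) l) t - ((X.Q m).ch c).yc t))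
  rw [← e] at h1
  calc _ ≤ kbMn ((X.Q m).ch c).D * ‖((X.Q m).ch c).Di.mulVec (kbY (X.P.co ((X.Q m).wd c) l) t - ((X.Q m).ch c).yc t)‖ := h1
    _ ≤ ((X.Q m).q * X.N ^ τ') * X.N ^ τ' := mul_le_mul (hg.size c) hbox (norm_nonneg _) (mul_nonneg hq.le hN.le)
    _ = _ := by ring

/-- **L-252-KPB-T1**  every packet is nonempty.   PLAN: `nu_lo`, `k2s_J_pos`: `nuC c > 0`, so `A c ≠ ∅` (`measure_empty`). -/
theorem kpb_A_nonempty (hX : X.Ok p τ') {m : ℕ} (hm : m ≤ X.G) (c : (X.Q m).C) : ((X.Q m).A c).Nonempty := by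
  have hJ : 0 < ((X.Q m).ch c).J := k2s_J_pos _ (hX.sys_wf _ hm) c
  have hlo := hX.nu_lo _ hm c
  have hpos : 0 < (X.Q m).nuC c := by
    refine lt_of_lt_of_le ?_ hlo
    rw [ENNReal.ofReal_pos]
    exact mul_pos (Real.rpow_pos_of_pos (by linarith [hX.N_two]) _) hJ
  rw [Set.nonempty_iff_ne_empty]
  intro he
  unfold KbSys.nuC at hpos
  rw [he, measure_empty] at hpos
  exact lt_irrefl _ hpos

/-- **L-252-KPB-T1**  speed of the centres.   PLAN: `kpb_A_nonempty`, `k2s_vel_ball` (`q ‖V - y1‖ ≤ 4 K₀ |D| ≤ 4 K₀² q`), `ntv.base` (`‖V‖ ≤ K₀`; `A_sub`). -/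
theorem kpb_cen (hX : X.Ok p τ') {m : ℕ} (hm : m ≤ X.G) (c : (X.Q m).C) : ‖((X.Q m).ch c).y1‖ ≤ 5 * (X.N ^ τ') ^ 2 := by
  obtain ⟨l, hl⟩ := kpb_A_nonempty hX hm c
  have hτ : 0 < τ' := lt_of_lt_of_le hX.dep_zero.1 hX.dep_zero.2
  have hN : 1 ≤ X.N ^ τ' := Real.one_le_rpow (by linarith [hX.N_two]) hτ.le
  have hq : 0 < (X.Q m).q := k2s_q_pos _
  have hg := hX.geo m hm
  have h1 := k2s_vel_ball (X.Q m) (hX.sys_wf m hm) hg c l hl
  have h2 : (X.Q m).q * ‖kbV (X.P.co ((X.Q m).wd c) l) - ((X.Q m).ch c).y1‖ ≤ (X.Q m).q * (4 * (X.N ^ τ') ^ 2) := by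
    calc _ ≤ 4 * X.N ^ τ' * kbMn ((X.Q m).ch c).D := h1
      _ ≤ 4 * X.N ^ τ' * ((X.Q m).q * X.N ^ τ') := mul_le_mul_of_nonneg_left (hg.size c) (by linarith)
      _ = _ := by ring
  have h3 : ‖kbV (X.P.co ((X.Q m).wd c) l) - ((X.Q m).ch c).y1‖ ≤ 4 * (X.N ^ τ') ^ 2 := le_of_mul_le_mul_left h2 hq
  have h4 := hX.ntv.base _ l ((hX.sys_wf m hm).A_sub c hl) 0 ⟨le_rfl, zero_le_one⟩
  have h5 : ‖kbV (X.P.co ((X.Q m).wd c) l)‖ ≤ X.N ^ τ' := by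
    linarith [norm_nonneg (kbY (X.P.co ((X.Q m).wd c) l) 0)]
  have e : ((X.Q m).ch c).y1 = kbV (X.P.co ((X.Q m).wd c) l) - (kbV (X.P.co ((X.Q m).wd c) l) - ((X.Q m).ch c).y1) := by abel
  rw [e]
  refine (norm_sub_le _ _).trans ?_
  nlinarith

/-- **L-252-KPB-T2**  combinatorics of the labels, boxes, tests.   `Q = ⟨s, c⟩`, `m = kprNd X s`.
PLAN.  `disj`: `dep Q = dep Q'` gives `s = s'` (`Subtype.ext`, then `subst`/`cases`); different worlds: the first components differ; same world: `sys_wf.A_disj`.   `nested`: `kpr_nd_mono` (`∃ m, s' ≤ dep m` from `h.node`), `kpr_anc`.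
`box_mem`: `(rc ch).yc = ch.yc` (`h.rc.y0`, `h.rc.y1`), `h.rc.box`, `geo.box`, `2 K₀ ≤ K`.   `tst_*`: `h.rc.T`; `geo.val` with `a_m = N^(-dep m) ≤ N^(-s)`; `geo.dw`, `geo.dw_low` (an incidence of `Ev0 ∩ inc Q` lies in `S c` by `h.ok.path`), `B = 1`;
`tst_ww`: `geo.dww`, `N^(-s) ≤ N^τ' N^(-dep m)`, `K₀² ≤ K`.   `lab_ex`: `kpb_lab_ex`, `sys_wf.S_sub`.   `cen`: `kpb_cen`, `h.rc.y1`, `5 K₀² ≤ K`.   ~300 l. -/
theorem kpb_labT (h : KpbCtx p G X rc τ' C) (dflt : KsPLab X G.depths (kprNd X)) : (kpbR X p G rc dflt).LabT (X.N ^ (C * τ')) := by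
  have hX := h.ok
  have hτ := h.τ_pos
  have hCp := h.C_pos
  have hN0 : 0 < X.N ^ τ' := Real.rpow_pos_of_pos h.N_pos _
  have hK0 : X.N ^ τ' ≤ X.N ^ (C * τ') := by
    have := h.pw (e := 1) (by linarith)
    rwa [one_mul] at this
  have h2K0 : 2 * X.N ^ τ' ≤ X.N ^ (C * τ') := by
    have := h.cK0_pow 2 (by norm_num) 1 (by push_cast; linarith)
    rwa [pow_one] at this
  refine ⟨?_, ?_, ?_, ?_, ?_, ?_, ?_, ?_, ?_, ?_⟩
  · rintro ⟨s, c⟩ ⟨s', c'⟩ hd hi hne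
    have hs : s = s' := Subtype.ext hd
    subst hs
    have hc : c ≠ c' := fun hcc => hne (by rw [hcc])
    rw [Set.disjoint_left]
    rintro x ⟨hx1, hx2⟩ ⟨hx1', hx2'⟩
    exact Set.disjoint_left.1 ((hX.sys_wf _ (h.node s.2).1).A_disj c c' hc (hx1.symm.trans hx1') hi) hx2 hx2'
  · rintro ⟨s', c'⟩ s hs hss
    have hmm : kprNd X s ≤ kprNd X s' := kpr_nd_mono hss ⟨_, (h.node s'.2).2.1⟩
    obtain ⟨c, a1, a2, a3⟩ := kpr_anc hX hmm (h.node s'.2).1 c'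
    refine ⟨⟨⟨s, hs⟩, c⟩, rfl, hss, ?_, a3⟩
    rintro x ⟨hx1, hx2⟩
    exact ⟨hx1.trans a1.symm, a2 hx2⟩
  · rintro Q ⟨γ, l⟩ ⟨hγ, hl⟩ t ht
    have hγ' : γ = (X.Q (kprNd X Q.1)).wd Q.2 := hγ
    subst hγ'
    show ‖(rc ((X.Q (kprNd X Q.1)).ch Q.2)).Di.mulVec (kbY (X.P.co ((X.Q (kprNd X Q.1)).wd Q.2) l) t - (rc ((X.Q (kprNd X Q.1)).ch Q.2)).yc t)‖ ≤ _
    have e : (rc ((X.Q (kprNd X Q.1)).ch Q.2)).yc t = ((X.Q (kprNd X Q.1)).ch Q.2).yc t := by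
      unfold KbChart.yc
      rw [h.rc.y0, h.rc.y1]
    rw [e]
    have h1 := h.rc.box ((X.Q (kprNd X Q.1)).ch Q.2) (kbY (X.P.co ((X.Q (kprNd X Q.1)).wd Q.2) l) t - ((X.Q (kprNd X Q.1)).ch Q.2).yc t)
    have h2 := (hX.geo _ (h.node Q.1.2).1).box Q.2 l hl t ht
    linarith
  · intro Q
    show KbAdm (rc ((X.Q (kprNd X Q.1)).ch Q.2)).T
    rw [h.rc.T]
    exact (hX.sys_wf _ (h.node Q.1.2).1).adm Q.2
  · rintro Q ⟨γ, l⟩ ⟨hγ, hl⟩ t ht
    have hγ' : γ = (X.Q (kprNd X Q.1)).wd Q.2 := hγ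
    subst hγ'
    show |kbX (rc ((X.Q (kprNd X Q.1)).ch Q.2)).T (X.P.co ((X.Q (kprNd X Q.1)).wd Q.2) l) t| ≤ X.N ^ (C * τ') * X.N ^ (-(Q.1 : ℝ))
    rw [h.rc.T]
    have h2 := (hX.geo _ (h.node Q.1.2).1).val Q.2 l hl t ht
    have h3 : X.a (kprNd X Q.1) ≤ X.N ^ (-(Q.1 : ℝ)) := h.mono (by linarith [(h.node Q.1.2).2.1])
    exact h2.trans (mul_le_mul hK0 h3 (Real.rpow_pos_of_pos h.N_pos _).le (hN0.le.trans hK0))
  · rintro Q ⟨γ, l⟩ ⟨hγ, hl⟩ t ht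
    have hγ' : γ = (X.Q (kprNd X Q.1)).wd Q.2 := hγ
    subst hγ'
    show |kbX (kbDw (rc ((X.Q (kprNd X Q.1)).ch Q.2)).T) (X.P.co ((X.Q (kprNd X Q.1)).wd Q.2) l) t| ≤ X.N ^ (C * τ')
    rw [h.rc.T]
    have h2 := (hX.geo _ (h.node Q.1.2).1).dw Q.2 l hl t ht
    rw [hX.B_one, mul_one] at h2
    exact h2.trans hK0
  · intro Q t y w
    show |kbDww (rc ((X.Q (kprNd X Q.1)).ch Q.2)).T t y w| * X.N ^ (-(Q.1 : ℝ)) ≤ X.N ^ (C * τ')
    rw [h.rc.T]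
    have h2 := (hX.geo _ (h.node Q.1.2).1).dww Q.2 t y w
    rw [hX.B_one, one_pow, mul_one] at h2
    have h3 : X.N ^ (-(Q.1 : ℝ)) ≤ X.N ^ τ' * X.a (kprNd X Q.1) := by
      unfold KpTan.a
      rw [← Real.rpow_add h.N_pos]
      exact h.mono (by linarith [(h.node Q.1.2).2.2])
    have h4 := h.K0_pow 2 (by push_cast; linarith)
    calc |kbDww ((X.Q (kprNd X Q.1)).ch Q.2).T t y w| * X.N ^ (-(Q.1 : ℝ))
        ≤ |kbDww ((X.Q (kprNd X Q.1)).ch Q.2).T t y w| * (X.N ^ τ' * X.a (kprNd X Q.1)) := mul_le_mul_of_nonneg_left h3 (abs_nonneg _)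
      _ = X.N ^ τ' * (|kbDww ((X.Q (kprNd X Q.1)).ch Q.2).T t y w| * X.a (kprNd X Q.1)) := by ring
      _ ≤ X.N ^ τ' * X.N ^ τ' := mul_le_mul_of_nonneg_left h2 hN0.le
      _ = (X.N ^ τ') ^ 2 := by ring
      _ ≤ _ := h4
  · rintro Q ⟨⟨γ, l⟩, t⟩ ⟨hE, ⟨hγ, hl⟩, ht⟩
    have hγ' : γ = (X.Q (kprNd X Q.1)).wd Q.2 := hγ
    subst hγ'
    show 1 ≤ X.N ^ (C * τ') * |kbX (kbDw (rc ((X.Q (kprNd X Q.1)).ch Q.2)).T) (X.P.co ((X.Q (kprNd X Q.1)).wd Q.2) l) t|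
    rw [h.rc.T]
    have hS : (l, t) ∈ (X.Q (kprNd X Q.1)).S Q.2 := by
      rw [hX.path _ (h.node Q.1.2).1 Q.2]
      exact ⟨hE, hl, ht⟩
    have h2 := (hX.geo _ (h.node Q.1.2).1).dw_low Q.2 (l, t) hS
    rw [hX.B_one] at h2
    exact h2.trans (mul_le_mul_of_nonneg_right hK0 (abs_nonneg _))
  · rintro s hs ⟨⟨γ, l⟩, t⟩ hE
    obtain ⟨c, hc, hxc, -⟩ := kpb_lab_ex hX (h.node hs).1 (show (l, t) ∈ X.P.Ev γ from hE)
    have := ((hX.sys_wf _ (h.node hs).1).S_sub c hxc).2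
    exact ⟨⟨⟨s, hs⟩, c⟩, rfl, ⟨hc.symm, this.1⟩, this.2⟩
  · intro Q
    show ‖(rc ((X.Q (kprNd X Q.1)).ch Q.2)).y1‖ ≤ _
    rw [h.rc.y1]
    exact (kpb_cen hX (h.node Q.1.2).1 Q.2).trans (h.cK0_pow 5 (by norm_num) 2 (by push_cast; linarith))

/-- the exponent arithmetic of `kpb_deep` -/
theorem kpb_deep_exp (h : KpbCtx p G X rc τ' C) : -p.k * (1 / τ') + 4 * τ' ≤ -(1 / (C * τ')) := by
  have hC : 0 < C := by linarith [h.C_pos]
  have hτ := h.τ_pos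
  have hk1 := h.hp.k_le
  have hk0 := h.hp.k_pos
  have hu : 1 / C ≤ p.k / 4 := by
    rw [div_le_div_iff₀ hC (by norm_num)]
    linarith [h.C_k]
  have hτu : τ' ≤ 1 / C := by
    rw [le_div_iff₀ hC]; linarith [h.Cτ]
  have e1 : 1 / (C * τ') = (1 / C) * (1 / τ') := by field_simp
  have e2 : 4 * τ' = 4 * τ' ^ 2 * (1 / τ') := by field_simp
  have hi : 0 < 1 / τ' := by positivity
  have h3 : τ' ≤ p.k / 4 := hτu.trans hu
  have h4 : 4 * τ' ^ 2 ≤ p.k / 4 := by nlinarith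
  rw [e1, e2]
  nlinarith

/-- **L-252-KPB-DEEP**  the end history localises the base and determines the labels.
PLAN.  `st p = st p'`: same world `γ` and the same value of `X.lab X.G`, which is `some e` (`kpb_lab_ex`, `kpb_lab_of_some`): both incidences lie in `S e ⊆ A e × I e`.
Distance: `|t - t'| ≤ q_G` (both in `kbI`), `‖y - y'‖ ≤ 2 q_G K₀² + |t - t'| ‖y1‖ ≤ 7 q_G K₀²` (`kpb_pos_err`, `kpb_cen`; `yc t - yc t' = (t - t') • y1`); `Prod.dist_eq`, `dist_eq_norm`.   `q_G ≤ N^(-k dep G + τ') ≤ N^(-k/τ' + τ')` (`q_hi`, `dep_end`), `7 K₀² ≤ K₀³`: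
`dist ≤ N^(-k/τ' + 4τ') ≤ N^(-1/(C τ'))` because `k/τ' - 4τ' ≥ 1/(C τ')` ⟸ `k - 4 τ'² ≥ 1/C` ⟸ `C k ≥ 4`, `τ' ≤ 1/C`, `k ≤ 1` (so `1/C ≤ k/4`, `4τ'² ≤ 4/C² ≤ k²/4 ≤ k/4`).
Labels: `Q = ⟨s, c⟩`, `m = kprNd X s ≤ G`; `kpr_anc` gives the ancestor `c̃` of `e`; `p ∈ inc Q` and `p ∈ A c̃ × I c̃`, same world: `c = c̃` (`kpb_uniq`); then `p' ∈ A e × I e ⊆ A c̃ × I c̃`.   ~250 l. -/
theorem kpb_deep (h : KpbCtx p G X rc τ' C) (dflt : KsPLab X G.depths (kprNd X)) : (kpbR X p G rc dflt).Deep (X.N ^ (-(1 / (C * τ')))) := by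
  rintro ⟨⟨γ, l⟩, t⟩ hq ⟨⟨γ', l'⟩, t'⟩ hq' hst
  have hγ : γ = γ' := congrArg Prod.fst hst
  subst hγ
  have hh : X.lab X.G γ (l, t) = X.lab X.G γ (l', t') := congrArg Prod.snd hst
  have hE : (l, t) ∈ X.P.Ev γ := hq
  obtain ⟨e, he1, he2, he3⟩ := kpb_lab_ex h.ok le_rfl hE
  have he' := kpb_lab_of_some (hh ▸ he3 : X.lab X.G γ (l', t') = some e)
  subst he1
  have a := ((h.ok.sys_wf X.G le_rfl).S_sub e he2).2
  have a' := ((h.ok.sys_wf X.G le_rfl).S_sub e he'.2).2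
  have hl : l ∈ (X.Q X.G).A e := a.1
  have ht : t ∈ (X.Q X.G).I e := a.2
  have hl' : l' ∈ (X.Q X.G).A e := a'.1
  have ht' : t' ∈ (X.Q X.G).I e := a'.2
  constructor
  · -- the distance
    have hK0 : 100 ≤ X.N ^ τ' := h.N_big
    have hq0 : 0 < (X.Q X.G).q := k2s_q_pos _
    have htt : |t - t'| ≤ (X.Q X.G).q := by
      have b1 := ht.1; have b2 := ht.2; have b3 := ht'.1; have b4 := ht'.2
      have : (X.Q X.G).q = kbQ (X.Q X.G).n := rfl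
      rw [abs_le]; constructor <;> nlinarith
    have e1 := kpb_pos_err h.ok le_rfl e hl ht
    have e2 := kpb_pos_err h.ok le_rfl e hl' ht'
    have e3 := kpb_cen h.ok le_rfl e
    have e4 : ((X.Q X.G).ch e).yc t - ((X.Q X.G).ch e).yc t' = (t - t') • ((X.Q X.G).ch e).y1 := by
      unfold KbChart.yc; module
    have e5 : ‖((X.Q X.G).ch e).yc t - ((X.Q X.G).ch e).yc t'‖ ≤ (X.Q X.G).q * (5 * (X.N ^ τ') ^ 2) := by
      rw [e4, norm_smul, Real.norm_eq_abs]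
      exact mul_le_mul htt e3 (norm_nonneg _) hq0.le
    have e6 : ‖kbY (X.P.co ((X.Q X.G).wd e) l) t - kbY (X.P.co ((X.Q X.G).wd e) l') t'‖ ≤ (X.Q X.G).q * (7 * (X.N ^ τ') ^ 2) := by
      have : kbY (X.P.co ((X.Q X.G).wd e) l) t - kbY (X.P.co ((X.Q X.G).wd e) l') t'
          = (kbY (X.P.co ((X.Q X.G).wd e) l) t - ((X.Q X.G).ch e).yc t) + (((X.Q X.G).ch e).yc t - ((X.Q X.G).ch e).yc t')
            - (kbY (X.P.co ((X.Q X.G).wd e) l') t' - ((X.Q X.G).ch e).yc t') := by abel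
      rw [this]
      refine (norm_sub_le _ _).trans ?_
      have := norm_add_le (kbY (X.P.co ((X.Q X.G).wd e) l) t - ((X.Q X.G).ch e).yc t) (((X.Q X.G).ch e).yc t - ((X.Q X.G).ch e).yc t')
      nlinarith
    have hqG : (X.Q X.G).q ≤ X.N ^ (-p.k * (1 / τ') + τ') := by
      refine (h.ok.q_hi X.G le_rfl).trans (h.mono ?_)
      have := h.ok.dep_end
      have := h.hp.k_pos
      nlinarith
    have hbig : (X.Q X.G).q * (7 * (X.N ^ τ') ^ 2) ≤ X.N ^ (-(1 / (C * τ'))) := by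
      have h1 : 7 * (X.N ^ τ') ^ 2 ≤ (X.N ^ τ') ^ 3 := by nlinarith [sq_nonneg (X.N ^ τ')]
      have h2 : (X.N ^ τ') ^ 3 = X.N ^ (3 * τ') := by
        rw [← Real.rpow_natCast, ← Real.rpow_mul h.N_pos.le, mul_comm]; norm_num
      calc (X.Q X.G).q * (7 * (X.N ^ τ') ^ 2) ≤ X.N ^ (-p.k * (1 / τ') + τ') * X.N ^ (3 * τ') := by
            rw [← h2]
            exact mul_le_mul hqG h1 (by positivity) (Real.rpow_nonneg h.N_pos.le _)
        _ = X.N ^ (-p.k * (1 / τ') + 4 * τ') := by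
            rw [← Real.rpow_add h.N_pos]; congr 1; ring
        _ ≤ _ := h.mono (kpb_deep_exp h)
    have hsmall : (X.Q X.G).q ≤ (X.Q X.G).q * (7 * (X.N ^ τ') ^ 2) := by
      have : 1 ≤ 7 * (X.N ^ τ') ^ 2 := by nlinarith
      nlinarith
    show dist ((t, kbY (X.P.co ((X.Q X.G).wd e) l) t) : ℝ × KbB v) (t', kbY (X.P.co ((X.Q X.G).wd e) l') t') ≤ _
    rw [Prod.dist_eq]
    refine max_le ?_ ?_
    · rw [Real.dist_eq]; exact (htt.trans hsmall).trans hbig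
    · rw [dist_eq_norm]; exact e6.trans hbig
  · -- the labels
    rintro s hs ⟨⟨s₀, hs₀⟩, c⟩ ⟨hd, hinc⟩
    have hm := (h.node hs₀).1
    obtain ⟨c', w1, w2, w3⟩ := kpr_anc h.ok hm le_rfl e
    have i1 : (X.Q X.G).wd e = (X.Q (kprNd X s₀)).wd c := hinc.1.1
    have i2 : l ∈ (X.Q (kprNd X s₀)).A c := hinc.1.2
    have i3 : t ∈ (X.Q (kprNd X s₀)).I c := hinc.2
    have hc : c = c' := kpb_uniq h.ok hm (i1.symm.trans w1.symm) i2 i3 (w2 hl) (w3 ht)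
    subst hc
    exact ⟨hd, ⟨i1, w2 hl'⟩, w3 ht'⟩

end leaves

end

end Claimed.Agent.R252

end PkPrepH0a

section PkPrepH0b

/-!
# ROW 252 (S0492), unit PREP, post BP-252-PREP-H0 (sub-architect helper69, chief helper31), file 2 of 2.        CONTRACT file (leaves L-252-KPB-C*, D; prefix `kpb_`).

The caps (`LabC`), the palette and the domination (`LabD`), and the hub `kpb_base` = `kpr_base` of `Prep/Hubs.lean` VERBATIM (assembly PROVED from the leaves).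
* C0 `kpb_offset_cap`      ABSTRACT measure theory: a cap for windows `[x₀, x₀ + w]` with CONSTANT offset, per unit base volume, gives the cap about ANY measurable offset `f (base)` with the factor `3`.
* C1 `kpb_capX`, `kpb_capw`      the offset caps of `OkLab`.
* C2 `kpb_quad_window`, `kpb_lin_window`, `kpbRoot`, `kpb_root_meas`, `kpb_root_near`      a quadratic `g` with `|g (w)| ≤ ε`, `|g' (w)| ≥ δ` : `w` is within `2ε/δ` of one of TWO explicit measurable functions of the coefficients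
      (NO case distinction on the curvature, NO lower bound of the discriminant: simpler than 04 l.672-690).
* C3 `kpb_capQ`      (a03:packet-base-cap).
* D  `kpb_labD`.
* R  `kpb_rect_sum`, `kpb_refQ` (field `ref_Q`, 07 l.868); `kpb_ref_le` WAITS for the new field `ref_le` of `KpTan.Ok`.
RULES for provers: as in `H0a.lean` (prove IN PLACE, statement unchanged, helpers directly above with prefix `kpb_`, earlier statements = black boxes).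
-/

set_option autoImplicit false

namespace Claimed.Agent.R252

open MeasureTheory
open scoped ENNReal BigOperators

noncomputable section

variable {v : KbVer}

attribute [local instance] ksTanMS

/-! ## C0. the abstract offset cap -/

/-- **L-252-KPB-C0**  from constant offsets to measurable offsets.   Mathlib only.
PLAN.  `U k := U ∩ {z | ⌊f z / w⌋ = k}` (`k : ℤ`): measurable (`hf.div_const`, `Int.measurable_floor`/`Measurable.floor`, `measurableSet_singleton`), pairwise disjoint, union `= U`, so `∑' k, vol (U k) = vol U` (`measure_iUnion`).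
If `b x ∈ U k` and `|h x - f (b x)| ≤ w` then `k w ≤ f < (k+1) w` (`Int.floor_le`, `Int.lt_floor_add_one`, `div_le_iff₀`), so `h x ∈ [(k-1) w, (k+2) w]` = union of the three windows `Icc ((k+i) w) ((k+i) w + w)`, `i = -1, 0, 1`.
`measure_iUnion_le` over `k`, `measure_union_le` twice, `hcap`; `ENNReal.tsum_mul_left`.   ~90 l. -/
theorem kpb_offset_cap {Ω B : Type*} [MeasurableSpace Ω] [MeasurableSpace B] (μ : Measure Ω) (vol : Measure B) (b : Ω → B) (h : Ω → ℝ) (w : ℝ) (hw : 0 < w)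
    (c : ℝ≥0∞) (hcap : ∀ (x₀ : ℝ) (Bz : Set B), MeasurableSet Bz → μ {x | b x ∈ Bz ∧ h x ∈ Set.Icc x₀ (x₀ + w)} ≤ c * vol Bz)
    (U : Set B) (hU : MeasurableSet U) (f : B → ℝ) (hf : Measurable f) :
    μ {x | b x ∈ U ∧ |h x - f (b x)| ≤ w} ≤ 3 * c * vol U := by
  have hfl : Measurable fun z => ⌊f z / w⌋ := (hf.div_const w).floor
  obtain ⟨Uk, hUkdef⟩ : ∃ Uk : ℤ → Set B, Uk = fun k => U ∩ {z | ⌊f z / w⌋ = k} := ⟨_, rfl⟩
  have hUk : ∀ k, MeasurableSet (Uk k) := fun k => by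
    rw [hUkdef]
    exact hU.inter (hfl (measurableSet_singleton k))
  have hdisj : Pairwise (Function.onFun Disjoint Uk) := by
    intro k k' hkk
    rw [hUkdef]
    refine Set.disjoint_left.2 fun z hz hz' => hkk ?_
    have h1 : ⌊f z / w⌋ = k := hz.2
    have h2 : ⌊f z / w⌋ = k' := hz'.2
    rw [← h1, ← h2]
  have hunion : ⋃ k, Uk k = U := by
    rw [hUkdef]
    ext z
    simp only [Set.mem_iUnion, Set.mem_inter_iff]
    constructor
    · rintro ⟨k, hz, -⟩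
      exact hz
    · intro hz
      exact ⟨⌊f z / w⌋, hz, rfl⟩
  have hvol : ∑' k, vol (Uk k) = vol U := by rw [← measure_iUnion hdisj hUk, hunion]
  have hsub : {x | b x ∈ U ∧ |h x - f (b x)| ≤ w} ⊆ ⋃ k : ℤ, (({x | b x ∈ Uk k ∧ h x ∈ Set.Icc (((k : ℝ) - 1) * w) (((k : ℝ) - 1) * w + w)}
      ∪ {x | b x ∈ Uk k ∧ h x ∈ Set.Icc ((k : ℝ) * w) ((k : ℝ) * w + w)}) ∪ {x | b x ∈ Uk k ∧ h x ∈ Set.Icc (((k : ℝ) + 1) * w) (((k : ℝ) + 1) * w + w)}) := by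
    rintro x ⟨hxU, hx⟩
    have hmem : b x ∈ Uk ⌊f (b x) / w⌋ := by
      rw [hUkdef]
      exact ⟨hxU, rfl⟩
    obtain ⟨k, hk⟩ : ∃ k : ℤ, k = ⌊f (b x) / w⌋ := ⟨_, rfl⟩
    rw [← hk] at hmem
    have h1 : (k : ℝ) * w ≤ f (b x) := by
      rw [hk]
      exact (le_div_iff₀ hw).1 (Int.floor_le _)
    have h2 : f (b x) < ((k : ℝ) + 1) * w := by
      rw [hk]
      exact (div_lt_iff₀ hw).1 (Int.lt_floor_add_one _)
    have hx' := abs_le.1 hx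
    refine Set.mem_iUnion.2 ⟨k, ?_⟩
    by_cases c1 : h x ≤ (k : ℝ) * w
    · exact Or.inl (Or.inl ⟨hmem, ⟨by linarith [hx'.1], by linarith⟩⟩)
    · by_cases c2 : h x ≤ ((k : ℝ) + 1) * w
      · exact Or.inl (Or.inr ⟨hmem, ⟨by linarith, by linarith⟩⟩)
      · exact Or.inr ⟨hmem, ⟨by linarith, by linarith [hx'.2]⟩⟩
  calc μ {x | b x ∈ U ∧ |h x - f (b x)| ≤ w} ≤ μ (⋃ k : ℤ, (({x | b x ∈ Uk k ∧ h x ∈ Set.Icc (((k : ℝ) - 1) * w) (((k : ℝ) - 1) * w + w)}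
      ∪ {x | b x ∈ Uk k ∧ h x ∈ Set.Icc ((k : ℝ) * w) ((k : ℝ) * w + w)}) ∪ {x | b x ∈ Uk k ∧ h x ∈ Set.Icc (((k : ℝ) + 1) * w) (((k : ℝ) + 1) * w + w)})) :=
        measure_mono hsub
    _ ≤ ∑' k : ℤ, μ (({x | b x ∈ Uk k ∧ h x ∈ Set.Icc (((k : ℝ) - 1) * w) (((k : ℝ) - 1) * w + w)}
      ∪ {x | b x ∈ Uk k ∧ h x ∈ Set.Icc ((k : ℝ) * w) ((k : ℝ) * w + w)}) ∪ {x | b x ∈ Uk k ∧ h x ∈ Set.Icc (((k : ℝ) + 1) * w) (((k : ℝ) + 1) * w + w)}) :=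
        measure_iUnion_le _
    _ ≤ ∑' k : ℤ, 3 * c * vol (Uk k) := by
        refine ENNReal.tsum_le_tsum fun k => ?_
        refine (measure_union_le _ _).trans ?_
        refine (add_le_add (measure_union_le _ _) le_rfl).trans ?_
        refine (add_le_add (add_le_add (hcap _ _ (hUk k)) (hcap _ _ (hUk k))) (hcap _ _ (hUk k))).trans ?_
        refine le_of_eq ?_
        ring
    _ = 3 * c * vol U := by rw [ENNReal.tsum_mul_left, hvol]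

section caps

variable {p : KpPrm} {G : KsReq} {X : KpTan v} {rc : KbChart v → KbChart v} {τ' C : ℝ}

/-- offset cap of the hidden coordinate at ANY admissible width -/
theorem kpb_off_w (hX : X.Ok p τ') (γ : X.P.W) {w : ℝ} (hw0 : 0 < w) (hw1 : X.N ^ (-1 / τ') ≤ w) (hw2 : w ≤ 1) {U : Set (ℝ × KbB v)} (hU : MeasurableSet U)
    {f : ℝ × KbB v → ℝ} (hf : Measurable f) :
    X.P.mu γ {x | X.P.bs γ x ∈ U ∧ |X.P.hw γ x - f (X.P.bs γ x)| ≤ w} ≤ 3 * ENNReal.ofReal (X.N ^ τ' * w ^ p.d) * volume U :=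
  kpb_offset_cap (X.P.mu γ) volume (X.P.bs γ) (X.P.hw γ) w hw0 _ (fun x₀ Bz hBz => hX.cap_w γ w hw1 hw2 x₀ Bz hBz) U hU f hf

/-- offset cap of the native signal at ANY admissible width -/
theorem kpb_off_X (hX : X.Ok p τ') (γ : X.P.W) {w : ℝ} (hw0 : 0 < w) (hw1 : X.N ^ (-1 / τ') ≤ w) (hw2 : w ≤ 1) {U : Set (ℝ × KbB v)} (hU : MeasurableSet U)
    {f : ℝ × KbB v → ℝ} (hf : Measurable f) :
    X.P.mu γ {x | X.P.bs γ x ∈ U ∧ |X.P.sig γ x - f (X.P.bs γ x)| ≤ w} ≤ 3 * ENNReal.ofReal (X.N ^ τ' * w ^ p.d) * volume U :=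
  kpb_offset_cap (X.P.mu γ) volume (X.P.bs γ) (X.P.sig γ) w hw0 _ (fun x₀ Bz hBz => hX.cap_X γ w hw1 hw2 x₀ Bz hBz) U hU f hf

/-! ## C2. quadratic windows -/

/-- **L-252-KPB-C2**  pure algebra.
PLAN.  `s := √(β² - 4αγ) ≥ 0`, `Gd := σ (2αw + β) ≥ δ`, `Gd² = (β² - 4αγ) + 4α g` (`σ² = 1`; `ring`/`nlinarith`).   `w - (σ s - β)/(2α) = σ (Gd - s)/(2α)` (`field_simp`, `σ² = 1`).   `|Gd - s| (Gd + s) = |Gd² - s²|`, `Gd + s ≥ δ`.
If `β² - 4αγ ≥ 0`: `s² = β² - 4αγ` (`Real.sq_sqrt`), `|Gd² - s²| = 4 |α| |g| ≤ 4 |α| ε`.   Otherwise `s = 0` (`Real.sqrt_eq_zero_of_nonpos`), `0 ≤ Gd² ≤ 4 α g ≤ 4 |α| ε`.   So `|w - ..| ≤ 4 |α| ε / (δ 2 |α|)`.   ~80 l. -/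
theorem kpb_quad_window (α β γ w ε δ σ : ℝ) (hα : α ≠ 0) (hσ : σ = 1 ∨ σ = -1) (hδ : 0 < δ)
    (hg : |α * w ^ 2 + β * w + γ| ≤ ε) (hd : δ ≤ σ * (2 * α * w + β)) :
    |w - (σ * Real.sqrt (β ^ 2 - 4 * α * γ) - β) / (2 * α)| ≤ 2 * ε / δ := by
  obtain ⟨s, hs⟩ : ∃ s, s = Real.sqrt (β ^ 2 - 4 * α * γ) := ⟨_, rfl⟩
  rw [← hs]
  have hs0 : 0 ≤ s := hs ▸ Real.sqrt_nonneg _
  have hσ2 : σ * σ = 1 := by rcases hσ with rfl | rfl <;> norm_num
  have hσa : |σ| = 1 := by rcases hσ with rfl | rfl <;> simp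
  obtain ⟨Gd, hGd⟩ : ∃ Gd, Gd = σ * (2 * α * w + β) := ⟨_, rfl⟩
  rw [← hGd] at hd
  obtain ⟨g, hgdef⟩ : ∃ g, g = α * w ^ 2 + β * w + γ := ⟨_, rfl⟩
  rw [← hgdef] at hg
  have hG2 : Gd ^ 2 = (β ^ 2 - 4 * α * γ) + 4 * (α * g) := by
    have : Gd ^ 2 = (σ * σ) * (2 * α * w + β) ^ 2 := by rw [hGd]; ring
    rw [this, hσ2, hgdef]
    ring
  have hαg : |α * g| ≤ |α| * ε := by
    rw [abs_mul]
    exact mul_le_mul_of_nonneg_left hg (abs_nonneg _)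
  have key : |Gd ^ 2 - s ^ 2| ≤ 4 * |α| * ε := by
    by_cases hD : 0 ≤ β ^ 2 - 4 * α * γ
    · have h1 : s ^ 2 = β ^ 2 - 4 * α * γ := by rw [hs]; exact Real.sq_sqrt hD
      have h2 : Gd ^ 2 - s ^ 2 = 4 * (α * g) := by rw [hG2, h1]; ring
      rw [h2, abs_mul, abs_of_pos (by norm_num : (0 : ℝ) < 4)]
      linarith
    · have h1 : s = 0 := by rw [hs]; exact Real.sqrt_eq_zero_of_nonpos (not_le.1 hD).le
      have h2 : Gd ^ 2 - s ^ 2 = Gd ^ 2 := by rw [h1]; ring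
      rw [h2, abs_of_nonneg (sq_nonneg _), hG2]
      have := le_abs_self (α * g)
      linarith [not_le.1 hD]
  have h1 : |Gd - s| * δ ≤ 4 * |α| * ε := by
    have h2 : |Gd ^ 2 - s ^ 2| = |Gd - s| * (Gd + s) := by
      rw [show Gd ^ 2 - s ^ 2 = (Gd - s) * (Gd + s) by ring, abs_mul, abs_of_nonneg (by linarith : 0 ≤ Gd + s)]
    calc |Gd - s| * δ ≤ |Gd - s| * (Gd + s) := mul_le_mul_of_nonneg_left (by linarith) (abs_nonneg _)
      _ = |Gd ^ 2 - s ^ 2| := h2.symm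
      _ ≤ _ := key
  have e0 : σ * (Gd - s) = 2 * α * w + β - σ * s := by
    calc σ * (Gd - s) = (σ * σ) * (2 * α * w + β) - σ * s := by rw [hGd]; ring
      _ = _ := by rw [hσ2]; ring
  have e : w - (σ * s - β) / (2 * α) = σ * (Gd - s) / (2 * α) := by
    rw [e0]
    field_simp
    ring
  have hα0 : 0 < |α| := abs_pos.2 hα
  rw [e, abs_div, abs_mul, hσa, one_mul, abs_mul, abs_of_pos (by norm_num : (0 : ℝ) < 2), div_le_div_iff₀ (by positivity) hδ]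
  linarith

/-- **L-252-KPB-C2**  the affine case.   PLAN: `β ≠ 0`, `w + γ/β = (β w + γ)/β`. -/
theorem kpb_lin_window (β γ w ε δ : ℝ) (hδ : 0 < δ) (hg : |β * w + γ| ≤ ε) (hd : δ ≤ |β|) : |w - -γ / β| ≤ ε / δ := by
  have hβ : β ≠ 0 := by
    intro h0
    rw [h0, abs_zero] at hd
    linarith
  have e : w - -γ / β = (β * w + γ) / β := by
    field_simp
    ring
  rw [e, abs_div]
  exact div_le_div₀ ((abs_nonneg _).trans hg) hg hδ hd

/-- the two root functions of a quadratic test (`σ = ± 1`), as functions of the exact base -/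
def kpbRoot (T : KbTest v) (σ : ℝ) (z : ℝ × KbB v) : ℝ :=
  if kbDww T 0 0 0 = 0 then -T z.1 z.2 0 / kbDw T z.1 z.2 0 else (σ * Real.sqrt (ksDisc T z.1 z.2) - kbDw T z.1 z.2 0) / kbDww T 0 0 0

theorem kpbRoot_eqns_cite : True := by
  have := @kpbRoot.eq_1
  trivial

/-- a quadratic test at a fixed hidden value is continuous in the base -/
theorem kpb_quad_cont {T : KbTest v} (hT : KbIsQuad T) (w₀ : ℝ) : Continuous fun z : ℝ × KbB v => T z.1 z.2 w₀ := by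
  obtain ⟨Q, hQ⟩ := hT
  simp only [hQ, KbQuad.ev, dotProduct, Matrix.mulVec]
  fun_prop

/-- **L-252-KPB-C2**  PLAN: `obtain ⟨Q, hQ⟩ := hT`; `z ↦ T z.1 z.2 w₀` is continuous for every fixed `w₀` (`simp only [hQ, KbQuad.ev, dotProduct, Matrix.mulVec]; fun_prop`), hence so are `kbDw T · · 0`, `ksDisc T · ·` (unfold); `Measurable.ite` is not needed: `by_cases` on the CONSTANT condition, `simp only [kpbRoot, if_pos/if_neg]`;
`Measurable.div`, `Real.measurable_sqrt` / `Measurable.sqrt`, `Continuous.measurable`. -/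
theorem kpb_root_meas {T : KbTest v} (hT : KbIsQuad T) (σ : ℝ) : Measurable (kpbRoot T σ) := by
  have c0 := kpb_quad_cont hT 0
  have c1 := kpb_quad_cont hT (0 + 1)
  have c2 := kpb_quad_cont hT (0 - 1)
  have hDw : Continuous fun z : ℝ × KbB v => kbDw T z.1 z.2 0 := (c1.sub c2).div_const 2
  have hDww : Continuous fun z : ℝ × KbB v => kbDww T z.1 z.2 0 := (c1.sub (continuous_const.mul c0)).add c2
  have hDisc : Continuous fun z : ℝ × KbB v => ksDisc T z.1 z.2 := (hDw.pow 2).sub ((continuous_const.mul hDww).mul c0)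
  by_cases h0 : kbDww T 0 0 0 = 0
  · have e : kpbRoot T σ = fun z : ℝ × KbB v => -T z.1 z.2 0 / kbDw T z.1 z.2 0 := by
      funext z
      simp only [kpbRoot, if_pos h0]
    rw [e]
    exact c0.measurable.neg.div hDw.measurable
  · have e : kpbRoot T σ = fun z : ℝ × KbB v => (σ * Real.sqrt (ksDisc T z.1 z.2) - kbDw T z.1 z.2 0) / kbDww T 0 0 0 := by
      funext z
      simp only [kpbRoot, if_neg h0]
    rw [e]
    exact ((hDisc.measurable.sqrt.const_mul σ).sub hDw.measurable).div_const _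

/-- the normal form of a quadratic test in the hidden variable -/
theorem kpb_quad_form {T : KbTest v} (hT : KbIsQuad T) : ∃ (α : ℝ) (β γ : ℝ → KbB v → ℝ), ∀ t y w, T t y w = α * w ^ 2 + β t y * w + γ t y := by
  obtain ⟨Q, hQ⟩ := hT
  refine ⟨Q.cww, fun t y => Q.cw + Q.ctw * t + Q.cyw ⬝ᵥ y,
    fun t y => Q.c0 + Q.ct * t + Q.cy ⬝ᵥ y + Q.ctt * t ^ 2 + t * (Q.cty ⬝ᵥ y) + y ⬝ᵥ Q.cyy.mulVec y, fun t y w => ?_⟩
  rw [hQ]
  simp only [KbQuad.ev]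
  ring

/-- **L-252-KPB-C2**  the hidden coordinate is near one of the two roots.
PLAN.  `obtain ⟨Q, hQ⟩ := hT`; `α := Q.cww`, `β := Q.cw + Q.ctw t + Q.cyw ⬝ᵥ y`, `γ := T t y 0`: `T t y w = α w² + β w + γ`, `kbDw T t y w = 2αw + β`, `kbDw T t y 0 = β`, `kbDww T _ _ _ = 2α` (unfold `kbDw`, `kbDww`, `KbQuad.ev`; `ring`), `ksDisc T t y = β² - 4αγ`.
`α = 0`: `kpb_lin_window` (`ε/δ ≤ 2ε/δ`; both roots coincide).   `α ≠ 0`: `σ := ` the sign of `2αw + β` (`le_total 0 _`, `abs_of_nonneg`, `abs_of_nonpos`), `kpb_quad_window`.   ~90 l. -/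
theorem kpb_root_near {T : KbTest v} (hT : KbIsQuad T) {t : ℝ} {y : KbB v} {w ε δ : ℝ} (hδ : 0 < δ) (hε : 0 ≤ ε) (h1 : |T t y w| ≤ ε) (h2 : δ ≤ |kbDw T t y w|) :
    |w - kpbRoot T 1 (t, y)| ≤ 2 * ε / δ ∨ |w - kpbRoot T (-1) (t, y)| ≤ 2 * ε / δ := by
  obtain ⟨α, β, γ, hF⟩ := kpb_quad_form hT
  have eDw : ∀ w', kbDw T t y w' = 2 * α * w' + β t y := fun w' => by
    unfold kbDw
    rw [hF, hF]
    ring
  have eDww : ∀ t' y' w', kbDww T t' y' w' = 2 * α := fun t' y' w' => by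
    unfold kbDww
    rw [hF, hF, hF]
    ring
  have eT0 : T t y 0 = γ t y := by rw [hF]; ring
  have eDisc : ksDisc T t y = β t y ^ 2 - 4 * α * γ t y := by
    unfold ksDisc
    rw [eDw, eDww, eT0]
    ring
  rw [hF] at h1
  rw [eDw] at h2
  by_cases hα : α = 0
  · left
    have e : kpbRoot T 1 (t, y) = -γ t y / β t y := by
      have h0 : kbDww T 0 0 0 = 0 := by rw [eDww, hα]; ring
      simp only [kpbRoot, if_pos h0]
      rw [eT0, eDw]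
      congr 1
      ring
    rw [e]
    have h1' : |β t y * w + γ t y| ≤ ε := by
      have : α * w ^ 2 + β t y * w + γ t y = β t y * w + γ t y := by rw [hα]; ring
      rwa [this] at h1
    have h2' : δ ≤ |β t y| := by
      have : 2 * α * w + β t y = β t y := by rw [hα]; ring
      rwa [this] at h2
    refine (kpb_lin_window _ _ _ _ _ hδ h1' h2').trans ?_
    rw [div_le_div_iff_of_pos_right hδ]
    linarith
  · have h0 : kbDww T 0 0 0 ≠ 0 := by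
      rw [eDww]
      exact mul_ne_zero (by norm_num) hα
    have e : ∀ σ : ℝ, kpbRoot T σ (t, y) = (σ * Real.sqrt (β t y ^ 2 - 4 * α * γ t y) - β t y) / (2 * α) := by
      intro σ
      simp only [kpbRoot, if_neg h0]
      rw [eDisc, eDw, eDww]
      congr 2
      ring
    rcases le_total 0 (2 * α * w + β t y) with hs | hs
    · left
      rw [e]
      refine kpb_quad_window α (β t y) (γ t y) w ε δ 1 hα (Or.inl rfl) hδ h1 ?_
      rw [abs_of_nonneg hs] at h2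
      linarith
    · right
      rw [e]
      refine kpb_quad_window α (β t y) (γ t y) w ε δ (-1) hα (Or.inr rfl) hδ h1 ?_
      rw [abs_of_nonpos hs] at h2
      linarith

/-! ## C1, C3. the caps of `OkLab` -/

/-- **L-252-KPB-C3a**  (a03:packet-base-cap) in the language of `X`.   `K₀ = N^τ'`, `a_m = N^(-dep m)`, width `w₁ = 2 K₀² a_m`.
PLAN.  `mu (wd c)` is carried by `Ev` (`Measure.restrict_apply'`, `wf.Ev_meas`; or `k2s_mu_compl`), and `Ev ∩ A c × I c = S c` (`hX.path`).   On `S c`: `|T| ≤ K₀ a_m` (`geo.val`, `S_sub`), `1/K₀ ≤ |T_w|` (`geo.dw_low`, `B = 1`).   `kpb_root_near` with `ε = K₀ a_m`, `δ = 1/K₀`: `2ε/δ = w₁`.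
So the set is contained (inside `Ev`) in the union of the two sets of `kpb_off_w` with `f = kpbRoot T (±1)` (`kpb_root_meas`, `sys_wf.adm`).   `measure_union_le`.   ~120 l. -/
theorem kpb_capQ0 (hX : X.Ok p τ') {m : ℕ} (hm : m ≤ X.G) (c : (X.Q m).C) (hw1 : X.N ^ (-1 / τ') ≤ 2 * (X.N ^ τ') ^ 2 * X.a m) (hw2 : 2 * (X.N ^ τ') ^ 2 * X.a m ≤ 1)
    {U : Set (ℝ × KbB v)} (hU : MeasurableSet U) :
    X.P.mu ((X.Q m).wd c) {x | x ∈ (X.Q m).A c ×ˢ (X.Q m).I c ∧ X.P.bs ((X.Q m).wd c) x ∈ U}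
      ≤ 6 * ENNReal.ofReal (X.N ^ τ' * (2 * (X.N ^ τ') ^ 2 * X.a m) ^ p.d) * volume U := by
  have hN : 0 < X.N := by linarith [hX.N_two]
  have hK0 : 0 < X.N ^ τ' := Real.rpow_pos_of_pos hN _
  have ha : 0 < X.a m := Real.rpow_pos_of_pos hN _
  have hw0 : 0 < 2 * (X.N ^ τ') ^ 2 * X.a m := by positivity
  have hT : KbIsQuad ((X.Q m).ch c).T := ((hX.sys_wf m hm).adm c).1
  have hEv := hX.wf.Ev_meas ((X.Q m).wd c)
  have e1 : X.P.mu ((X.Q m).wd c) {x | x ∈ (X.Q m).A c ×ˢ (X.Q m).I c ∧ X.P.bs ((X.Q m).wd c) x ∈ U}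
      = X.P.mu ((X.Q m).wd c) ({x | x ∈ (X.Q m).A c ×ˢ (X.Q m).I c ∧ X.P.bs ((X.Q m).wd c) x ∈ U} ∩ X.P.Ev ((X.Q m).wd c)) := by
    unfold KbPb.mu
    rw [Measure.restrict_apply' hEv, Measure.restrict_apply' hEv, Set.inter_assoc, Set.inter_self]
  rw [e1]
  have hsub : ({x | x ∈ (X.Q m).A c ×ˢ (X.Q m).I c ∧ X.P.bs ((X.Q m).wd c) x ∈ U} ∩ X.P.Ev ((X.Q m).wd c)) ⊆
      {x | X.P.bs ((X.Q m).wd c) x ∈ U ∧ |X.P.hw ((X.Q m).wd c) x - kpbRoot ((X.Q m).ch c).T 1 (X.P.bs ((X.Q m).wd c) x)| ≤ 2 * (X.N ^ τ') ^ 2 * X.a m} ∪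
      {x | X.P.bs ((X.Q m).wd c) x ∈ U ∧ |X.P.hw ((X.Q m).wd c) x - kpbRoot ((X.Q m).ch c).T (-1) (X.P.bs ((X.Q m).wd c) x)| ≤ 2 * (X.N ^ τ') ^ 2 * X.a m} := by
    rintro x ⟨⟨hxA, hxU⟩, hxE⟩
    have hxS : x ∈ (X.Q m).S c := by
      rw [hX.path m hm c]
      exact ⟨hxE, hxA⟩
    have h1 : |((X.Q m).ch c).T x.2 (kbY (X.P.co ((X.Q m).wd c) x.1) x.2) (kbW (X.P.co ((X.Q m).wd c) x.1) x.2)| ≤ X.N ^ τ' * X.a m :=
      (hX.geo m hm).val c x.1 hxA.1 x.2 hxA.2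
    have h2 : X.P.B ((X.Q m).wd c) ≤ X.N ^ τ' * |kbDw ((X.Q m).ch c).T x.2 (kbY (X.P.co ((X.Q m).wd c) x.1) x.2) (kbW (X.P.co ((X.Q m).wd c) x.1) x.2)| :=
      (hX.geo m hm).dw_low c x hxS
    rw [hX.B_one] at h2
    have h2' : 1 / X.N ^ τ' ≤ |kbDw ((X.Q m).ch c).T x.2 (kbY (X.P.co ((X.Q m).wd c) x.1) x.2) (kbW (X.P.co ((X.Q m).wd c) x.1) x.2)| := by
      rw [div_le_iff₀ hK0]
      linarith
    have e2 : 2 * (X.N ^ τ' * X.a m) / (1 / X.N ^ τ') = 2 * (X.N ^ τ') ^ 2 * X.a m := by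
      field_simp
    have h3 := kpb_root_near hT (by positivity : 0 < 1 / X.N ^ τ') (by positivity : 0 ≤ X.N ^ τ' * X.a m) h1 h2'
    rw [e2] at h3
    rcases h3 with h3 | h3
    · exact Or.inl ⟨hxU, h3⟩
    · exact Or.inr ⟨hxU, h3⟩
  refine (measure_mono hsub).trans ((measure_union_le _ _).trans ?_)
  refine (add_le_add (kpb_off_w hX _ hw0 hw1 hw2 hU (kpb_root_meas hT 1)) (kpb_off_w hX _ hw0 hw1 hw2 hU (kpb_root_meas hT (-1)))).trans ?_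
  refine le_of_eq ?_
  ring

/-- admissible widths -/
theorem kpb_wid (h : KpbCtx p G X rc τ' C) {r : ℝ} (hr : r ∈ G.widths) : 0 < X.N ^ (-r) ∧ X.N ^ (-1 / τ') ≤ X.N ^ (-r) ∧ X.N ^ (-r) ≤ 1 := by
  have h0 := h.hG.widths r hr
  refine ⟨Real.rpow_pos_of_pos h.N_pos _, h.mono ?_, Real.rpow_le_one_of_one_le_of_nonpos h.N_one (by linarith)⟩
  have h1 := h.C_wid r hr
  have h2 := h.C_le
  rw [neg_div]
  linarith

/-- the `ℝ≥0∞` bookkeeping of the offset caps -/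
theorem kpb_cap_book (h : KpbCtx p G X rc τ' C) (x : ℝ) (hx : 0 ≤ x) (o V : ℝ≥0∞) :
    o * (3 * ENNReal.ofReal (X.N ^ τ' * x) * V) ≤ ENNReal.ofReal (X.N ^ (C * τ')) * ENNReal.ofReal x * o * V := by
  have h1 : 3 * X.N ^ τ' ≤ X.N ^ (C * τ') := by
    have := h.cK0_pow 3 (by norm_num) 1 (by have := h.C_pos; norm_num; linarith)
    rwa [pow_one] at this
  have hK0 : 0 ≤ X.N ^ τ' := (Real.rpow_pos_of_pos h.N_pos _).le
  have h2 : 3 * ENNReal.ofReal (X.N ^ τ' * x) ≤ ENNReal.ofReal (X.N ^ (C * τ')) * ENNReal.ofReal x := by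
    rw [← ENNReal.ofReal_ofNat 3, ← ENNReal.ofReal_mul (by norm_num), ← ENNReal.ofReal_mul (by linarith [h.K_ge])]
    refine ENNReal.ofReal_le_ofReal ?_
    calc 3 * (X.N ^ τ' * x) = (3 * X.N ^ τ') * x := by ring
      _ ≤ _ := mul_le_mul_of_nonneg_right h1 hx
  calc o * (3 * ENNReal.ofReal (X.N ^ τ' * x) * V) = (3 * ENNReal.ofReal (X.N ^ τ' * x)) * o * V := by ring
    _ ≤ (ENNReal.ofReal (X.N ^ (C * τ')) * ENNReal.ofReal x) * o * V := mul_le_mul' (mul_le_mul' h2 le_rfl) le_rfl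

/-- the widths of the packet base cap -/
theorem kpb_capQ_wid (h : KpbCtx p G X rc τ' C) {s : ℝ} (hs : s ∈ G.depths) :
    X.N ^ (-1 / τ') ≤ 2 * (X.N ^ τ') ^ 2 * X.a (kprNd X s) ∧ 2 * (X.N ^ τ') ^ 2 * X.a (kprNd X s) ≤ 1 := by
  obtain ⟨-, hn1, hn2⟩ := h.node hs
  have hK0 : 100 ≤ X.N ^ τ' := h.N_big
  have hCs := h.C_dep s hs
  have hτ := h.τ_pos
  have hτ1 := h.τ_le
  have ha : 0 < X.a (kprNd X s) := Real.rpow_pos_of_pos h.N_pos _
  constructor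
  · have h1 : X.N ^ (-1 / τ') ≤ X.a (kprNd X s) := by
      refine h.mono ?_
      have := h.C_le
      rw [neg_div]
      linarith
    have h2 : (1 : ℝ) ≤ 2 * (X.N ^ τ') ^ 2 := by nlinarith
    calc X.N ^ (-1 / τ') ≤ 1 * X.a (kprNd X s) := by rw [one_mul]; exact h1
      _ ≤ 2 * (X.N ^ τ') ^ 2 * X.a (kprNd X s) := mul_le_mul_of_nonneg_right h2 ha.le
  · have h1 : X.a (kprNd X s) ≤ X.N ^ (-s) := h.mono (by linarith)
    have h2 : 2 * (X.N ^ τ') ^ 2 ≤ X.N ^ (3 * τ') := by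
      have e : X.N ^ (3 * τ') = (X.N ^ τ') ^ 3 := by
        rw [← Real.rpow_natCast, ← Real.rpow_mul h.N_pos.le]
        congr 1
        push_cast
        ring
      rw [e]
      nlinarith [sq_nonneg (X.N ^ τ')]
    have h3 : 3 * τ' ≤ s := by
      have hC := h.C_pos
      have hCτ := h.Cτ
      have hs0 := h.hG.depths s hs
      by_contra hcon
      have hcon' : s < 3 * τ' := not_le.1 hcon
      have : C * s < C * (3 * τ') := mul_lt_mul_of_pos_left hcon' (by linarith)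
      nlinarith
    calc 2 * (X.N ^ τ') ^ 2 * X.a (kprNd X s) ≤ X.N ^ (3 * τ') * X.N ^ (-s) :=
          mul_le_mul h2 h1 ha.le (Real.rpow_pos_of_pos h.N_pos _).le
      _ = X.N ^ (3 * τ' + -s) := (Real.rpow_add h.N_pos _ _).symm
      _ ≤ 1 := Real.rpow_le_one_of_one_le_of_nonpos h.N_one (by linarith)

/-- the numerology of the packet base cap -/
theorem kpb_capQ_num (h : KpbCtx p G X rc τ' C) (m : ℕ) (J : ℝ) (hJ : 0 ≤ J) :
    J * (6 * (X.N ^ τ' * (2 * (X.N ^ τ') ^ 2 * X.a m) ^ p.d)) ≤ X.N ^ (C * τ') * (X.N ^ (-p.d * X.dep m - τ') * J) := by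
  have hK0 : 100 ≤ X.N ^ τ' := h.N_big
  have hK0' : 0 < X.N ^ τ' := by linarith
  have ha : 0 < X.a m := Real.rpow_pos_of_pos h.N_pos _
  have hd0 := h.hp.d_nonneg
  have hd1 := h.hp.d_lt
  have e1 : (2 * (X.N ^ τ') ^ 2 * X.a m) ^ p.d = (2 * (X.N ^ τ') ^ 2) ^ p.d * X.N ^ (-p.d * X.dep m) := by
    rw [Real.mul_rpow (by positivity) ha.le]
    congr 1
    unfold KpTan.a
    rw [← Real.rpow_mul h.N_pos.le]
    congr 1
    ring
  have e2 : (2 * (X.N ^ τ') ^ 2) ^ p.d ≤ 2 * (X.N ^ τ') ^ 2 := by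
    calc (2 * (X.N ^ τ') ^ 2) ^ p.d ≤ (2 * (X.N ^ τ') ^ 2) ^ (1 : ℝ) := Real.rpow_le_rpow_of_exponent_le (by nlinarith) hd1.le
      _ = _ := Real.rpow_one _
  have e3 : X.N ^ (-p.d * X.dep m - τ') = X.N ^ (-p.d * X.dep m) / X.N ^ τ' := Real.rpow_sub h.N_pos _ _
  have e4 : 12 * (X.N ^ τ') ^ 4 ≤ X.N ^ (C * τ') := h.cK0_pow 12 (by norm_num) 4 (by have := h.C_pos; norm_num; linarith)
  have hz : 0 < X.N ^ (-p.d * X.dep m) := Real.rpow_pos_of_pos h.N_pos _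
  rw [e1, e3]
  calc J * (6 * (X.N ^ τ' * ((2 * (X.N ^ τ') ^ 2) ^ p.d * X.N ^ (-p.d * X.dep m))))
      ≤ J * (6 * (X.N ^ τ' * ((2 * (X.N ^ τ') ^ 2) * X.N ^ (-p.d * X.dep m)))) := by
        refine mul_le_mul_of_nonneg_left ?_ hJ
        refine mul_le_mul_of_nonneg_left ?_ (by norm_num)
        refine mul_le_mul_of_nonneg_left ?_ hK0'.le
        exact mul_le_mul_of_nonneg_right e2 hz.le
    _ = (12 * (X.N ^ τ') ^ 4) * (X.N ^ (-p.d * X.dep m) / X.N ^ τ' * J) := by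
        field_simp
        ring
    _ ≤ X.N ^ (C * τ') * (X.N ^ (-p.d * X.dep m) / X.N ^ τ' * J) := mul_le_mul_of_nonneg_right e4 (by positivity)

/-- **L-252-KPB-C1 + C3b**  the caps of `OkLab`.
PLAN.  `capX`, `capw`: `kpb_lam0_par'` (the set fixes the parent), the slice is DEFINITIONALLY the set of `kpb_off_X` / `kpb_off_w` with `w = N^(-r)` (`show`); `N^(-1/τ') ≤ N^(-r) ≤ 1` from `0 ≤ r ≤ C ≤ 1/τ'` (`h.hG.widths`, `h.C_wid`, `h.C_le`; `-1/τ' = -(1/τ')`);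
`kpb_pA`; `3 * ofReal (K₀ x) ≤ ofReal K * ofReal x` (`h.cK0_pow 3 _ 1`, `ENNReal.ofReal_mul`, `ENNReal.ofReal_ofNat`/`ENNReal.ofReal_natCast`); reorder the factors.
`capQ`: `Q = ⟨s, c⟩`, `m = kprNd X s`; `kpb_lam0_par'` with `A = wd c`; slice ⊆ the set of `kpb_capQ0`; widths: `a_m = N^(-dep m)`, `s ≤ dep m ≤ s + τ'`, `2 K₀² ≤ K₀³`, `3τ' ≤ s` (from `40 ≤ C s`, `C τ' ≤ 1`), `s + τ' ≤ C ≤ 1/τ'`;
`J a_m^d ≤ K₀ nuC` (`nu_lo`; `(rc ch).J = ch.J`), `(2K₀²)^d ≤ 2K₀²` (`d ≤ 1`, base `≥ 1`: `Real.rpow_le_rpow_of_exponent_le`, `Real.rpow_one`), `Real.mul_rpow`; `kpb_nuQ`; `12 K₀⁴ ≤ K`.   ~300 l.; may be shared (C1 = `capX`, `capw`; C3b = `capQ`). -/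
theorem kpb_labC (h : KpbCtx p G X rc τ' C) (dflt : KsPLab X G.depths (kprNd X)) : (kpbR X p G rc dflt).LabC (X.N ^ (C * τ')) := by
  refine ⟨?_, ?_, ?_⟩
  · intro r hr A U f hU hf
    have hr' : r ∈ G.widths := hr
    obtain ⟨w0, w1, w2⟩ := kpb_wid h hr'
    refine (kpb_lam0_par' X p G rc dflt h.ok.wf A _ (fun q hq => hq.1)).trans ?_
    have hsl : kpbSl X {q : (kpbR X p G rc dflt).L × ℝ | (kpbR X p G rc dflt).par q.1 = A ∧ (kpbR X p G rc dflt).base q ∈ U ∧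
        |(kpbR X p G rc dflt).X q.1 q.2 - f ((kpbR X p G rc dflt).base q)| ≤ (kpbR X p G rc dflt).a r} A
        ⊆ {x | X.P.bs A x ∈ U ∧ |X.P.sig A x - f (X.P.bs A x)| ≤ X.N ^ (-r)} := fun x hx => hx.2
    refine (mul_le_mul' le_rfl ((measure_mono hsl).trans (kpb_off_X h.ok A w0 w1 w2 hU hf))).trans ?_
    have e : (kpbR X p G rc dflt).pA A = X.P.om A := kpb_pA h.ok.wf p _ A
    rw [e]
    exact kpb_cap_book h _ (Real.rpow_pos_of_pos w0 _).le _ _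
  · intro r hr A U f hU hf
    have hr' : r ∈ G.widths := hr
    obtain ⟨w0, w1, w2⟩ := kpb_wid h hr'
    refine (kpb_lam0_par' X p G rc dflt h.ok.wf A _ (fun q hq => hq.1)).trans ?_
    have hsl : kpbSl X {q : (kpbR X p G rc dflt).L × ℝ | (kpbR X p G rc dflt).par q.1 = A ∧ (kpbR X p G rc dflt).base q ∈ U ∧
        |(kpbR X p G rc dflt).w q.1 q.2 - f ((kpbR X p G rc dflt).base q)| ≤ (kpbR X p G rc dflt).a r} A
        ⊆ {x | X.P.bs A x ∈ U ∧ |X.P.hw A x - f (X.P.bs A x)| ≤ X.N ^ (-r)} := fun x hx => hx.2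
    refine (mul_le_mul' le_rfl ((measure_mono hsl).trans (kpb_off_w h.ok A w0 w1 w2 hU hf))).trans ?_
    have e : (kpbR X p G rc dflt).pA A = X.P.om A := kpb_pA h.ok.wf p _ A
    rw [e]
    exact kpb_cap_book h _ (Real.rpow_pos_of_pos w0 _).le _ _
  · rintro ⟨s, c⟩ U hU
    obtain ⟨hm, -, -⟩ := h.node s.2
    obtain ⟨w1, w2⟩ := kpb_capQ_wid h s.2
    have hJ : (kpbR X p G rc dflt).J ⟨s, c⟩ = ((X.Q (kprNd X s)).ch c).J := h.rc.J _
    have hJ0 : 0 ≤ ((X.Q (kprNd X s)).ch c).J := abs_nonneg _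
    have hν : (kpbR X p G rc dflt).νQ ⟨s, c⟩ = X.P.om ((X.Q (kprNd X s)).wd c) * (X.Q (kprNd X s)).nuC c := kpb_nuQ p _ ⟨s, c⟩
    have h1 : (kpbR X p G rc dflt).lam0 ((kpbR X p G rc dflt).inc ⟨s, c⟩ ∩ (kpbR X p G rc dflt).base ⁻¹' U)
        ≤ X.P.om ((X.Q (kprNd X s)).wd c) * (6 * ENNReal.ofReal (X.N ^ τ' * (2 * (X.N ^ τ') ^ 2 * X.a (kprNd X s)) ^ p.d) * volume U) := by
      refine (kpb_lam0_par' X p G rc dflt h.ok.wf ((X.Q (kprNd X s)).wd c) _ (fun q hq => hq.1.1.1)).trans ?_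
      refine mul_le_mul' le_rfl ((measure_mono ?_).trans (kpb_capQ0 h.ok hm c w1 w2 hU))
      intro x hx
      exact ⟨⟨hx.1.1.2, hx.1.2⟩, hx.2⟩
    rw [hJ, hν]
    have h2 : ENNReal.ofReal ((X.Q (kprNd X s)).ch c).J * (6 * ENNReal.ofReal (X.N ^ τ' * (2 * (X.N ^ τ') ^ 2 * X.a (kprNd X s)) ^ p.d))
        ≤ ENNReal.ofReal (X.N ^ (C * τ')) * (X.Q (kprNd X s)).nuC c := by
      refine le_trans ?_ (mul_le_mul' le_rfl (h.ok.nu_lo _ hm c))
      rw [← ENNReal.ofReal_ofNat 6, ← ENNReal.ofReal_mul (by norm_num), ← ENNReal.ofReal_mul hJ0, ← ENNReal.ofReal_mul (by linarith [h.K_ge])]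
      exact ENNReal.ofReal_le_ofReal (kpb_capQ_num h _ _ hJ0)
    calc ENNReal.ofReal ((X.Q (kprNd X s)).ch c).J * (kpbR X p G rc dflt).lam0 ((kpbR X p G rc dflt).inc ⟨s, c⟩ ∩ (kpbR X p G rc dflt).base ⁻¹' U)
        ≤ ENNReal.ofReal ((X.Q (kprNd X s)).ch c).J * (X.P.om ((X.Q (kprNd X s)).wd c) * (6 * ENNReal.ofReal (X.N ^ τ' * (2 * (X.N ^ τ') ^ 2 * X.a (kprNd X s)) ^ p.d) * volume U)) :=
          mul_le_mul' le_rfl h1
      _ = (ENNReal.ofReal ((X.Q (kprNd X s)).ch c).J * (6 * ENNReal.ofReal (X.N ^ τ' * (2 * (X.N ^ τ') ^ 2 * X.a (kprNd X s)) ^ p.d))) * X.P.om ((X.Q (kprNd X s)).wd c) * volume U := by ring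
      _ ≤ (ENNReal.ofReal (X.N ^ (C * τ')) * (X.Q (kprNd X s)).nuC c) * X.P.om ((X.Q (kprNd X s)).wd c) * volume U := mul_le_mul' (mul_le_mul' h2 le_rfl) le_rfl
      _ = ENNReal.ofReal (X.N ^ (C * τ')) * (X.P.om ((X.Q (kprNd X s)).wd c) * (X.Q (kprNd X s)).nuC c) * volume U := by ring

/-! ## D. palette, reference weights, domination -/

/-- `K₀ ≤ K` -/
theorem kpb_K0_le (h : KpbCtx p G X rc τ' C) : X.N ^ τ' ≤ X.N ^ (C * τ') := by
  have := h.pw (e := 1) (by linarith [h.C_pos])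
  rwa [one_mul] at this

/-- the velocity mesh is admissible -/
theorem kpb_chi (h : KpbCtx p G X rc τ' C) : X.N ^ (-1 / τ') ≤ X.N ^ (-G.U) ∧ X.N ^ (-G.U) ≤ 1 := by
  refine ⟨h.mono ?_, Real.rpow_le_one_of_one_le_of_nonpos h.N_one (by linarith [h.hG.U])⟩
  have h1 := h.C_U
  have h2 := h.C_le
  rw [neg_div]
  linarith

/-- a set which does not meet the prepared path is null -/
theorem kpb_mu_null (hX : X.P.WF) (γ : X.P.W) (S : Set (X.P.Lam × ℝ)) (hS : ∀ x ∈ S, x ∉ X.P.Ev γ) : X.P.mu γ S = 0 := by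
  unfold KbPb.mu
  rw [Measure.restrict_apply' (hX.Ev_meas γ)]
  have : S ∩ X.P.Ev γ = ∅ := Set.eq_empty_of_forall_notMem fun x hx => hS x hx.1 hx.2
  rw [this, measure_empty]

/-- **L-252-KPB-D**
PLAN.  `pal_le`: `pal_prob`.   `pal_ball`: `χ = N^(-U) ≥ N^(-1/τ')` (`h.C_U`, `h.C_le`); for `x ≤ 1` use `pal_cap`, `K₀ ≤ K`; for `x > 1`: `pal ≤ 1 ≤ ofReal (K x^S)` (`Real.one_le_rpow`).
`ref_par`: `Fintype.sum_option`, the term `none` is `0`; `∑ e, if wd e = A then om A * ref e else 0 = om A * ∑ e, if .. then ref e else 0 ≤ om A` (`Finset.mul_sum`, `mul_ite`, `ref_sum`); `kpb_pA`; `1 ≤ ofReal K`.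
`dom` (`KsDom`, unfold): state `(γ, o)`, bin `b`.   `kpb_lam0_par'` with `A = γ`.   `o = none`: the slice does not meet `Ev γ` (`kpb_lab_ex`), so its `mu` is `0` (`Measure.restrict_apply'`/`k2s_mu_compl` + `measure_mono_null`).   `o = some e`, `wd e ≠ γ`: the slice is empty (`kpb_lab_of_some`).
`o = some e`, `wd e = γ` (`subst`): the slice is contained in `S e ∩ {x | kpPv p (vl x) ∈ kpCube χ b}` (`kpb_lab_of_some`; `vbin = b` unfolds to the definition of `kpCube`); `h.ok.joint` at `β = χ`; reorder.   ~250 l. -/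
theorem kpb_labD (h : KpbCtx p G X rc τ' C) (dflt : KsPLab X G.depths (kprNd X)) : (kpbR X p G rc dflt).LabD (X.N ^ (C * τ')) := by
  classical
  have hK1 : (1 : ℝ≥0∞) ≤ ENNReal.ofReal (X.N ^ (C * τ')) := by
    rw [← ENNReal.ofReal_one]
    exact ENNReal.ofReal_le_ofReal h.K_ge
  obtain ⟨hχ1, hχ2⟩ := kpb_chi h
  refine ⟨?_, ?_, ?_, ?_⟩
  · intro A
    have := h.ok.pal_prob A
    exact (prob_le_one : X.pal A Set.univ ≤ 1)
  · intro A x w hw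
    have hw' : X.N ^ (-G.U) ≤ w := hw
    have := h.ok.pal_prob A
    show X.pal A (Metric.closedBall x w) ≤ ENNReal.ofReal (X.N ^ (C * τ') * w ^ p.S)
    have hw0 : 0 < w := lt_of_lt_of_le (Real.rpow_pos_of_pos h.N_pos _) hw'
    by_cases hw1 : w ≤ 1
    · refine (h.ok.pal_cap A w (hχ1.trans hw') hw1 x).trans (ENNReal.ofReal_le_ofReal ?_)
      exact mul_le_mul_of_nonneg_right (kpb_K0_le h) (Real.rpow_pos_of_pos hw0 _).le
    · refine (prob_le_one : X.pal A _ ≤ 1).trans ?_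
      rw [← ENNReal.ofReal_one]
      refine ENNReal.ofReal_le_ofReal ?_
      have h1 : 1 ≤ w ^ p.S := Real.one_le_rpow (not_le.1 hw1).le h.hp.S_pos.le
      nlinarith [h.K_ge]
  · intro A
    have e : (kpbR X p G rc dflt).pA A = X.P.om A := kpb_pA h.ok.wf p _ A
    rw [e]
    have e1 : ∑ o : Option (X.Q X.G).C, (kpbR X p G rc dflt).ref (A, o) = 0 + ∑ e : (X.Q X.G).C, (if (X.Q X.G).wd e = A then X.P.om A * X.ref e else 0) :=
      Fintype.sum_option _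
    refine (le_of_eq e1).trans ?_
    rw [zero_add]
    have e2 : ∑ e : (X.Q X.G).C, (if (X.Q X.G).wd e = A then X.P.om A * X.ref e else 0) = X.P.om A * ∑ e : (X.Q X.G).C, (if (X.Q X.G).wd e = A then X.ref e else 0) := by
      rw [Finset.mul_sum]
      refine Finset.sum_congr rfl fun e _ => ?_
      rw [mul_ite, mul_zero]
    rw [e2]
    calc X.P.om A * ∑ e : (X.Q X.G).C, (if (X.Q X.G).wd e = A then X.ref e else 0) ≤ X.P.om A * 1 := mul_le_mul' le_rfl (h.ok.ref_sum A)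
      _ = 1 * X.P.om A := by ring
      _ ≤ _ := mul_le_mul' hK1 le_rfl
  · rintro ⟨γ, o⟩ b
    refine (kpb_lam0_par' X p G rc dflt h.ok.wf γ _ (fun q hq => congrArg Prod.fst (hq.1 : (kpbR X p G rc dflt).st q = (γ, o)))).trans ?_
    have hlab : ∀ x ∈ kpbSl X ((kpbR X p G rc dflt).st ⁻¹' {(γ, o)} ∩ (kpbR X p G rc dflt).vT b) γ, X.lab X.G γ x = o := fun x hx =>
      congrArg Prod.snd (hx.1 : (kpbR X p G rc dflt).st ((γ, x.1), x.2) = (γ, o))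
    rcases o with _ | e
    · refine le_trans (le_of_eq ?_) zero_le
      refine mul_eq_zero_of_right _ (kpb_mu_null h.ok.wf γ _ (fun x hx hxE => ?_))
      obtain ⟨c, -, -, hc⟩ := kpb_lab_ex h.ok le_rfl hxE
      rw [hlab x hx] at hc
      exact Option.some_ne_none c hc.symm
    · by_cases hwd : (X.Q X.G).wd e = γ
      · subst hwd
        have hsub : kpbSl X ((kpbR X p G rc dflt).st ⁻¹' {((X.Q X.G).wd e, some e)} ∩ (kpbR X p G rc dflt).vT b) ((X.Q X.G).wd e)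
            ⊆ (X.Q X.G).S e ∩ {x | kpPv p (X.vl ((X.Q X.G).wd e) x) ∈ kpCube (X.N ^ (-G.U)) b} := by
          intro x hx
          refine ⟨(kpb_lab_of_some (hlab x hx)).2, fun i => ?_⟩
          exact congrFun (hx.2 : (kpbR X p G rc dflt).vbin ((X.Q X.G).wd e, x.1) = b) i
        refine (mul_le_mul' le_rfl ((measure_mono hsub).trans (h.ok.joint _ hχ1 hχ2 e b))).trans ?_
        have eref : (kpbR X p G rc dflt).ref ((X.Q X.G).wd e, some e) = X.P.om ((X.Q X.G).wd e) * X.ref e := if_pos rfl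
        show _ ≤ ENNReal.ofReal (X.N ^ (C * τ')) * X.pal ((X.Q X.G).wd e) (kpCube (X.N ^ (-G.U)) b) * (kpbR X p G rc dflt).ref ((X.Q X.G).wd e, some e)
        rw [eref]
        calc X.P.om ((X.Q X.G).wd e) * (ENNReal.ofReal (X.N ^ τ') * X.pal ((X.Q X.G).wd e) (kpCube (X.N ^ (-G.U)) b) * X.ref e)
            = ENNReal.ofReal (X.N ^ τ') * (X.pal ((X.Q X.G).wd e) (kpCube (X.N ^ (-G.U)) b) * (X.P.om ((X.Q X.G).wd e) * X.ref e)) := by ring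
          _ ≤ ENNReal.ofReal (X.N ^ (C * τ')) * (X.pal ((X.Q X.G).wd e) (kpCube (X.N ^ (-G.U)) b) * (X.P.om ((X.Q X.G).wd e) * X.ref e)) :=
              mul_le_mul' (ENNReal.ofReal_le_ofReal (kpb_K0_le h)) le_rfl
          _ = _ := by ring
      · refine le_trans (le_of_eq ?_) zero_le
        exact mul_eq_zero_of_right _ (kpb_mu_null h.ok.wf γ _ (fun x hx _ => hwd (kpb_lab_of_some (hlab x hx)).1))

/-! ## R. the reference weights inside a label -/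

/-- the field `ref_le` of `KpTan.Ok` (`λ_A⁰ ≤ K ν_A × dt`). -/
theorem kpb_ref_le (hX : X.Ok p τ') (e : (X.Q X.G).C) : X.ref e ≤ ENNReal.ofReal (X.N ^ τ' * (X.Q X.G).q) * (X.Q X.G).nuC e :=
  hX.ref_le e

/-- **L-252-KPB-R1**  the rectangles of the end labels below a packet.   `D` = any set of end labels of the world of `c` whose rectangles `A e × I e` lie in `A c × I c`.
PLAN.  `ofReal q_G * nuC e = ((nu γ).prod volume) (A e ×ˢ I e)` (`Measure.prod_prod`, `k2s_vol_I`, `mul_comm`), the rectangles are measurable (`sys_wf.A_meas`, `measurableSet_Ico`) and pairwise disjoint (`e ≠ e'`, same world: if `iv e = iv e'` then `A_disj`, else `k2s_kbI_disj`; `Set.disjoint_prod`),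
so `∑ = prod (⋃ ..) ≤ prod (A c ×ˢ I c)` (`measure_biUnion_finset`, `measure_mono`).   ~90 l. -/
theorem kpb_rect_sum (hX : X.Ok p τ') {m : ℕ} (hm : m ≤ X.G) (c : (X.Q m).C) (D : Finset (X.Q X.G).C) (hD : ∀ e ∈ D, (X.Q X.G).wd e = (X.Q m).wd c ∧
    (X.Q X.G).A e ⊆ (X.Q m).A c ∧ (X.Q X.G).I e ⊆ (X.Q m).I c) :
    ∑ e ∈ D, ENNReal.ofReal (X.Q X.G).q * (X.Q X.G).nuC e ≤ ENNReal.ofReal (X.Q m).q * (X.Q m).nuC c := by
  have hp := hX.wf.prob ((X.Q m).wd c)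
  have hwf := hX.sys_wf X.G le_rfl
  have e1 : ∀ e ∈ D, ENNReal.ofReal (X.Q X.G).q * (X.Q X.G).nuC e
      = ((X.P.nu ((X.Q m).wd c)).prod volume) ((X.Q X.G).A e ×ˢ (X.Q X.G).I e) := by
    intro e he
    rw [Measure.prod_prod, k2s_vol_I, mul_comm]
    unfold KbSys.nuC
    rw [(hD e he).1]
  rw [Finset.sum_congr rfl e1, ← measure_biUnion_finset]
  · have e2 : ENNReal.ofReal (X.Q m).q * (X.Q m).nuC c = ((X.P.nu ((X.Q m).wd c)).prod volume) ((X.Q m).A c ×ˢ (X.Q m).I c) := by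
      rw [Measure.prod_prod, k2s_vol_I, mul_comm]
      rfl
    rw [e2]
    refine measure_mono ?_
    intro x hx
    simp only [Set.mem_iUnion, exists_prop] at hx
    obtain ⟨e, he, hxe⟩ := hx
    exact ⟨(hD e he).2.1 hxe.1, (hD e he).2.2 hxe.2⟩
  · intro e he e' he' hne
    have hw : (X.Q X.G).wd e = (X.Q X.G).wd e' := (hD e he).1.trans (hD e' he').1.symm
    show Disjoint ((X.Q X.G).A e ×ˢ (X.Q X.G).I e) ((X.Q X.G).A e' ×ˢ (X.Q X.G).I e')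
    rw [Set.disjoint_prod]
    by_cases hiv : (X.Q X.G).iv e = (X.Q X.G).iv e'
    · exact Or.inl (hwf.A_disj e e' hne hw hiv)
    · exact Or.inr (k2s_kbI_disj _ hiv)
  · intro e _
    exact (hwf.A_meas e).prod measurableSet_Ico

/-- **L-252-KPB-R2**  the field `ref_Q`.   `Q = ⟨s, c⟩`, `m = kprNd X s`, `γ = wd c`.
PLAN.  If `x = (γ', o) ∈ histIn Q` there is an incidence `((γ', l), t) ∈ Ev0 ∩ inc Q` with `X.lab X.G γ' (l, t) = o`: `γ' = γ`, `o = some e` (`kpb_lab_ex`), `wd e = γ`, `(l, t) ∈ S e ⊆ A e × I e`; the ancestor `c̃` of `e` at `m` (`kpr_anc`) contains `(l, t)`, so `c̃ = c` (`kpb_uniq`): `A e ⊆ A c`, `I e ⊆ I c`.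
So `histIn Q ⊆ D.image (fun e => (γ, some e))`, `D := univ.filter (wd e = γ ∧ A e ⊆ A c ∧ I e ⊆ I c)` (classical); `Finset.sum_le_sum_of_subset`, `Finset.sum_image` (injective); `ref (γ, some e) = om γ * X.ref e` (`if_pos`);
`kpb_ref_le`, `ENNReal.ofReal_mul`, `Finset.mul_sum`, `kpb_rect_sum`, `kpb_nuQ`, `K₀ ≤ K`.   ~200 l. -/
theorem kpb_refQ (h : KpbCtx p G X rc τ' C) (dflt : KsPLab X G.depths (kprNd X)) (Q : (kpbR X p G rc dflt).Lab) :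
    ∑ x ∈ (kpbR X p G rc dflt).histIn Q, (kpbR X p G rc dflt).ref x
      ≤ ENNReal.ofReal (X.N ^ (C * τ')) * (ENNReal.ofReal ((kpbR X p G rc dflt).q Q) * (kpbR X p G rc dflt).νQ Q) := by
  classical
  obtain ⟨⟨s₀, hs₀⟩, c⟩ := Q
  have hm := (h.node hs₀).1
  let D : Finset (X.Q X.G).C := Finset.univ.filter fun e => (X.Q X.G).wd e = (X.Q (kprNd X s₀)).wd c ∧
    (X.Q X.G).A e ⊆ (X.Q (kprNd X s₀)).A c ∧ (X.Q X.G).I e ⊆ (X.Q (kprNd X s₀)).I c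
  have hD : ∀ e ∈ D, (X.Q X.G).wd e = (X.Q (kprNd X s₀)).wd c ∧
    (X.Q X.G).A e ⊆ (X.Q (kprNd X s₀)).A c ∧ (X.Q X.G).I e ⊆ (X.Q (kprNd X s₀)).I c := fun e he => (Finset.mem_filter.1 he).2
  let f : (X.Q X.G).C → (kpbR X p G rc dflt).Par × (kpbR X p G rc dflt).Hist := fun e => ((X.Q (kprNd X s₀)).wd c, some e)
  have hsub : (kpbR X p G rc dflt).histIn ⟨⟨s₀, hs₀⟩, c⟩ ⊆ D.image f := by
    intro x hx
    obtain ⟨⟨⟨γ', l⟩, t⟩, ⟨hE, hst⟩, hinc⟩ := (Finset.mem_filter.1 hx).2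
    have hE' : (l, t) ∈ X.P.Ev γ' := hE
    have i1 : γ' = (X.Q (kprNd X s₀)).wd c := hinc.1.1
    have i2 : l ∈ (X.Q (kprNd X s₀)).A c := hinc.1.2
    have i3 : t ∈ (X.Q (kprNd X s₀)).I c := hinc.2
    obtain ⟨e, he1, he2, he3⟩ := kpb_lab_ex h.ok le_rfl hE'
    have a := ((h.ok.sys_wf X.G le_rfl).S_sub e he2).2
    obtain ⟨c', w1, w2, w3⟩ := kpr_anc h.ok hm le_rfl e
    have hc : c = c' := kpb_uniq h.ok hm (i1.symm.trans (he1.symm.trans w1.symm)) i2 i3 (w2 a.1) (w3 a.2)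
    subst hc
    refine Finset.mem_image.2 ⟨e, Finset.mem_filter.2 ⟨Finset.mem_univ _, w1.symm, w2, w3⟩, ?_⟩
    have hx' : ((γ', X.lab X.G γ' (l, t)) : X.P.W × Option (X.Q X.G).C) = x := hst
    rw [← hx', he3, i1]
    rfl
  have hinj : Set.InjOn f D := by
    intro e _ e' _ hee
    exact Option.some.inj (congrArg Prod.snd hee)
  have hK0 : X.N ^ τ' ≤ X.N ^ (C * τ') := by
    have := h.pw (e := 1) (by linarith [h.C_pos])
    rwa [one_mul] at this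
  have hN0 : 0 ≤ X.N ^ τ' := Real.rpow_nonneg h.N_pos.le _
  calc ∑ x ∈ (kpbR X p G rc dflt).histIn ⟨⟨s₀, hs₀⟩, c⟩, (kpbR X p G rc dflt).ref x
      ≤ ∑ x ∈ D.image f, (kpbR X p G rc dflt).ref x := Finset.sum_le_sum_of_subset hsub
    _ = ∑ e ∈ D, (kpbR X p G rc dflt).ref (f e) := Finset.sum_image hinj
    _ = ∑ e ∈ D, X.P.om ((X.Q (kprNd X s₀)).wd c) * X.ref e := by
        refine Finset.sum_congr rfl fun e he => ?_
        show (if (X.Q X.G).wd e = (X.Q (kprNd X s₀)).wd c then X.P.om ((X.Q (kprNd X s₀)).wd c) * X.ref e else 0) = _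
        rw [if_pos (hD e he).1]
    _ ≤ ∑ e ∈ D, X.P.om ((X.Q (kprNd X s₀)).wd c) * (ENNReal.ofReal (X.N ^ τ') * (ENNReal.ofReal (X.Q X.G).q * (X.Q X.G).nuC e)) := by
        refine Finset.sum_le_sum fun e _ => mul_le_mul' le_rfl ?_
        have := kpb_ref_le h.ok e
        rwa [ENNReal.ofReal_mul hN0, mul_assoc] at this
    _ = X.P.om ((X.Q (kprNd X s₀)).wd c) * (ENNReal.ofReal (X.N ^ τ') * ∑ e ∈ D, ENNReal.ofReal (X.Q X.G).q * (X.Q X.G).nuC e) := by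
        rw [Finset.mul_sum, Finset.mul_sum]
    _ ≤ X.P.om ((X.Q (kprNd X s₀)).wd c) * (ENNReal.ofReal (X.N ^ (C * τ')) *
          (ENNReal.ofReal (X.Q (kprNd X s₀)).q * (X.Q (kprNd X s₀)).nuC c)) :=
        mul_le_mul' le_rfl (mul_le_mul' (ENNReal.ofReal_le_ofReal hK0) (kpb_rect_sum h.ok hm c D hD))
    _ = ENNReal.ofReal (X.N ^ (C * τ')) * (ENNReal.ofReal ((kpbR X p G rc dflt).q ⟨⟨s₀, hs₀⟩, c⟩) * (kpbR X p G rc dflt).νQ ⟨⟨s₀, hs₀⟩, c⟩) := by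
        have e9 : (kpbR X p G rc dflt).νQ ⟨⟨s₀, hs₀⟩, c⟩ = X.P.om ((X.Q (kprNd X s₀)).wd c) * (X.Q (kprNd X s₀)).nuC c :=
          kpb_nuQ p (kprZ0 X G rc dflt) ⟨⟨s₀, hs₀⟩, c⟩
        rw [e9]
        show _ = ENNReal.ofReal (X.N ^ (C * τ')) * (ENNReal.ofReal (X.Q (kprNd X s₀)).q * (X.P.om ((X.Q (kprNd X s₀)).wd c) * (X.Q (kprNd X s₀)).nuC c))
        ring

end caps

/-! ## The hub -/

/-- **HUB H0** = `kpr_base` of `Prep/Hubs.lean`, verbatim -/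
theorem kpb_base (p : KpPrm) (hp : p.Ok) (hv : v = KbVer.one → p.ell = 0) (G : KsReq) (hG : G.Ok) :
    ∃ C : ℝ, 1 ≤ C ∧ ∀ τ' : ℝ, 0 < τ' → C * τ' ≤ 1 → ∃ N₁ : ℝ, ∀ (X : KpTan v) (rc : KbChart v → KbChart v) (dflt : KsPLab X G.depths (kprNd X)),
      KprRc rc → X.Ok p τ' → N₁ ≤ X.N →
        (X.prep p (kprZ0 X G rc dflt)).OkLab (X.N ^ (C * τ')) ∧ (X.prep p (kprZ0 X G rc dflt)).Deep (X.N ^ (-(1 / (C * τ')))) := by
  have hk := hp.k_pos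
  have hell := hp.ell_nonneg
  have hsd : ∀ s ∈ G.depths, 0 ≤ s + 1 + 40 / s := fun s hs => by have := hG.depths s hs; positivity
  have hS1 : 0 ≤ ∑ s ∈ G.depths, (s + 1 + 40 / s) := Finset.sum_nonneg hsd
  have hS2 : 0 ≤ ∑ r ∈ G.widths, r := Finset.sum_nonneg hG.widths
  have hU := hG.U
  have h4k : 0 ≤ 4 / p.k := by positivity
  refine ⟨20 + p.ell + ∑ s ∈ G.depths, (s + 1 + 40 / s) + ∑ r ∈ G.widths, r + G.U + 4 / p.k, by linarith, ?_⟩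
  intro τ' hτ hCτ
  refine ⟨max 2 ((100 : ℝ) ^ (1 / τ')), ?_⟩
  intro X rc dflt hrc hX hN
  have hctx : KpbCtx p G X rc τ' (20 + p.ell + ∑ s ∈ G.depths, (s + 1 + 40 / s) + ∑ r ∈ G.widths, r + G.U + 4 / p.k) := by
    refine ⟨hp, hv, hG, hrc, hX, hτ, hCτ, by linarith, ?_, ?_, by linarith, ?_, ?_⟩
    · intro s hs
      have h0 := hG.depths s hs
      have h1 : s + 1 + 40 / s ≤ ∑ s ∈ G.depths, (s + 1 + 40 / s) := Finset.single_le_sum hsd hs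
      have h2 : 0 ≤ 40 / s := by positivity
      refine ⟨by linarith, ?_⟩
      have h3 : 40 / s ≤ 20 + p.ell + ∑ s ∈ G.depths, (s + 1 + 40 / s) + ∑ r ∈ G.widths, r + G.U + 4 / p.k := by linarith
      rwa [div_le_iff₀ h0] at h3
    · intro r hr
      have h1 : r ≤ ∑ r ∈ G.widths, r := Finset.single_le_sum hG.widths hr
      linarith
    · have h3 : 4 / p.k ≤ 20 + p.ell + ∑ s ∈ G.depths, (s + 1 + 40 / s) + ∑ r ∈ G.widths, r + G.U + 4 / p.k := by linarith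
      rwa [div_le_iff₀ hk] at h3
    · have h1 : (100 : ℝ) ^ (1 / τ') ≤ X.N := (le_max_right _ _).trans hN
      have h2 : ((100 : ℝ) ^ (1 / τ')) ^ τ' ≤ X.N ^ τ' := Real.rpow_le_rpow (by positivity) h1 hτ.le
      rwa [← Real.rpow_mul (by norm_num), one_div, inv_mul_cancel₀ hτ.ne', Real.rpow_one] at h2
  exact ⟨kpb_assemble hX.N_two hctx.K_ge hp hv (kpb_labM hctx dflt) (kpb_labP hctx dflt) (kpb_labS hctx dflt) (kpb_labT hctx dflt)
    (kpb_labC hctx dflt) (kpb_labD hctx dflt) (kpb_refQ hctx dflt), kpb_deep hctx dflt⟩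

end

end Claimed.Agent.R252

end PkPrepH0b
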