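import Claimed.Agent.R252.Prep.Parts
import Claimed.Agent.R252.Prep.H1.Main

/-! PACKED FILE (helper31, closed unit PREP of row 252, FROZEN): parts Prep.H5.Brd, Prep.Hubs.  Each part is wrapped in its own `section`. -/

section PkPrepH5Brd

/-!
# ROW 252 (S0492), unit PREP, hub H5 (post BP-252-PREP-H5, helper200; prefix `kpr5`): BREADTH TRANSFER `X.Brd → (X.prep p Z).Brd` after deletion of the breadth-bad parents.

`kpr5_brd` = `kpr_brd` of `Prep/Hubs.lean` (with `kprR0 G` unfolded).   PLAN.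
1. `kpr5Good R κ u ε A` = the inequality of `R.Brd` at the parent `A`;  `B` = good parents;  `kpr5_cut_brd`: the cut to the good parents has `Brd`.
2. a bad parent has a violating pair `(E_A, C_A)`, w.l.o.g. `C_A : Fine → Set Fine` (`kpr5_bad`).
3. `kpr5Fine X p Z Φ e₀ : X.P.Lab Fine` = the finest state as a function of the data allowed by `KpTan.ActOk` (parent; path label, entry table = function of the exact base, sign; two point states).
   It agrees with `R.fine` on `Ev0` (`kpr5_fine_eq`), is measurable (`kpr5_fine_meas`), and known with exponent `4 #depths + 2 #meshes #widths + 1` (`kpr5_fine_act`).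
4. `kpr5_prior_one`: `prior S = ω_γ μ_γ (slice)` for ANY set `S` inside one parent and the path;  `kpr5_narrow`, `kpr5_term`: narrow states go to narrow states.
5. `kpr5_transfer`: glue.
-/

set_option autoImplicit false

namespace Claimed.Agent.R252

open MeasureTheory
open scoped ENNReal BigOperators

noncomputable section

variable {v : KbVer}

/-! ## 1. Good parents (any record) -/

/-- the inequality of `R.Brd κ u ε` at one parent -/
def kpr5Good (R : KsRef v) (κ u ε : ℝ) (A : R.Par) : Prop :=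
  ∀ E : Set (R.L × ℝ), MeasurableSet E → E ⊆ R.Ev0 ∩ {x | R.par x.1 = A} → ∀ (D : Type) (C : R.Fine → D),
    R.prior (E ∩ {x | R.Narrow E (C ∘ R.fine) κ (R.a u) (C (R.fine x))}) ≤ ENNReal.ofReal ε * R.m0 A

/-- **L-252-KPR-H5-1** the cut to the good parents has hereditary breadth -/
theorem kpr5_cut_brd (R : KsRef v) (κ u ε : ℝ) : (R.cut {x | R.par x.1 ∈ {A | kpr5Good R κ u ε A}}).Brd κ u ε := by
  intro A E hE hsub D C
  have hsub' : E ⊆ (R.Ev0 ∩ {x | R.par x.1 ∈ {A | kpr5Good R κ u ε A}}) ∩ {x | R.par x.1 = A} := hsub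
  by_cases hA : kpr5Good R κ u ε A
  · have h := hA E hE (fun x hx => ⟨(hsub' hx).1.1, (hsub' hx).2⟩) D C
    have hm : (R.cut {x | R.par x.1 ∈ {A | kpr5Good R κ u ε A}}).m0 A = R.m0 A := by
      show R.prior ((R.Ev0 ∩ {x | R.par x.1 ∈ {A | kpr5Good R κ u ε A}}) ∩ {x | R.par x.1 = A}) = R.prior (R.Ev0 ∩ {x | R.par x.1 = A})
      congr 1
      ext x
      constructor
      · rintro ⟨⟨h1, _⟩, h3⟩
        exact ⟨h1, h3⟩
      · rintro ⟨h1, h3⟩
        have h3' : R.par x.1 = A := h3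
        refine ⟨⟨h1, ?_⟩, h3⟩
        show kpr5Good R κ u ε (R.par x.1)
        rw [h3']
        exact hA
    rw [hm]
    exact h
  · have hemp : E = ∅ := by
      rw [Set.eq_empty_iff_forall_notMem]
      intro x hx
      have h1 : kpr5Good R κ u ε (R.par x.1) := (hsub' hx).1.2
      have h2 : R.par x.1 = A := (hsub' hx).2
      rw [h2] at h1
      exact hA h1
    subst hemp
    rw [Set.empty_inter, measure_empty]
    exact zero_le

/-- **L-252-KPR-H5-2** a bad parent has a violating pair, with a coarsening with values in `Set Fine` (`C' f := {g | C g = C f}` has the same fibres as `C`) -/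
theorem kpr5_bad {R : KsRef v} {κ u ε : ℝ} {A : R.Par} (h : ¬ kpr5Good R κ u ε A) :
    ∃ (E : Set (R.L × ℝ)) (C : R.Fine → Set R.Fine), MeasurableSet E ∧ E ⊆ R.Ev0 ∩ {x | R.par x.1 = A} ∧
      ENNReal.ofReal ε * R.m0 A < R.prior (E ∩ {x | R.Narrow E (C ∘ R.fine) κ (R.a u) (C (R.fine x))}) := by
  unfold kpr5Good at h
  push Not at h
  obtain ⟨E, hE, hsub, D, C, hlt⟩ := h
  refine ⟨E, fun f => {g | C g = C f}, hE, hsub, ?_⟩
  have key : ∀ f : R.Fine, ((fun f => {g | C g = C f}) ∘ R.fine) ⁻¹' {{g | C g = C f}} = (C ∘ R.fine) ⁻¹' {C f} := by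
    intro f
    ext y
    simp only [Set.mem_preimage, Function.comp, Set.mem_singleton_iff]
    constructor
    · intro hy
      have : R.fine y ∈ {g | C g = C (R.fine y)} := rfl
      rw [hy] at this
      exact this
    · intro hy
      rw [hy]
  have e : {x | R.Narrow E ((fun f => {g | C g = C f}) ∘ R.fine) κ (R.a u) ((fun f => {g | C g = C f}) (R.fine x))}
      = {x | R.Narrow E (C ∘ R.fine) κ (R.a u) (C (R.fine x))} := by
    ext x
    simp only [Set.mem_ofPred_eq, KsRef.Narrow, key]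
  rw [e]
  exact hlt

/-- the loss: the bad parents are paid by their violating pairs -/
theorem kpr5_loss (R : KsRef v) (κ u ε : ℝ) (T : ℝ≥0∞)
    (hT : ∀ (Es : R.Par → Set (R.L × ℝ)) (C : R.Par → R.Fine → Set R.Fine), (∀ γ, MeasurableSet (Es γ)) → (∀ γ, Es γ ⊆ R.Ev0 ∩ {x | R.par x.1 = γ}) →
      ∑ γ, R.prior (Es γ ∩ {x | R.Narrow (Es γ) (C γ ∘ R.fine) κ (R.a u) (C γ (R.fine x))}) ≤ T) :
    ENNReal.ofReal ε * R.prior (R.Ev0 \ {x | R.par x.1 ∈ {A | kpr5Good R κ u ε A}}) ≤ T := by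
  classical
  have hex : ∀ γ : R.Par, ∃ (E : Set (R.L × ℝ)) (C : R.Fine → Set R.Fine), MeasurableSet E ∧ E ⊆ R.Ev0 ∩ {x | R.par x.1 = γ} ∧
      (¬ kpr5Good R κ u ε γ → ENNReal.ofReal ε * R.m0 γ < R.prior (E ∩ {x | R.Narrow E (C ∘ R.fine) κ (R.a u) (C (R.fine x))})) := by
    intro γ
    by_cases h : kpr5Good R κ u ε γ
    · exact ⟨∅, fun _ => ∅, MeasurableSet.empty, Set.empty_subset _, fun h' => absurd h h'⟩
    · obtain ⟨E, C, h1, h2, h3⟩ := kpr5_bad h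
      exact ⟨E, C, h1, h2, fun _ => h3⟩
  choose Es C h1 h2 h3 using hex
  refine le_trans ?_ (hT Es C h1 h2)
  have hcov : R.Ev0 \ {x | R.par x.1 ∈ {A | kpr5Good R κ u ε A}} ⊆ ⋃ γ ∈ Finset.univ.filter (fun γ => ¬ kpr5Good R κ u ε γ), (R.Ev0 ∩ {x | R.par x.1 = γ}) := by
    rintro x ⟨hx1, hx2⟩
    simp only [Set.mem_iUnion]
    exact ⟨R.par x.1, by simpa using hx2, hx1, rfl⟩
  calc ENNReal.ofReal ε * R.prior (R.Ev0 \ {x | R.par x.1 ∈ {A | kpr5Good R κ u ε A}})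
      ≤ ENNReal.ofReal ε * ∑ γ ∈ Finset.univ.filter (fun γ => ¬ kpr5Good R κ u ε γ), R.m0 γ :=
        mul_le_mul_right ((measure_mono hcov).trans (measure_biUnion_finset_le _ _)) _
    _ = ∑ γ ∈ Finset.univ.filter (fun γ => ¬ kpr5Good R κ u ε γ), ENNReal.ofReal ε * R.m0 γ := Finset.mul_sum _ _ _
    _ ≤ ∑ γ ∈ Finset.univ.filter (fun γ => ¬ kpr5Good R κ u ε γ), R.prior (Es γ ∩ {x | R.Narrow (Es γ) (C γ ∘ R.fine) κ (R.a u) (C γ (R.fine x))}) :=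
        Finset.sum_le_sum fun γ hγ => (h3 γ (by simpa using hγ)).le
    _ ≤ ∑ γ, R.prior (Es γ ∩ {x | R.Narrow (Es γ) (C γ ∘ R.fine) κ (R.a u) (C γ (R.fine x))}) :=
        Finset.sum_le_sum_of_subset (Finset.filter_subset _ _)

/-! ## 2. The finest state in the language of `KpTan.ActOk` -/

/-- the sign of the incidence derivative of the fitted test of the path label -/
def kpr5Sg (X : KpTan v) (Z : KsPrep X) (s : {s // s ∈ Z.depths}) : X.P.Lab Bool := fun γ x =>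
  match X.lab (Z.nd s) γ x with
  | some c => decide (0 < kbX (kbDw (Z.ch ⟨s, c⟩).T) (X.P.co γ x.1) x.2)
  | none => false

/-- the table of the entries: a function of the exact base -/
def kpr5Tb (X : KpTan v) (Z : KsPrep X) (Φ : KsPLab X Z.depths Z.nd → ℝ × KbB v → Bool → Z.Ent) : X.P.Lab (KsPLab X Z.depths Z.nd × Bool → Z.Ent) :=
  fun γ x Qσ => Φ Qσ.1 (X.P.bs γ x) Qσ.2

/-- decoding: (path label, table, sign) ↦ entry -/
def kpr5Dec (X : KpTan v) (Z : KsPrep X) (e₀ : Z.Ent) (s : {s // s ∈ Z.depths}) :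
    (Option (X.Q (Z.nd s)).C × (KsPLab X Z.depths Z.nd × Bool → Z.Ent)) × Bool → Z.Ent := fun d =>
  match d.1.1 with
  | some c => d.1.2 (⟨s, c⟩, d.2)
  | none => e₀

/-- the predicted entry -/
def kpr5En (X : KpTan v) (Z : KsPrep X) (Φ : {s // s ∈ Z.depths} → KsPLab X Z.depths Z.nd → ℝ × KbB v → Bool → Z.Ent) (e₀ : Z.Ent) (s : {s // s ∈ Z.depths}) : X.P.Lab Z.Ent :=
  fun γ x => kpr5Dec X Z e₀ s ((X.lab (Z.nd s) γ x, kpr5Tb X Z (Φ s) γ x), kpr5Sg X Z s γ x)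

/-- the point state with two meshes -/
def kpr5Pt (X : KpTan v) (M r : ℝ) : X.P.Lab (ℤ × (Fin v.j → ℤ) × ℤ) := fun γ x =>
  ((X.pt (X.N ^ (-M)) γ x).1, (X.pt (X.N ^ (-M)) γ x).2.1, (X.pt (X.N ^ (-r)) γ x).2.2)

/-- **the finest prepared state, as a label of `X.P`** -/
def kpr5Fine (X : KpTan v) (p : KpPrm) (Z : KsPrep X) (Φ : {s // s ∈ Z.depths} → KsPLab X Z.depths Z.nd → ℝ × KbB v → Bool → Z.Ent) (e₀ : Z.Ent) : X.P.Lab (X.prep p Z).Fine :=
  fun γ x => (γ, fun s => kpr5En X Z Φ e₀ s γ x, fun m => kpr5Pt X m.1 m.2 γ x)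

theorem kpr5_lab_spec {X : KpTan v} {m : ℕ} {γ : X.P.W} {c : (X.Q m).C} {x : X.P.Lam × ℝ} (h : X.lab m γ x = some c) : (X.Q m).wd c = γ ∧ x ∈ (X.Q m).S c := by
  unfold KpTan.lab at h
  split_ifs at h with hex
  have h' := Option.some.inj h
  rw [← h']
  exact hex.choose_spec

/-- **L-252-KPR-H5-3** the path label of a selected incidence (`S_sub`, `ksl_kbI_inj`, `A_disj`) -/
theorem kpr5_lab_some {X : KpTan v} {m : ℕ} (hY : (X.Q m).WF) {c : (X.Q m).C} {x : X.P.Lam × ℝ} (hx : x ∈ (X.Q m).S c) : X.lab m ((X.Q m).wd c) x = some c := by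
  have hex : ∃ c', (X.Q m).wd c' = (X.Q m).wd c ∧ x ∈ (X.Q m).S c' := ⟨c, rfl, hx⟩
  unfold KpTan.lab
  rw [dif_pos hex]
  congr 1
  obtain ⟨h1, h2⟩ := hex.choose_spec
  by_contra hne
  have hA := (hY.S_sub _ h2).2
  have hB := (hY.S_sub _ hx).2
  have hiv : (X.Q m).iv hex.choose = (X.Q m).iv c := ksl_kbI_inj hA.2 hB.2
  exact Set.disjoint_left.1 (hY.A_disj _ _ hne h1 hiv) hA.1 hB.1

/-- **L-252-KPR-H5-4** `kpr5Fine` is `fine` on the prepared selection -/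
theorem kpr5_fine_eq {X : KpTan v} {p : KpPrm} {Z : KsPrep X} {τ' K : ℝ} (hX : X.Ok p τ') (hsub : ∀ γ, Z.Ev0 γ ⊆ X.P.Ev γ) (hnd : ∀ s ∈ Z.depths, Z.nd s ≤ X.G)
    (hE : (X.prep p Z).OkEnt K) (Φ : {s // s ∈ Z.depths} → KsPLab X Z.depths Z.nd → ℝ × KbB v → Bool → Z.Ent) (e₀ : Z.Ent)
    (hΦ : ∀ s : {s // s ∈ Z.depths}, ∀ q ∈ (X.prep p Z).Ev0, (X.prep p Z).ent s q =
      Φ s ((X.prep p Z).labAt s q) ((X.prep p Z).base q) (decide (0 < (X.prep p Z).ev (kbDw ((X.prep p Z).tst ((X.prep p Z).labAt s q))) q.1 q.2)))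
    (γ : X.P.W) (x : X.P.Lam × ℝ) (hx : x ∈ Z.Ev0 γ) : (X.prep p Z).fine ((γ, x.1), x.2) = kpr5Fine X p Z Φ e₀ γ x := by
  have hq : (((γ, x.1), x.2) : (X.P.W × X.P.Lam) × ℝ) ∈ (X.prep p Z).Ev0 := hx
  have aux : ∀ (s : {s // s ∈ Z.depths}) (Q : KsPLab X Z.depths Z.nd), (X.prep p Z).IsLab s ((γ, x.1), x.2) Q →
      Φ s Q (X.P.bs γ x) (decide (0 < kbX (kbDw (Z.ch Q).T) (X.P.co γ x.1) x.2)) = kpr5En X Z Φ e₀ s γ x := by
    intro s Q hl
    obtain ⟨⟨s', hs'⟩, c⟩ := Q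
    obtain ⟨h1, h2⟩ := hl
    have h1' : s' = s.1 := h1
    obtain ⟨s0, hs0⟩ := s
    simp only at h1'
    subst h1'
    obtain ⟨⟨ha1, ha2⟩, hb⟩ := h2
    have ha1' : γ = (X.Q (Z.nd s')).wd c := ha1
    have hS : x ∈ (X.Q (Z.nd s')).S c := by
      rw [hX.path _ (hnd s' hs') c]
      exact ⟨ha1' ▸ hsub γ hx, ha2, hb⟩
    have hlab : X.lab (Z.nd s') γ x = some c := by
      rw [ha1']
      exact kpr5_lab_some (hX.sys_wf _ (hnd s' hs')) hS
    simp only [kpr5En, kpr5Dec, kpr5Tb, kpr5Sg, hlab]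
  refine Prod.ext rfl (Prod.ext ?_ rfl)
  funext s
  exact (hΦ s _ hq).trans (aux s _ (hE.lab s.1 s.2 _ hq))

/-! ## 3. Measurability -/

/-- **L-252-KPR-H5-5a** functions of a countable label -/
theorem kpr5_meas_map {P : KbPb v} {D D' : Type} [Countable D] {ℓ : P.Lab D} (h : P.LabMeas ℓ) (g : P.W → D → D') : P.LabMeas fun γ x => g γ (ℓ γ x) := by
  intro γ d'
  have e : (fun x => g γ (ℓ γ x)) ⁻¹' {d'} = ⋃ d ∈ {d | g γ d = d'}, ℓ γ ⁻¹' {d} := by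
    ext x
    simp
  rw [e]
  exact MeasurableSet.biUnion (Set.to_countable _) fun d _ => h γ d

/-- **L-252-KPR-H5-5b** finite families -/
theorem kpr5_meas_pi {P : KbPb v} {ι D : Type} [Countable ι] {ℓ : ι → P.Lab D} (h : ∀ i, P.LabMeas (ℓ i)) : P.LabMeas fun γ x i => ℓ i γ x := by
  intro γ d
  have e : (fun x i => ℓ i γ x) ⁻¹' {d} = ⋂ i, ℓ i γ ⁻¹' {d i} := by
    ext x
    simp [funext_iff]
  rw [e]
  exact MeasurableSet.iInter fun i => h i γ (d i)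

/-- **L-252-KPR-H5-5c** path labels -/
theorem kpr5_lab_meas {X : KpTan v} {m : ℕ} (hY : (X.Q m).WF) : X.P.LabMeas (X.lab m) := by
  intro γ d
  cases d with
  | none =>
    have e : X.lab m γ ⁻¹' {none} = (⋃ c, ⋃ (_ : (X.Q m).wd c = γ), (X.Q m).S c)ᶜ := by
      ext x
      simp only [Set.mem_preimage, Set.mem_singleton_iff, Set.mem_compl_iff, Set.mem_iUnion, exists_prop]
      unfold KpTan.lab
      constructor
      · intro h hex
        rw [dif_pos hex] at h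
        cases h
      · intro h
        rw [dif_neg h]
    rw [e]
    exact (MeasurableSet.iUnion fun c => MeasurableSet.iUnion fun _ => hY.S_meas c).compl
  | some c =>
    by_cases hc : (X.Q m).wd c = γ
    · have e : X.lab m γ ⁻¹' {some c} = (X.Q m).S c := by
        ext x
        constructor
        · intro h
          exact (kpr5_lab_spec h).2
        · intro hx
          subst hc
          exact kpr5_lab_some hY hx
      rw [e]
      exact hY.S_meas c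
    · have e : X.lab m γ ⁻¹' {some c} = ∅ := by
        rw [Set.eq_empty_iff_forall_notMem]
        intro x h
        exact hc (kpr5_lab_spec h).1
      rw [e]
      exact MeasurableSet.empty

theorem kpr5_X_meas {P : KbPb v} (hP : P.WF) {T : KbTest v} (hT : KbIsQuad T) (γ : P.W) : Measurable fun x : P.Lam × ℝ => kbX T (P.co γ x.1) x.2 :=
  (kpr3_X_cont T hT).measurable.comp (((hP.co_meas γ).comp measurable_fst).prodMk measurable_snd)

/-- **L-252-KPR-H5-5d** point states -/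
theorem kpr5_pt_meas {X : KpTan v} (hP : X.P.WF) (β : ℝ) : X.P.LabMeas (X.pt β) := by
  intro γ d
  have h1 : Measurable fun x : X.P.Lam × ℝ => kbBin β x.2 := (k2s_bin_meas β).comp measurable_snd
  have h2 : Measurable fun x : X.P.Lam × ℝ => (fun i => kbBin β ((X.P.bs γ x).2 i)) :=
    measurable_pi_iff.2 fun i => (k2s_bin_meas β).comp ((measurable_pi_apply i).comp (k2s_bs_meas X.P hP γ).snd)
  have h3 : Measurable fun x : X.P.Lam × ℝ => kbBin β (X.P.sig γ x) := (k2s_bin_meas β).comp (kpr5_X_meas hP (hP.Pst_adm γ).1 γ)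
  exact (h1.prodMk (h2.prodMk h3)) (measurableSet_singleton d)

/-- **L-252-KPR-H5-5e** signs -/
theorem kpr5_sg_meas {X : KpTan v} {Z : KsPrep X} (hP : X.P.WF) (s : {s // s ∈ Z.depths}) (hY : (X.Q (Z.nd s)).WF) (hT : ∀ Q, KbIsQuad (Z.ch Q).T) : X.P.LabMeas (kpr5Sg X Z s) := by
  have htrue : ∀ γ, MeasurableSet (kpr5Sg X Z s γ ⁻¹' {true}) := by
    intro γ
    have e : kpr5Sg X Z s γ ⁻¹' {true} = ⋃ c, (X.lab (Z.nd s) γ ⁻¹' {some c} ∩ {x | 0 < kbX (kbDw (Z.ch ⟨s, c⟩).T) (X.P.co γ x.1) x.2}) := by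
      ext x
      simp only [Set.mem_preimage, Set.mem_singleton_iff, Set.mem_iUnion, Set.mem_inter_iff, Set.mem_ofPred_eq, kpr5Sg]
      constructor
      · intro h
        cases hl : X.lab (Z.nd s) γ x with
        | none => rw [hl] at h; cases h
        | some c =>
          rw [hl] at h
          exact ⟨c, rfl, of_decide_eq_true h⟩
      · rintro ⟨c, hc, hpos⟩
        rw [hc]
        exact decide_eq_true hpos
    rw [e]
    exact MeasurableSet.iUnion fun c => (kpr5_lab_meas hY γ (some c)).inter (measurableSet_lt measurable_const (kpr5_X_meas hP (kst_dw_isQuad _ (hT _)) γ))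
  intro γ d
  cases d with
  | true => exact htrue γ
  | false =>
    have e : kpr5Sg X Z s γ ⁻¹' {false} = (kpr5Sg X Z s γ ⁻¹' {true})ᶜ := by
      ext x
      simp
    rw [e]
    exact (htrue γ).compl

/-- **L-252-KPR-H5-5f** tables, as functions of the base -/
theorem kpr5_tb_base {X : KpTan v} {Z : KsPrep X} (Φ : KsPLab X Z.depths Z.nd → ℝ × KbB v → Bool → Z.Ent) (hΦ : ∀ Q σ e, MeasurableSet {z | Φ Q z σ = e})
    (d : KsPLab X Z.depths Z.nd × Bool → Z.Ent) : MeasurableSet ((fun (z : ℝ × KbB v) (Qσ : KsPLab X Z.depths Z.nd × Bool) => Φ Qσ.1 z Qσ.2) ⁻¹' {d}) := by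
  have e : (fun (z : ℝ × KbB v) (Qσ : KsPLab X Z.depths Z.nd × Bool) => Φ Qσ.1 z Qσ.2) ⁻¹' {d} = ⋂ Qσ : KsPLab X Z.depths Z.nd × Bool, {z | Φ Qσ.1 z Qσ.2 = d Qσ} := by
    ext z
    simp [funext_iff]
  rw [e]
  exact MeasurableSet.iInter fun Qσ => hΦ _ _ _

/-- **L-252-KPR-H5-5** the finest state is measurable -/
theorem kpr5_fine_meas {X : KpTan v} (p : KpPrm) {Z : KsPrep X} (hP : X.P.WF) (hY : ∀ s ∈ Z.depths, (X.Q (Z.nd s)).WF) (hT : ∀ Q, KbIsQuad (Z.ch Q).T)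
    (Φ : {s // s ∈ Z.depths} → KsPLab X Z.depths Z.nd → ℝ × KbB v → Bool → Z.Ent) (hΦ : ∀ s Q σ e, MeasurableSet {z | Φ s Q z σ = e}) (e₀ : Z.Ent) :
    X.P.LabMeas (kpr5Fine X p Z Φ e₀) := by
  have : Fintype Z.Ent := Z.fEnt
  have h0 : X.P.LabMeas (fun γ _ => γ : X.P.Lab X.P.W) := fun γ d => MeasurableSet.const (γ = d)
  have hTb : ∀ s, X.P.LabMeas (kpr5Tb X Z (Φ s)) := fun s γ d => k2s_bs_meas X.P hP γ (kpr5_tb_base (Φ s) (hΦ s) d)
  have h1 : ∀ s, X.P.LabMeas (kpr5En X Z Φ e₀ s) := fun s =>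
    kpr5_meas_map (k2s_lpair_meas X.P (k2s_lpair_meas X.P (kpr5_lab_meas (hY s.1 s.2)) (hTb s)) (kpr5_sg_meas hP s (hY s.1 s.2) hT)) fun _ => kpr5Dec X Z e₀ s
  have h2 : ∀ m : {M // M ∈ Z.meshes} × {r // r ∈ Z.widths}, X.P.LabMeas (kpr5Pt X m.1 m.2) := fun m =>
    kpr5_meas_map (k2s_lpair_meas X.P (kpr5_pt_meas hP (X.N ^ (-(m.1 : ℝ)))) (kpr5_pt_meas hP (X.N ^ (-(m.2 : ℝ))))) fun _ d => (d.1.1, d.1.2.1, d.2.2.2)
  exact k2s_lpair_meas X.P h0 (k2s_lpair_meas X.P (kpr5_meas_pi h1) (kpr5_meas_pi h2))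

/-! ## 4. List knowledge -/

/-- **L-252-KPR-H5-6a** finite families of known labels (induction on a finset `s` with the label `i ↦ if i ∈ s then ℓ i else d₀`; rules `pair`, `map`) -/
theorem kpr5_act_fam {X : KpTan v} {β₀ : ℝ} (hA : X.ActOk β₀) {ι D D₀ : Type} [Fintype ι] [Countable D] [Countable D₀] (d₀ : D) (ℓ : ι → X.P.Lab D) (r : ℕ)
    (hℓ : ∀ i, X.Act r D (ℓ i)) (ℓ₀ : X.P.Lab D₀) (r₀ : ℕ) (h₀ : X.Act r₀ D₀ ℓ₀) :
    X.Act (r₀ + Fintype.card ι * r) (D₀ × (ι → D)) fun γ x => (ℓ₀ γ x, fun i => ℓ i γ x) := by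
  classical
  have key : ∀ s : Finset ι, X.Act (r₀ + s.card * r) (D₀ × (ι → D)) fun γ x => (ℓ₀ γ x, fun i => if i ∈ s then ℓ i γ x else d₀) := by
    intro s
    induction s using Finset.induction_on with
    | empty =>
      have h := hA.map r₀ D₀ (D₀ × (ι → D)) ℓ₀ (fun d => (d, fun _ => d₀)) inferInstance h₀
      simpa using h
    | insert a s ha ih =>
      have h1 := hA.pair _ _ _ _ _ _ ih (hℓ a)
      have h2 := hA.map _ _ (D₀ × (ι → D)) _ (fun d => (d.1.1, Function.update d.1.2 a d.2)) inferInstance h1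
      have e : (fun γ x => (fun d : (D₀ × (ι → D)) × D => (d.1.1, Function.update d.1.2 a d.2))
          (X.P.lpair (fun γ x => (ℓ₀ γ x, fun i => if i ∈ s then ℓ i γ x else d₀)) (ℓ a) γ x))
          = fun γ x => (ℓ₀ γ x, fun i => if i ∈ insert a s then ℓ i γ x else d₀) := by
        funext γ x
        refine Prod.ext rfl ?_
        funext i
        by_cases hi : i = a
        · subst hi
          simp [KbPb.lpair]
        · simp [KbPb.lpair, Finset.mem_insert, hi]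
      rw [e] at h2
      rw [Finset.card_insert_of_notMem ha]
      have e2 : r₀ + (s.card + 1) * r = r₀ + s.card * r + r := by ring
      rw [e2]
      exact h2
  have h := key Finset.univ
  simpa using h

/-- **L-252-KPR-H5-6b** the predicted entry is known (`path`, `base`, `two`, `pair`, `map`) -/
theorem kpr5_en_act {X : KpTan v} {Z : KsPrep X} {β₀ : ℝ} (hA : X.ActOk β₀) (Φ : {s // s ∈ Z.depths} → KsPLab X Z.depths Z.nd → ℝ × KbB v → Bool → Z.Ent)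
    (hΦ : ∀ s Q σ e, MeasurableSet {z | Φ s Q z σ = e}) (e₀ : Z.Ent) (s : {s // s ∈ Z.depths}) (hs : Z.nd s ≤ X.G) (hσ : X.P.LabMeas (kpr5Sg X Z s)) :
    X.Act 3 Z.Ent (kpr5En X Z Φ e₀ s) := by
  have : Fintype Z.Ent := Z.fEnt
  have h1 := hA.path _ hs
  have h2 := hA.base (KsPLab X Z.depths Z.nd × Bool → Z.Ent) (fun _ z Qσ => Φ s Qσ.1 z Qσ.2) (fun _ d => kpr5_tb_base (Φ s) (hΦ s) d)
  have h3 := hA.two _ hσ
  have h4 := hA.pair _ _ _ _ _ _ (hA.pair _ _ _ _ _ _ h1 h2) h3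
  exact hA.map _ _ _ _ (kpr5Dec X Z e₀ s) inferInstance h4

/-- **L-252-KPR-H5-6c** the point state is known (`mesh` twice, `pair`, `map`) -/
theorem kpr5_pt_act {X : KpTan v} {β₀ : ℝ} (hA : X.ActOk β₀) {M r : ℝ} (hM : β₀ ≤ X.N ^ (-M)) (hM' : X.N ^ (-M) ≤ 1) (hr : β₀ ≤ X.N ^ (-r)) (hr' : X.N ^ (-r) ≤ 1) :
    X.Act 2 _ (kpr5Pt X M r) := by
  have h := hA.pair _ _ _ _ _ _ (hA.mesh _ hM hM') (hA.mesh _ hr hr')
  exact hA.map _ _ _ _ (fun d => (d.1.1, d.1.2.1, d.2.2.2)) inferInstance h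

/-- **L-252-KPR-H5-6** the finest state is known -/
theorem kpr5_fine_act {X : KpTan v} (p : KpPrm) {Z : KsPrep X} {β₀ : ℝ} (hA : X.ActOk β₀) (Φ : {s // s ∈ Z.depths} → KsPLab X Z.depths Z.nd → ℝ × KbB v → Bool → Z.Ent)
    (hΦ : ∀ s Q σ e, MeasurableSet {z | Φ s Q z σ = e}) (e₀ : Z.Ent) (hnd : ∀ s ∈ Z.depths, Z.nd s ≤ X.G) (hσ : ∀ s, X.P.LabMeas (kpr5Sg X Z s))
    (hM : ∀ M ∈ Z.meshes, β₀ ≤ X.N ^ (-M) ∧ X.N ^ (-M) ≤ 1) (hW : ∀ r ∈ Z.widths, β₀ ≤ X.N ^ (-r) ∧ X.N ^ (-r) ≤ 1) :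
    X.Act (4 * Z.depths.card + 2 * (Z.meshes.card * Z.widths.card) + 1) _ (kpr5Fine X p Z Φ e₀) := by
  have : Fintype Z.Ent := Z.fEnt
  have h0 : X.Act 1 X.P.W (fun γ _ => γ) := hA.base X.P.W (fun γ _ => γ) (fun γ d => MeasurableSet.const (γ = d))
  have h1 := kpr5_act_fam hA e₀ (fun s => kpr5En X Z Φ e₀ s) 3 (fun s => kpr5_en_act hA Φ hΦ e₀ s (hnd s.1 s.2) (hσ s)) (fun γ _ => γ) 1 h0
  have h2 := kpr5_act_fam hA (0, 0, 0) (fun m : {M // M ∈ Z.meshes} × {r // r ∈ Z.widths} => kpr5Pt X m.1 m.2) 2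
    (fun m => kpr5_pt_act hA (hM m.1 m.1.2).1 (hM m.1 m.1.2).2 (hW m.2 m.2.2).1 (hW m.2 m.2.2).2) _ _ h1
  have h3 := hA.map _ _ (X.prep p Z).Fine _ (fun d => (d.1.1, d.1.2, d.2)) inferInstance h2
  refine hA.mono _ _ _ _ ?_ h3
  rw [Fintype.card_prod, Fintype.card_coe, Fintype.card_coe, Fintype.card_coe]
  omega

/-! ## 5. Masses -/

/-- **L-252-KPR-H5-7** the prior of ANY set inside one parent and the path (`≤`: measurable hull of the slice + `ks_tan_prior`; `≥`: measurable hull of `S` + `kst_prior_slice`) -/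
theorem kpr5_prior_one {X : KpTan v} (p : KpPrm) (Z : KsPrep X) (hP : X.P.WF) (γ : X.P.W) (S : Set ((X.prep p Z).L × ℝ)) (hS : S ⊆ ksSel X X.P.Ev ∩ {x | x.1.1 = γ}) :
    (X.prep p Z).prior S = X.P.om γ * X.P.mu γ {x | (((γ, x.1), x.2) : (X.P.W × X.P.Lam) × ℝ) ∈ S} := by
  classical
  apply le_antisymm
  · let T := toMeasurable (X.P.mu γ) {x | (((γ, x.1), x.2) : (X.P.W × X.P.Lam) × ℝ) ∈ S}
    let Rs : X.P.W → Set (X.P.Lam × ℝ) := fun γ' => if γ' = γ then T ∩ X.P.Ev γ' else ∅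
    have hRes : X.Res Rs := by
      intro γ'
      by_cases h : γ' = γ
      · simp only [Rs, if_pos h]
        exact ⟨(measurableSet_toMeasurable _ _).inter (hP.Ev_meas γ'), Set.inter_subset_right⟩
      · simp only [Rs, if_neg h]
        exact ⟨MeasurableSet.empty, Set.empty_subset _⟩
    have hsub : S ⊆ ksSel X Rs := by
      intro q hq
      obtain ⟨h1, h2⟩ := hS hq
      have h2' : q.1.1 = γ := h2
      show (q.1.2, q.2) ∈ Rs q.1.1
      simp only [Rs, if_pos h2']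
      refine ⟨subset_toMeasurable _ _ ?_, h1⟩
      show (((γ, q.1.2), q.2) : (X.P.W × X.P.Lam) × ℝ) ∈ S
      rw [← h2']
      exact hq
    calc (X.prep p Z).prior S ≤ (X.prep p Z).prior (ksSel X Rs) := measure_mono hsub
      _ = X.P.mass Rs := ks_tan_prior p Z hP Rs hRes
      _ = X.P.om γ * X.P.mu γ (Rs γ) := by
          unfold KbPb.mass
          rw [Finset.sum_eq_single γ]
          · intro γ' _ h
            simp only [Rs, if_neg h, measure_empty, mul_zero]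
          · intro h
            exact absurd (Finset.mem_univ γ) h
      _ ≤ X.P.om γ * X.P.mu γ T := by
          refine mul_le_mul_right (measure_mono ?_) _
          simp only [Rs, if_true]
          exact Set.inter_subset_left
      _ = X.P.om γ * X.P.mu γ {x | (((γ, x.1), x.2) : (X.P.W × X.P.Lam) × ℝ) ∈ S} := by rw [measure_toMeasurable]
  · let T' := toMeasurable (X.prep p Z).prior S
    have hT' : MeasurableSet T' := measurableSet_toMeasurable _ _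
    have h := kst_prior_slice X T' hT'
    calc X.P.om γ * X.P.mu γ {x | (((γ, x.1), x.2) : (X.P.W × X.P.Lam) × ℝ) ∈ S}
        ≤ X.P.om γ * ((X.P.nu γ).prod KbPb.tm) {x : X.P.Lam × ℝ | (((γ, x.1), x.2) : (X.P.W × X.P.Lam) × ℝ) ∈ T'} := by
          refine mul_le_mul_right ((Measure.restrict_le_self _).trans (measure_mono ?_)) _
          intro x hx
          exact subset_toMeasurable _ _ hx
      _ ≤ ∑ γ', X.P.om γ' * ((X.P.nu γ').prod KbPb.tm) {x : X.P.Lam × ℝ | (((γ', x.1), x.2) : (X.P.W × X.P.Lam) × ℝ) ∈ T'} :=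
          Finset.single_le_sum (f := fun γ' => X.P.om γ' * ((X.P.nu γ').prod KbPb.tm) {x : X.P.Lam × ℝ | (((γ', x.1), x.2) : (X.P.W × X.P.Lam) × ℝ) ∈ T'})
            (fun _ _ => zero_le) (Finset.mem_univ γ)
      _ = (X.prep p Z).prior T' := h.symm
      _ = (X.prep p Z).prior S := measure_toMeasurable S

theorem kpr5_om_ne_top {P : KbPb v} (hP : P.WF) (γ : P.W) : P.om γ ≠ ⊤ := by
  have h : P.om γ ≤ ∑ γ', P.om γ' := Finset.single_le_sum (f := P.om) (fun _ _ => zero_le) (Finset.mem_univ γ)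
  rw [hP.om_sum] at h
  exact ne_top_of_le_ne_top ENNReal.one_ne_top h

/-- **L-252-KPR-H5-8a** narrow states go to narrow states -/
theorem kpr5_narrow {X : KpTan v} (p : KpPrm) (Z : KsPrep X) (hP : X.P.WF) (γ : X.P.W) (E : Set ((X.prep p Z).L × ℝ)) (hE : E ⊆ ksSel X X.P.Ev ∩ {x | x.1.1 = γ})
    {D : Type} (f : (X.prep p Z).L × ℝ → D) (Rs : X.P.W → Set (X.P.Lam × ℝ)) (ℓ : X.P.Lab D) (hRs : Rs γ = {x | (((γ, x.1), x.2) : (X.P.W × X.P.Lam) × ℝ) ∈ E})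
    (hf : ∀ x ∈ Rs γ, f ((γ, x.1), x.2) = ℓ γ x) (hom : X.P.om γ ≠ 0) {κ w : ℝ} {d : D} (h : (X.prep p Z).Narrow E f κ w d) : X.NarrowAt Rs ℓ κ w γ d := by
  obtain ⟨n, b, hn, hle⟩ := h
  refine ⟨n, b, hn, ?_⟩
  have hsub1 : E ∩ f ⁻¹' {d} ⊆ ksSel X X.P.Ev ∩ {x | x.1.1 = γ} := Set.inter_subset_left.trans hE
  have hsub2 : E ∩ f ⁻¹' {d} ∩ {x | |n ⬝ᵥ (X.prep p Z).V x.1 - b| ≤ w} ⊆ ksSel X X.P.Ev ∩ {x | x.1.1 = γ} := Set.inter_subset_left.trans hsub1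
  rw [kpr5_prior_one p Z hP γ _ hsub1, kpr5_prior_one p Z hP γ _ hsub2] at hle
  have e1 : {x : X.P.Lam × ℝ | (((γ, x.1), x.2) : (X.P.W × X.P.Lam) × ℝ) ∈ E ∩ f ⁻¹' {d}} = Rs γ ∩ ℓ γ ⁻¹' {d} := by
    ext x
    constructor
    · rintro ⟨h1, h2⟩
      have hx : x ∈ Rs γ := by rw [hRs]; exact h1
      exact ⟨hx, (hf x hx).symm.trans h2⟩
    · rintro ⟨h1, h2⟩
      have hx : (((γ, x.1), x.2) : (X.P.W × X.P.Lam) × ℝ) ∈ E := by rw [hRs] at h1; exact h1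
      exact ⟨hx, (hf x h1).trans h2⟩
  have e2 : {x : X.P.Lam × ℝ | (((γ, x.1), x.2) : (X.P.W × X.P.Lam) × ℝ) ∈ E ∩ f ⁻¹' {d} ∩ {x | |n ⬝ᵥ (X.prep p Z).V x.1 - b| ≤ w}}
      = Rs γ ∩ ℓ γ ⁻¹' {d} ∩ {x | |n ⬝ᵥ X.vl γ x - b| ≤ w} := by
    rw [← e1]
    rfl
  rw [e1, e2, mul_left_comm] at hle
  exact (ENNReal.mul_le_mul_iff_right hom (kpr5_om_ne_top hP γ)).1 hle

/-- **L-252-KPR-H5-8b** one term of the mass of the narrow states -/
theorem kpr5_term {X : KpTan v} (p : KpPrm) (Z : KsPrep X) (hP : X.P.WF) (γ : X.P.W) (E : Set ((X.prep p Z).L × ℝ)) (hE : E ⊆ ksSel X X.P.Ev ∩ {x | x.1.1 = γ})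
    {D : Type} (f : (X.prep p Z).L × ℝ → D) (Rs : X.P.W → Set (X.P.Lam × ℝ)) (ℓ : X.P.Lab D) (hRs : Rs γ = {x | (((γ, x.1), x.2) : (X.P.W × X.P.Lam) × ℝ) ∈ E})
    (hf : ∀ x ∈ Rs γ, f ((γ, x.1), x.2) = ℓ γ x) (κ w : ℝ) :
    (X.prep p Z).prior (E ∩ {x | (X.prep p Z).Narrow E f κ w (f x)}) ≤ X.P.om γ * X.P.mu γ (Rs γ ∩ {x | X.NarrowAt Rs ℓ κ w γ (ℓ γ x)}) := by
  have hsub : E ∩ {x | (X.prep p Z).Narrow E f κ w (f x)} ⊆ ksSel X X.P.Ev ∩ {x | x.1.1 = γ} := Set.inter_subset_left.trans hE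
  rw [kpr5_prior_one p Z hP γ _ hsub]
  by_cases hom : X.P.om γ = 0
  · rw [hom, zero_mul, zero_mul]
  · refine mul_le_mul_right (measure_mono ?_) _
    rintro x ⟨h1, h2⟩
    have hx : x ∈ Rs γ := by rw [hRs]; exact h1
    refine ⟨hx, ?_⟩
    show X.NarrowAt Rs ℓ κ w γ (ℓ γ x)
    rw [← hf x hx]
    exact kpr5_narrow p Z hP γ E hE f Rs ℓ hRs hf hom h2

/-! ## 6. The transfer -/

/-- **L-252-KPR-H5-9** ambiguity from the pointwise lists -/
theorem kpr5_amb {X : KpTan v} {p : KpPrm} {Z : KsPrep X} {K : ℝ} (hY : (X.Q X.G).WF) (hO : (X.prep p Z).OptP K) {D : Type} (C : X.P.W → (X.prep p Z).Fine → D)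
    (Rs : X.P.W → Set (X.P.Lam × ℝ)) (hRs : ∀ γ, Rs γ ⊆ Z.Ev0 γ) (ℓ : X.P.Lab D) (hℓ : ∀ γ, ∀ x ∈ Rs γ, ℓ γ x = C γ ((X.prep p Z).fine ((γ, x.1), x.2))) : X.Amb Rs ℓ K := by
  classical
  intro e
  obtain ⟨F, hFc, hF⟩ := hO ((X.Q X.G).wd e, some e)
  refine ⟨F.image (C ((X.Q X.G).wd e)), le_trans (by exact_mod_cast Finset.card_image_le) hFc, ?_⟩
  rintro x ⟨hx1, hx2⟩
  rw [hℓ _ x hx1]
  refine Finset.mem_image_of_mem _ (hF _ (hRs _ hx1) ?_)
  show ((X.Q X.G).wd e, X.lab X.G ((X.Q X.G).wd e) x) = ((X.Q X.G).wd e, some e)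
  rw [kpr5_lab_some hY hx2]

/-- entries exist -/
theorem kpr5_ent_nonempty {X : KpTan v} (Z : KsPrep X) (hP : X.P.WF) : Nonempty Z.Ent := by
  have hW : Nonempty X.P.W := by
    by_contra h
    rw [not_nonempty_iff] at h
    have := hP.om_sum
    rw [Finset.univ_eq_empty, Finset.sum_empty] at this
    exact zero_ne_one this
  obtain ⟨γ⟩ := hW
  have := hP.prob γ
  obtain ⟨l⟩ := (X.P.nu γ).nonempty_of_neZero
  exact ⟨Z.ent 0 γ (l, 0)⟩

/-- the range of the meshes -/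
theorem kpr5_mesh {N τ' M : ℝ} (hN : 2 ≤ N) (h0 : 0 ≤ M) (h1 : M ≤ 1 / τ') : N ^ (-1 / τ') ≤ N ^ (-M) ∧ N ^ (-M) ≤ 1 := by
  have hN1 : 1 ≤ N := by linarith
  refine ⟨Real.rpow_le_rpow_of_exponent_le hN1 ?_, Real.rpow_le_one_of_one_le_of_nonpos hN1 (by linarith)⟩
  rw [neg_div]
  linarith

/-- **the transfer**: violating pairs in all parents, glued -/
theorem kpr5_transfer {p : KpPrm} {G : KsReq} (hG : G.Ok) {X : KpTan v} {Z : KsPrep X} {τ' K κ u ε' : ℝ} (hX : X.Ok p τ') (hH : (X.prep p Z).Has p G) (hsub : ∀ γ, Z.Ev0 γ ⊆ X.P.Ev γ)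
    (hnd : ∀ s ∈ Z.depths, Z.nd s ≤ X.G) (hL : (X.prep p Z).OkLab K) (hE : (X.prep p Z).OkEnt K) (hF : (X.prep p Z).EntFac) (hO : (X.prep p Z).OptP K)
    (hM : ∀ M ∈ G.meshes, M ≤ 1 / τ') (hW : ∀ r ∈ G.widths, r ≤ 1 / τ') (hB : X.Brd κ u ε' (4 * G.depths.card + 2 * (G.meshes.card * G.widths.card) + 1) K)
    {D : Type} (Es : X.P.W → Set ((X.prep p Z).L × ℝ)) (C : X.P.W → (X.prep p Z).Fine → D) (hEm : ∀ γ, MeasurableSet (Es γ))
    (hEs : ∀ γ, Es γ ⊆ (X.prep p Z).Ev0 ∩ {x | (X.prep p Z).par x.1 = γ}) :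
    ∑ γ, (X.prep p Z).prior (Es γ ∩ {x | (X.prep p Z).Narrow (Es γ) (C γ ∘ (X.prep p Z).fine) κ ((X.prep p Z).a u) (C γ ((X.prep p Z).fine x))}) ≤ ENNReal.ofReal ε' * X.P.tot := by
  classical
  have hP := hX.wf
  obtain ⟨e₀⟩ := kpr5_ent_nonempty Z hP
  have hF' : ∀ s : {s // s ∈ Z.depths}, ∃ Φ : KsPLab X Z.depths Z.nd → ℝ × KbB v → Bool → Z.Ent, (∀ Q σ e, MeasurableSet {z | Φ Q z σ = e}) ∧
      ∀ q ∈ (X.prep p Z).Ev0, (X.prep p Z).ent s q =
        Φ ((X.prep p Z).labAt s q) ((X.prep p Z).base q) (decide (0 < (X.prep p Z).ev (kbDw ((X.prep p Z).tst ((X.prep p Z).labAt s q))) q.1 q.2)) :=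
    fun s => hF s.1 s.2
  choose Φ hΦm hΦ using hF'
  let Rs : X.P.W → Set (X.P.Lam × ℝ) := fun γ => {x | (((γ, x.1), x.2) : (X.P.W × X.P.Lam) × ℝ) ∈ Es γ}
  let ℓ : X.P.Lab D := fun γ x => C γ (kpr5Fine X p Z Φ e₀ γ x)
  have hRsub : ∀ γ, Rs γ ⊆ Z.Ev0 γ := fun γ x hx => (hEs γ hx).1
  have hRes : X.Res Rs := fun γ => ⟨kst_meas_slice X (Es γ) (hEm γ) γ, (hRsub γ).trans (hsub γ)⟩
  have hfe : ∀ γ, ∀ x ∈ Rs γ, (X.prep p Z).fine ((γ, x.1), x.2) = kpr5Fine X p Z Φ e₀ γ x :=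
    fun γ x hx => kpr5_fine_eq hX hsub hnd hE Φ e₀ hΦ γ x (hRsub γ hx)
  have hYs : ∀ s ∈ Z.depths, (X.Q (Z.nd s)).WF := fun s hs => hX.sys_wf _ (hnd s hs)
  have hT : ∀ Q, KbIsQuad (Z.ch Q).T := fun Q => (hL.tst_adm Q).1
  have hMeas : X.P.LabMeas ℓ := kpr5_meas_map (kpr5_fine_meas p hP hYs hT Φ hΦm e₀) C
  have hd : Z.depths = G.depths := hH.depths
  have hm : Z.meshes = G.meshes := hH.meshes
  have hw : Z.widths = G.widths := hH.widths
  have hAct0 := kpr5_fine_act p hX.act Φ hΦm e₀ hnd (fun s => kpr5_sg_meas hP s (hYs s.1 s.2) hT)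
    (fun M hM' => kpr5_mesh hX.N_two (hG.meshes M (hm ▸ hM')) (hM M (hm ▸ hM'))) (fun r hr' => kpr5_mesh hX.N_two (hG.widths r (hw ▸ hr')) (hW r (hw ▸ hr')))
  have hAct : X.Act (4 * G.depths.card + 2 * (G.meshes.card * G.widths.card) + 1) D ℓ := by
    rw [← hd, ← hm, ← hw]
    exact hX.act.map _ _ D _ (fun f => C f.1 f) inferInstance hAct0
  have hAmb : X.Amb Rs ℓ K := kpr5_amb (hX.sys_wf _ le_rfl) hO C Rs hRsub ℓ (fun γ x hx => by rw [hfe γ x hx])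
  refine le_trans (Finset.sum_le_sum fun γ _ => ?_) (hB Rs D ℓ hRes hMeas hAct hAmb)
  refine kpr5_term p Z hP γ (Es γ) (fun x hx => ⟨hsub _ (hEs γ hx).1, (hEs γ hx).2⟩) (C γ ∘ (X.prep p Z).fine) Rs ℓ rfl (fun x hx => ?_) κ (X.N ^ (-u))
  show C γ ((X.prep p Z).fine ((γ, x.1), x.2)) = C γ (kpr5Fine X p Z Φ e₀ γ x)
  rw [hfe γ x hx]

/-- **HUB H5** -/
theorem kpr5_brd {p : KpPrm} {G : KsReq} (hG : G.Ok) {X : KpTan v} {Z : KsPrep X} {τ' K κ u ε ε' : ℝ} (hX : X.Ok p τ') (hH : (X.prep p Z).Has p G) (hsub : ∀ γ, Z.Ev0 γ ⊆ X.P.Ev γ)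
    (hnd : ∀ s ∈ Z.depths, Z.nd s ≤ X.G) (hL : (X.prep p Z).OkLab K) (hE : (X.prep p Z).OkEnt K) (hF : (X.prep p Z).EntFac) (hO : (X.prep p Z).OptP K)
    (hM : ∀ M ∈ G.meshes, M ≤ 1 / τ') (hW : ∀ r ∈ G.widths, r ≤ 1 / τ') (_hε : 0 < ε) (hB : X.Brd κ u ε' (4 * G.depths.card + 2 * (G.meshes.card * G.widths.card) + 1) K) :
    ∃ B : Set X.P.W, ENNReal.ofReal ε * (X.prep p Z).prior ((X.prep p Z).Ev0 \ {x | x.1.1 ∈ B}) ≤ ENNReal.ofReal ε' * X.P.tot ∧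
      ((X.prep p Z).cut {x | x.1.1 ∈ B}).Brd κ u ε :=
  ⟨{A | kpr5Good (X.prep p Z) κ u ε A},
    kpr5_loss (X.prep p Z) κ u ε _ fun Es C h1 h2 => kpr5_transfer hG hX hH hsub hnd hL hE hF hO hM hW hB Es C h1 h2,
    kpr5_cut_brd (X.prep p Z) κ u ε⟩

end

end Claimed.Agent.R252

end PkPrepH5Brd

section PkPrepHubs

/-!
# ROW 252 (S0492), unit PREP (helper31), file 2: THE SIX SUB-HUBS H0 .. H5.        All hubs are PROVED in `Prep/H0b` (H0), `Prep/H1` .. `Prep/H5` by the sub-architects (69, 29, 218, 43, 43, 200).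

Paper: 04-critical-paths.tex l.655-850.   Tools on main: `Remez/*` (polynomial Remez, quadratics in one variable `rmz_quad_*`), `S6b/SheetContract` (Remez with derivatives for `A + B √Δ`: `k6b_sq_box`),
`State/KsState(C)` (`ksc_step`, `ks_floors`), `State/KsLoc` (budgets, unit coordinates, Taylor), `S2s/Api` (bins).
-/

set_option autoImplicit false

namespace Claimed.Agent.R252

open MeasureTheory
open scoped ENNReal BigOperators

noncomputable section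

variable {v : KbVer}

/-! ## H0 : from `KpTan.Ok` to `OkLab` -/

/-- the node of a required depth: the first node of depth `≥ s` -/
def kprNd (X : KpTan v) (s : ℝ) : ℕ := sInf {m | s ≤ X.dep m}

/-- an admissible re-charting: same centre and test, frame changed by a rotation -/
structure KprRc (rc : KbChart v → KbChart v) : Prop where
  T : ∀ ch, (rc ch).T = ch.T
  y0 : ∀ ch, (rc ch).y0 = ch.y0
  y1 : ∀ ch, (rc ch).y1 = ch.y1
  inv : ∀ ch, ch.D * ch.Di = 1 → (rc ch).D * (rc ch).Di = 1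
  J : ∀ ch, (rc ch).J = ch.J
  size : ∀ ch, kbMn (rc ch).D ≤ 2 * kbMn ch.D
  box : ∀ ch x, ‖(rc ch).Di.mulVec x‖ ≤ 2 * ‖ch.Di.mulVec x‖

/-- the triangular re-charting in version 2: `D ↦ D Oᵀ`, `Di ↦ O Di`, `O` the rotation which sends the first row `(a, b)` of `D` to `(ρ, 0)` -/
def kprTri (ch : KbChart KbVer.two) : KbChart KbVer.two :=
  let a := ch.D (0 : Fin 2) (0 : Fin 2)
  let b := ch.D (0 : Fin 2) (1 : Fin 2)
  let ρ := Real.sqrt (a ^ 2 + b ^ 2)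
  let O : Matrix (Fin KbVer.two.j) (Fin KbVer.two.j) ℝ := (!![a / ρ, b / ρ; -b / ρ, a / ρ] : Matrix (Fin 2) (Fin 2) ℝ)
  if ρ = 0 then ch else { ch with D := ch.D * O.transpose, Di := O * ch.Di }

/-- the preliminary preparation: nodes, re-charted labels, no mask, dummy entries -/
def kprZ0 (X : KpTan v) (G : KsReq) (rc : KbChart v → KbChart v) (dflt : KsPLab X G.depths (kprNd X)) : KsPrep X where
  depths := G.depths
  widths := G.widths
  meshes := G.meshes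
  ord := G.ord
  nd := kprNd X
  Ev0 := X.P.Ev
  χ := X.N ^ (-G.U)
  ch := fun Q => rc ((X.Q (kprNd X Q.1)).ch Q.2)
  Ent := KsPLab X G.depths (kprNd X)
  fEnt := inferInstance
  eLab := id
  eCtr := fun _ => 0
  eRad := fun _ => 1
  eKind := fun _ => KsKind.plus
  eG := fun _ _ => 0
  ent := fun _ _ _ => dflt

/-- the rotation of `kprTri` is orthogonal, of determinant one, with entries `≤ 1` -/
theorem kpr_rot (a b ρ : ℝ) (hρ : ρ ≠ 0) (h : ρ ^ 2 = a ^ 2 + b ^ 2) :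
    (!![a / ρ, b / ρ; -b / ρ, a / ρ] : Matrix (Fin 2) (Fin 2) ℝ).transpose * !![a / ρ, b / ρ; -b / ρ, a / ρ] = 1 ∧
      (!![a / ρ, b / ρ; -b / ρ, a / ρ] : Matrix (Fin 2) (Fin 2) ℝ).det = 1 ∧
      ∀ i j, |(!![a / ρ, b / ρ; -b / ρ, a / ρ] : Matrix (Fin 2) (Fin 2) ℝ) i j| ≤ 1 := by
  have h1 : a / ρ * (a / ρ) + b / ρ * (b / ρ) = 1 := by
    field_simp
    linarith
  have ha : |a / ρ| ≤ 1 := by
    rw [abs_le_one_iff_mul_self_le_one]
    nlinarith [mul_self_nonneg (b / ρ)]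
  have hb : |b / ρ| ≤ 1 := by
    rw [abs_le_one_iff_mul_self_le_one]
    nlinarith [mul_self_nonneg (a / ρ)]
  refine ⟨?_, ?_, ?_⟩
  · ext i j
    fin_cases i <;> fin_cases j
    · simp [Matrix.mul_apply, Fin.sum_univ_two]
      rw [neg_div, neg_mul_neg]
      exact h1
    · simp [Matrix.mul_apply, Fin.sum_univ_two]
      ring
    · simp [Matrix.mul_apply, Fin.sum_univ_two]
      ring
    · simp [Matrix.mul_apply, Fin.sum_univ_two]
      linarith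
  · rw [Matrix.det_fin_two_of]
    rw [neg_div, mul_neg, sub_neg_eq_add]
    exact h1
  · intro i j
    fin_cases i <;> fin_cases j
    · simpa using ha
    · simpa using hb
    · simp only [neg_div]
      simpa using hb
    · simpa using ha

theorem kpr_rot_mn (D O : Matrix (Fin 2) (Fin 2) ℝ) (hO : ∀ i j, |O i j| ≤ 1) : kbMn (D * O.transpose) ≤ 2 * kbMn D := by
  have key : ∀ i k, |(D * O.transpose) i k| ≤ |D i 0| + |D i 1| := by
    intro i k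
    rw [Matrix.mul_apply, Fin.sum_univ_two, Matrix.transpose_apply, Matrix.transpose_apply]
    refine (abs_add_le _ _).trans (add_le_add ?_ ?_)
    · rw [abs_mul]
      exact mul_le_of_le_one_right (abs_nonneg _) (hO k 0)
    · rw [abs_mul]
      exact mul_le_of_le_one_right (abs_nonneg _) (hO k 1)
  simp only [kbMn, Fin.sum_univ_two]
  linarith [key 0 0, key 0 1, key 1 0, key 1 1]

theorem kpr_rot_box (O M : Matrix (Fin 2) (Fin 2) ℝ) (hO : ∀ i j, |O i j| ≤ 1) (x : Fin 2 → ℝ) : ‖(O * M).mulVec x‖ ≤ 2 * ‖M.mulVec x‖ := by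
  rw [← Matrix.mulVec_mulVec]
  obtain ⟨z, hz⟩ : ∃ z, z = M.mulVec x := ⟨_, rfl⟩
  rw [← hz]
  rw [pi_norm_le_iff_of_nonneg (by positivity)]
  intro i
  have h0 : ‖z 0‖ ≤ ‖z‖ := norm_le_pi_norm z 0
  have h1 : ‖z 1‖ ≤ ‖z‖ := norm_le_pi_norm z 1
  rw [Real.norm_eq_abs] at h0 h1 ⊢
  have e : (O.mulVec z) i = O i 0 * z 0 + O i 1 * z 1 := by
    simp [Matrix.mulVec, dotProduct, Fin.sum_univ_two]
  rw [e]
  refine (abs_add_le _ _).trans ?_
  rw [abs_mul, abs_mul]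
  have a0 : |O i 0| * |z 0| ≤ |z 0| := mul_le_of_le_one_left (abs_nonneg _) (hO i 0)
  have a1 : |O i 1| * |z 1| ≤ |z 1| := mul_le_of_le_one_left (abs_nonneg _) (hO i 1)
  linarith

/-- the two cases of `kprTri` -/
theorem kpr_tri_cases (ch : KbChart KbVer.two) :
    (kprTri ch = ch ∧ ch.D (0 : Fin 2) (0 : Fin 2) = 0 ∧ ch.D (0 : Fin 2) (1 : Fin 2) = 0) ∨
      ∃ (ρ : ℝ) (O : Matrix (Fin KbVer.two.j) (Fin KbVer.two.j) ℝ), 0 < ρ ∧ ρ ^ 2 = ch.D (0 : Fin 2) (0 : Fin 2) ^ 2 + ch.D (0 : Fin 2) (1 : Fin 2) ^ 2 ∧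
        O = (!![ch.D (0 : Fin 2) (0 : Fin 2) / ρ, ch.D (0 : Fin 2) (1 : Fin 2) / ρ; -ch.D (0 : Fin 2) (1 : Fin 2) / ρ, ch.D (0 : Fin 2) (0 : Fin 2) / ρ] : Matrix (Fin 2) (Fin 2) ℝ) ∧
        kprTri ch = { ch with D := ch.D * O.transpose, Di := O * ch.Di } := by
  have hnn : 0 ≤ ch.D (0 : Fin 2) (0 : Fin 2) ^ 2 + ch.D (0 : Fin 2) (1 : Fin 2) ^ 2 := by positivity
  by_cases hρ : Real.sqrt (ch.D (0 : Fin 2) (0 : Fin 2) ^ 2 + ch.D (0 : Fin 2) (1 : Fin 2) ^ 2) = 0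
  · left
    refine ⟨if_pos hρ, ?_⟩
    rw [Real.sqrt_eq_zero hnn] at hρ
    constructor <;> nlinarith [sq_nonneg (ch.D (0 : Fin 2) (0 : Fin 2)), sq_nonneg (ch.D (0 : Fin 2) (1 : Fin 2))]
  · right
    exact ⟨_, _, lt_of_le_of_ne (Real.sqrt_nonneg _) (Ne.symm hρ), Real.sq_sqrt hnn, rfl, if_neg hρ⟩

/-- **L-252-KPR-A1** re-chartings -/
theorem kpr_rc_id : KprRc (v := v) id := by
  refine ⟨fun _ => rfl, fun _ => rfl, fun _ => rfl, fun _ h => h, fun _ => rfl, fun ch => ?_, fun ch x => ?_⟩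
  · have h0 : 0 ≤ kbMn ch.D := Finset.sum_nonneg fun _ _ => Finset.sum_nonneg fun _ _ => abs_nonneg _
    show kbMn ch.D ≤ 2 * kbMn ch.D
    linarith
  · show ‖ch.Di.mulVec x‖ ≤ 2 * ‖ch.Di.mulVec x‖
    linarith [norm_nonneg (ch.Di.mulVec x)]

theorem kpr_rc_tri : KprRc kprTri := by
  have hid := kpr_rc_id (v := KbVer.two)
  refine ⟨fun ch => ?_, fun ch => ?_, fun ch => ?_, fun ch h => ?_, fun ch => ?_, fun ch => ?_, fun ch x => ?_⟩
  · rcases kpr_tri_cases ch with ⟨e, -⟩ | ⟨ρ, O, -, -, -, e⟩ <;> rw [e]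
  · rcases kpr_tri_cases ch with ⟨e, -⟩ | ⟨ρ, O, -, -, -, e⟩ <;> rw [e]
  · rcases kpr_tri_cases ch with ⟨e, -⟩ | ⟨ρ, O, -, -, -, e⟩ <;> rw [e]
  · rcases kpr_tri_cases ch with ⟨e, -⟩ | ⟨ρ, O, hρ, hρ2, hO, e⟩
    · rw [e]
      exact h
    · rw [e]
      have key : ∀ O D Di : Matrix (Fin 2) (Fin 2) ℝ, O.transpose * O = 1 → D * Di = 1 → D * O.transpose * (O * Di) = 1 := by
        intro O D Di hO hD
        rw [Matrix.mul_assoc, ← Matrix.mul_assoc O.transpose, hO, Matrix.one_mul, hD]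
      exact key O ch.D ch.Di (hO ▸ (kpr_rot _ _ ρ hρ.ne' hρ2).1) h
  · rcases kpr_tri_cases ch with ⟨e, -⟩ | ⟨ρ, O, hρ, hρ2, hO, e⟩
    · rw [e]
    · rw [e]
      have key : ∀ O D : Matrix (Fin 2) (Fin 2) ℝ, O.det = 1 → |(D * O.transpose).det| = |D.det| := by
        intro O D hO
        rw [Matrix.det_mul, Matrix.det_transpose, hO, mul_one]
      exact key O ch.D (hO ▸ (kpr_rot _ _ ρ hρ.ne' hρ2).2.1)
  · rcases kpr_tri_cases ch with ⟨e, -⟩ | ⟨ρ, O, hρ, hρ2, hO, e⟩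
    · rw [e]
      exact hid.size ch
    · rw [e]
      exact kpr_rot_mn ch.D O (hO ▸ (kpr_rot _ _ ρ hρ.ne' hρ2).2.2)
  · rcases kpr_tri_cases ch with ⟨e, -⟩ | ⟨ρ, O, hρ, hρ2, hO, e⟩
    · rw [e]
      exact hid.box ch x
    · rw [e]
      exact kpr_rot_box O ch.Di (hO ▸ (kpr_rot _ _ ρ hρ.ne' hρ2).2.2) x

/-- the triangular frame: `D 0 1 = 0`, `|D 0 0| = ρ ≥ (|a| + |b|) / 2` -/
theorem kpr_tri_spec (ch : KbChart KbVer.two) :
    (kprTri ch).D (0 : Fin 2) (1 : Fin 2) = 0 ∨ (ch.D (0 : Fin 2) (0 : Fin 2) = 0 ∧ ch.D (0 : Fin 2) (1 : Fin 2) = 0) := by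
  rcases kpr_tri_cases ch with ⟨-, e⟩ | ⟨ρ, O, hρ, hρ2, hO, e⟩
  · exact Or.inr e
  · left
    rw [e]
    have key : ∀ O D : Matrix (Fin 2) (Fin 2) ℝ, O = !![D 0 0 / ρ, D 0 1 / ρ; -D 0 1 / ρ, D 0 0 / ρ] → (D * O.transpose) 0 1 = 0 := by
      intro O D hD
      rw [hD]
      simp [Matrix.mul_apply, Fin.sum_univ_two]
      ring
    exact key O ch.D hO

theorem kpr_tri_full (ch : KbChart KbVer.two) :
    |ch.D (0 : Fin 2) (0 : Fin 2)| + |ch.D (0 : Fin 2) (1 : Fin 2)| ≤ 2 * |(kprTri ch).D (0 : Fin 2) (0 : Fin 2)| := by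
  rcases kpr_tri_cases ch with ⟨-, e1, e2⟩ | ⟨ρ, O, hρ, hρ2, hO, e⟩
  · rw [e1, e2]
    simp
  · rw [e]
    have key : ∀ O D : Matrix (Fin 2) (Fin 2) ℝ, ρ ^ 2 = D 0 0 ^ 2 + D 0 1 ^ 2 → O = !![D 0 0 / ρ, D 0 1 / ρ; -D 0 1 / ρ, D 0 0 / ρ] →
        |D 0 0| + |D 0 1| ≤ 2 * |(D * O.transpose) 0 0| := by
      intro O D h2 hD
      have e0 : (D * O.transpose) 0 0 = ρ := by
        rw [hD]
        simp [Matrix.mul_apply, Fin.sum_univ_two]
        field_simp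
        linarith
      rw [e0, abs_of_pos hρ]
      have a0 : |D 0 0| ≤ ρ := abs_le_of_sq_le_sq (by nlinarith [sq_nonneg (D 0 1)]) hρ.le
      have a1 : |D 0 1| ≤ ρ := abs_le_of_sq_le_sq (by nlinarith [sq_nonneg (D 0 0)]) hρ.le
      linarith
    exact key O ch.D hρ2 hO

/-- **L-252-KPR-A2** nodes -/
theorem kpr_nd_spec {X : KpTan v} {p : KpPrm} {τ' : ℝ} (hX : X.Ok p τ') (hτ : 0 < τ') {s : ℝ} (hs : 0 < s) (hs' : s ≤ 1 / τ') :
    kprNd X s ≤ X.G ∧ s ≤ X.dep (kprNd X s) ∧ X.dep (kprNd X s) ≤ s + τ' := by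
  have hG : X.G ∈ {m | s ≤ X.dep m} := hs'.trans hX.dep_end
  have h1 : kprNd X s ≤ X.G := Nat.sInf_le hG
  have h2 : s ≤ X.dep (kprNd X s) := Nat.sInf_mem (s := {m | s ≤ X.dep m}) ⟨_, hG⟩
  refine ⟨h1, h2, ?_⟩
  rcases Nat.eq_zero_or_pos (kprNd X s) with h0 | h0
  · rw [h0]
    linarith [hX.dep_zero.2]
  · obtain ⟨m, hm⟩ : ∃ m, kprNd X s = m + 1 := ⟨kprNd X s - 1, by omega⟩
    have hlt : m < kprNd X s := by omega
    have hnot : m ∉ {m | s ≤ X.dep m} := Nat.notMem_of_lt_sInf hlt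
    have hdm : X.dep m < s := not_le.1 hnot
    have hstep := (hX.dep_step m (by omega)).2
    rw [hm]
    linarith

theorem kpr_nd_mono {X : KpTan v} {s s' : ℝ} (h : s ≤ s') (hne : ∃ m, s' ≤ X.dep m) : kprNd X s ≤ kprNd X s' := by
  have h2 : s' ≤ X.dep (kprNd X s') := Nat.sInf_mem (s := {m | s' ≤ X.dep m}) hne
  exact Nat.sInf_le (s := {m | s ≤ X.dep m}) (h.trans h2)

/-- ancestors -/
theorem kpr_anc {X : KpTan v} {p : KpPrm} {τ' : ℝ} (hX : X.Ok p τ') {m m' : ℕ} (h : m ≤ m') (h' : m' ≤ X.G) (c' : (X.Q m').C) :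
    ∃ c : (X.Q m).C, (X.Q m).wd c = (X.Q m').wd c' ∧ (X.Q m').A c' ⊆ (X.Q m).A c ∧ (X.Q m').I c' ⊆ (X.Q m).I c := by
  induction m', h using Nat.le_induction with
  | base => exact ⟨c', rfl, subset_rfl, subset_rfl⟩
  | succ n hn ih =>
    obtain ⟨b1, b2, b3⟩ := hX.nest n (by omega) c'
    obtain ⟨c, a1, a2, a3⟩ := ih (by omega) (X.up n c')
    exact ⟨c, a1.trans b1, b3.trans a2, b2.trans a3⟩

/-! **HUB H0** (post BP-252-PREP-H0, helper69) = `kpb_base` in `Prep/H0b.lean` (PROVED; `Prep/H0a`, `H0b` import this file):   `X.Ok p τ'` ⟹ `OkLab (N^(C τ'))` and `Deep (N^(-1/(C τ')))` for `X.prep p (kprZ0 X G rc dflt)`, `C = C (p, G)`.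
Contents: item 1 at the nominal depths; offset caps from the constant-offset caps `cap_w`, `cap_X`; packet-base-cap (04 l.672-690); palette and `dom` from `pal_cap`, `joint` at `β = χ`; `ref_Q` from `ref_le`; speed of the centres;
`Deep` from the box of the end label. -/

/-- labels exist (so that `dflt` can be chosen) -/
theorem kpr_lab_nonempty {p : KpPrm} {G : KsReq} (hG : G.Ok) {X : KpTan v} {τ' : ℝ} (hτ : 0 < τ') (hX : X.Ok p τ') (hs : ∀ s ∈ G.depths, s ≤ 1 / τ') :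
    Nonempty (KsPLab X G.depths (kprNd X)) := by
  obtain ⟨s, hsG⟩ := hG.ne
  have hnd := (kpr_nd_spec hX hτ (hG.depths s hsG) (hs s hsG)).1
  have htot : X.P.tot ≠ 0 := by
    intro h0
    have := hX.ntv.mass
    rw [h0, mul_zero] at this
    exact absurd this (by norm_num)
  obtain ⟨γ, -, hγ⟩ := Finset.exists_ne_zero_of_sum_ne_zero htot
  have hmu : X.P.mu γ Set.univ ≠ 0 := right_ne_zero_of_mul hγ
  have hne : (X.P.Ev γ).Nonempty := by
    rw [Set.nonempty_iff_ne_empty]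
    intro he
    apply hmu
    unfold KbPb.mu
    rw [he, Measure.restrict_empty]
    rfl
  obtain ⟨x, hx⟩ := hne
  have hx' := hX.cover _ hnd γ hx
  unfold KbSys.sel at hx'
  simp only [Set.mem_iUnion] at hx'
  obtain ⟨c, -, -⟩ := hx'
  exact ⟨⟨⟨s, hsG⟩, c⟩⟩

/-- the centres are bounded as soon as the assignment is nonempty -/
theorem kpr_cen_bd {R : KsRef v} {K : ℝ} (h : R.OkLab K) (Q : R.Lab) (hne : (R.asg Q).Nonempty) : ‖(R.ch Q).y0‖ + ‖(R.ch Q).y1‖ ≤ 4 * K ^ 2 := by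
  obtain ⟨l, hl⟩ := hne
  have hK := h.K_ge
  have hq0 : 0 < kbQ (R.lev Q) := ksl_kbQ_pos _
  have hq1 : kbQ (R.lev Q) ≤ 1 := by
    unfold kbQ
    exact pow_le_one₀ (by norm_num) (by norm_num)
  obtain ⟨t, ht⟩ : ∃ t, t = (R.iv Q : ℝ) * kbQ (R.lev Q) := ⟨_, rfl⟩
  have htb : t ∈ R.blk Q := by
    rw [ht]
    exact ⟨le_refl _, by nlinarith⟩
  have ht0 : 0 ≤ t := by rw [ht]; positivity
  have ht1 : t ≤ 1 := by
    have h1 : (R.iv Q : ℝ) + 1 ≤ 2 ^ R.lev Q := by exact_mod_cast h.iv_lt Q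
    have h2 : (2 : ℝ) ^ R.lev Q * kbQ (R.lev Q) = 1 := by
      unfold kbQ
      rw [← mul_pow]
      norm_num
    rw [ht]
    nlinarith
  have hy : ‖R.y l t‖ ≤ K := h.y_bd l (h.asg_Sp Q hl) t ⟨ht0, ht1⟩
  have hbox : ‖(R.ch Q).Di.mulVec (R.y l t - (R.ch Q).yc t)‖ ≤ K := h.box_mem Q l hl t htb
  have e : R.y l t - (R.ch Q).yc t = (R.ch Q).D.mulVec ((R.ch Q).Di.mulVec (R.y l t - (R.ch Q).yc t)) := by
    rw [Matrix.mulVec_mulVec, h.inv Q, Matrix.one_mulVec]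
  have h1 := k2s_mulVec_le (R.ch Q).D ((R.ch Q).Di.mulVec (R.y l t - (R.ch Q).yc t))
  rw [← e] at h1
  have hM0 : 0 ≤ kbMn (R.ch Q).D := Finset.sum_nonneg fun _ _ => Finset.sum_nonneg fun _ _ => abs_nonneg _
  have hM : kbMn (R.ch Q).D ≤ K := (h.D_hi Q).trans (by
    have : R.q Q = kbQ (R.lev Q) := rfl
    rw [this]
    nlinarith)
  have h2 : ‖R.y l t - (R.ch Q).yc t‖ ≤ K * K := h1.trans (mul_le_mul hM hbox (norm_nonneg _) (by linarith))
  have h3 : ‖(R.ch Q).yc t‖ ≤ K + K * K := by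
    have : (R.ch Q).yc t = R.y l t - (R.y l t - (R.ch Q).yc t) := by abel
    rw [this]
    exact (norm_sub_le _ _).trans (add_le_add hy h2)
  have hc := h.cen Q
  have h4 : ‖(R.ch Q).y0‖ ≤ K + K * K + K := by
    have : (R.ch Q).y0 = (R.ch Q).yc t - t • (R.ch Q).y1 := by
      unfold KbChart.yc
      abel
    rw [this]
    refine (norm_sub_le _ _).trans (add_le_add h3 ?_)
    rw [norm_smul, Real.norm_eq_abs, abs_of_nonneg ht0]
    calc t * ‖(R.ch Q).y1‖ ≤ 1 * K := mul_le_mul ht1 hc (norm_nonneg _) (by norm_num)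
      _ = K := one_mul _
  nlinarith

/-- the first row in the sum of `KpTan.Ok.major` -/
theorem kpr_major_sum (D : Matrix (Fin KbVer.two.j) (Fin KbVer.two.j) ℝ) :
    (∑ i : Fin KbVer.two.j, ∑ k : Fin KbVer.two.j, if (i : ℕ) = 0 then |D i k| else 0) = |D (0 : Fin 2) (0 : Fin 2)| + |D (0 : Fin 2) (1 : Fin 2)| := by
  have key : ∀ D : Matrix (Fin 2) (Fin 2) ℝ, (∑ i : Fin 2, ∑ k : Fin 2, if (i : ℕ) = 0 then |D i k| else 0) = |D 0 0| + |D 0 1| := by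
    intro D
    simp [Fin.sum_univ_two]
  exact key D

/-- **L-252-KPR-A3** `Tilt` for the triangular re-charting -/
theorem kpr_base_tilt (p : KpPrm) (hp : p.Ok) (hell : 0 < p.ell) (G : KsReq) (hG : G.Ok) {X : KpTan KbVer.two} {τ' K : ℝ} (hτ : 0 < τ') (hX : X.Ok p τ')
    (hs : ∀ s ∈ G.depths, s ≤ 1 / τ') (dflt : KsPLab X G.depths (kprNd X)) (hL : (X.prep p (kprZ0 X G kprTri dflt)).OkLab K) :
    (X.prep p (kprZ0 X G kprTri dflt)).Tilt (4 * K ^ 2 * X.N ^ τ') := by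
  have hK := hL.K_ge
  have hN1 : 1 ≤ X.N ^ τ' := Real.one_le_rpow (by linarith [hX.N_two]) hτ.le
  have hnd : ∀ Q : KsPLab X G.depths (kprNd X), kprNd X Q.1 ≤ X.G := fun Q =>
    (kpr_nd_spec hX hτ (hG.depths _ Q.1.2) (hs _ Q.1.2)).1
  have hmaj : ∀ Q : KsPLab X G.depths (kprNd X), (X.Q (kprNd X Q.1)).q ≤
      X.N ^ τ' * (|((X.Q (kprNd X Q.1)).ch Q.2).D (0 : Fin 2) (0 : Fin 2)| + |((X.Q (kprNd X Q.1)).ch Q.2).D (0 : Fin 2) (1 : Fin 2)|) := by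
    intro Q
    rw [← kpr_major_sum]
    exact hX.major hell _ (hnd Q) Q.2
  have hq : ∀ Q : KsPLab X G.depths (kprNd X), 0 < (X.Q (kprNd X Q.1)).q := fun Q => k2s_q_pos _
  refine ⟨hell, fun Q => ?_, fun Q => ?_, fun Q => ?_⟩
  · rcases kpr_tri_spec ((X.Q (kprNd X Q.1)).ch Q.2) with h0 | ⟨h0, h1⟩
    · exact h0
    · exfalso
      have := hmaj Q
      rw [h0, h1] at this
      simp only [abs_zero, add_zero, mul_zero] at this
      exact absurd this (not_le.2 (hq Q))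
  · have h1 := kpr_tri_full ((X.Q (kprNd X Q.1)).ch Q.2)
    have h2 := hmaj Q
    show (X.Q (kprNd X Q.1)).q ≤ 4 * K ^ 2 * X.N ^ τ' * |(kprTri ((X.Q (kprNd X Q.1)).ch Q.2)).D (0 : Fin 2) (0 : Fin 2)|
    have h3 : X.N ^ τ' * (|((X.Q (kprNd X Q.1)).ch Q.2).D (0 : Fin 2) (0 : Fin 2)| + |((X.Q (kprNd X Q.1)).ch Q.2).D (0 : Fin 2) (1 : Fin 2)|)
        ≤ X.N ^ τ' * (2 * |(kprTri ((X.Q (kprNd X Q.1)).ch Q.2)).D (0 : Fin 2) (0 : Fin 2)|) := mul_le_mul_of_nonneg_left h1 (by linarith)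
    have h4 : X.N ^ τ' * (2 * |(kprTri ((X.Q (kprNd X Q.1)).ch Q.2)).D (0 : Fin 2) (0 : Fin 2)|)
        ≤ 4 * K ^ 2 * X.N ^ τ' * |(kprTri ((X.Q (kprNd X Q.1)).ch Q.2)).D (0 : Fin 2) (0 : Fin 2)| := by
      have h5 : (2 : ℝ) ≤ 4 * K ^ 2 := by nlinarith
      have h6 : 0 ≤ X.N ^ τ' * |(kprTri ((X.Q (kprNd X Q.1)).ch Q.2)).D (0 : Fin 2) (0 : Fin 2)| := mul_nonneg (by linarith) (abs_nonneg _)
      nlinarith
    linarith
  · have hne : ((X.prep p (kprZ0 X G kprTri dflt)).asg Q).Nonempty := by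
      have hJ : 0 < ((X.Q (kprNd X Q.1)).ch Q.2).J := k2s_J_pos _ (hX.sys_wf _ (hnd Q)) Q.2
      have hlo := hX.nu_lo _ (hnd Q) Q.2
      have hpos : 0 < (X.Q (kprNd X Q.1)).nuC Q.2 := by
        refine lt_of_lt_of_le ?_ hlo
        rw [ENNReal.ofReal_pos]
        exact mul_pos (Real.rpow_pos_of_pos (by linarith [hX.N_two]) _) hJ
      have hA : ((X.Q (kprNd X Q.1)).A Q.2).Nonempty := by
        rw [Set.nonempty_iff_ne_empty]
        intro he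
        unfold KbSys.nuC at hpos
        rw [he, measure_empty] at hpos
        exact lt_irrefl _ hpos
      obtain ⟨l, hl⟩ := hA
      exact ⟨((X.Q (kprNd X Q.1)).wd Q.2, l), rfl, hl⟩
    refine (kpr_cen_bd hL Q hne).trans ?_
    have : 0 ≤ 4 * K ^ 2 := by positivity
    nlinarith

/-! ## H1 : stable graphs -/

/-- **HUB H1** (post BP-252-PREP-H1; 04 l.730-800).  `K₁` = label threshold, `K₂ ≥ C (K K₁)^C` = entry threshold.  Per label, in unit coordinates: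
(1) delete the label if its mass is `< q ν_Q / K₁`; otherwise `capQ` gives a base projection of volume `≥ 1 / (K K₁)` in the box `‖u‖ ≤ K`;  (2) `Disc (u) = T_w² - 2 T_ww T` is a polynomial of degree `≤ 2`, `|Disc| ≤ 3 K²` on the projection:
Remez bounds it and its gradient on the box `‖u‖ ≤ 3K`;  (3) `H := 8 K³`; if `|T_ww| a H ≥ 1`: centre entries, `|w - G| = |T_w| / |T_ww| ≤ K H a`;  else `Disc ≥ 1 / (2K²)` at the incidences;  (4) grid of cores of radius `ρ` with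
`osc Disc ≤ 1 / (4K²)` on the balls of radius `2ρ`; on an occupied core the two branches `G_± = (±√Disc - β) / (2α)` (`-γ/β` if `α = 0`);  `|w - G_σ| = 2|T| / (|T_w| + √Disc) ≤ 2K² a`, `σ` = sign of `T_w` at the incidence;
(5) delete the entries of mass `< q ν_Q / K₂`; `capQ` gives base volume `≥ 1/(K K₂)` where `|P_* (u, G u)| ≤ |X| + 2K³ a ≤ 3K³`;  (6) `P_* (u, G u) = A + B √Disc` : `k6b_sq_box` bounds all derivatives of order `≤ ord` on the ball of radius `2ρ`. -/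
theorem kpr_graph (v : KbVer) (ord : ℕ) : ∃ C : ℕ, ∀ (R : KsRef v) (K K₁ K₂ : ℝ), R.ord = ord → R.OkLab K → R.depths.Nonempty → 1 ≤ K₁ → (C : ℝ) * (K * K₁) ^ C ≤ K₂ →
    ENNReal.ofReal (C * K ^ C) * R.depths.card < ENNReal.ofReal K₁ * R.prior R.Ev0 →
    ∃ (D : KsEntData R) (F : Set (R.L × ℝ)), MeasurableSet F ∧ ENNReal.ofReal K₁ * R.prior (R.Ev0 \ F) ≤ ENNReal.ofReal (C * K ^ C) * R.depths.card ∧
      ((R.withEnt D).cut F).OkEnt (C * (K * K₂) ^ C) ∧ ((R.withEnt D).cut F).EntFac :=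
  kpr1_graph v ord

/-! ## H2 : ambiguity -/

/-- **HUB H2** (post BP-252-PREP-H2; 04 l.802-818).  The label is determined by the history (`Deep`), the entry has `≤ K` values (`ent_card`); the `(t, y)`-bins have `≤ 2` values per coordinate (`δ ≤ a_M`);
for a FIXED entry `e` at a depth `s` with `C K^C a_s ≤ a_r` the signal is `X = eF e (u) + O (2K³ a_s)` (`ks_X_err`), `eF e` is `K`-Lipschitz on the convex ball `eInt e`, `u` moves by `≤ C K^C δ / (q g)`: `≤ 2` bins. -/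
theorem kpr_opt (v : KbVer) : ∃ C : ℕ, ∀ (R : KsRef v) (K δ : ℝ), R.OkLab K → R.OkEnt K → R.Deep δ → 1 ≤ R.ord →
    (∀ r ∈ R.widths, ∃ s ∈ R.depths, (C : ℝ) * K ^ C * R.a s ≤ R.a r) → (∀ M ∈ R.meshes, δ ≤ R.a M) →
    (∀ Q, ∀ r ∈ R.widths, (C : ℝ) * K ^ C * δ ≤ R.q Q * R.a (R.ell * R.dep Q) * R.a r) →
    R.OptP (((C : ℝ) * K) ^ (R.depths.card + R.meshes.card * R.widths.card)) :=
  ⟨256, fun R K δ hL hE hD hord hW hM hQ => kpr2_opt R K δ hL hE hD hord hW hM hQ⟩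

/-! ## H3 : joint caps at the point states -/

/-- **HUB H3** (post BP-252-PREP-H3; 04 l.975-985).  For every `(M, r)` : `ksc_step` with `s = st`, `d = pt M r`, `C (x, c) = (x.1, c)`, threshold `K₁`; `F` = intersection of the kept sets (all computed for `lam0`);
the pre-omission mass of `(A, c)` is `≤ K a_r^d p_A (2 a_M)^{j+1}` by `capX` (constant offset = centre of the bin). -/
theorem kpr_joint (v : KbVer) : ∃ C : ℕ, ∀ (R : KsRef v) (K K₁ : ℝ), R.OkLab K → R.OptP K → 1 ≤ K₁ →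
    ∃ F : Set (R.L × ℝ), MeasurableSet F ∧ ENNReal.ofReal K₁ * R.prior (R.Ev0 \ F) ≤ ENNReal.ofReal (C * K ^ C) * (R.meshes.card * R.widths.card : ℕ) ∧
      (R.cut F).OkJoint (C * K ^ C * K₁) :=
  kpr3_joint v

/-! ## H4 : simultaneous floors -/

theorem kpr_fl_inc_meas {R : KsRef v} {K : ℝ} (hL : R.OkLab K) (Q : R.Lab) : MeasurableSet (R.inc Q) :=
  (hL.m_asg Q).prod measurableSet_Ico

/-- total budget of the labels -/
theorem kpr_fl_lab_sum {R : KsRef v} {K : ℝ} (hL : R.OkLab K) : ∑ Q, ENNReal.ofReal (R.q Q) * R.νQ Q ≤ R.depths.card := by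
  classical
  rw [← Finset.sum_fiberwise_of_maps_to (g := R.dep) (t := R.depths) (fun Q _ => hL.dep_mem Q)]
  calc ∑ s ∈ R.depths, ∑ Q ∈ Finset.univ.filter (fun Q => R.dep Q = s), ENNReal.ofReal (R.q Q) * R.νQ Q ≤ ∑ _s ∈ R.depths, 1 := by
        refine Finset.sum_le_sum fun s _ => ?_
        convert kpr_budget_depth hL s
    _ = R.depths.card := by simp

/-- total budget of the entries -/
theorem kpr_fl_ent_sum {R : KsRef v} {K : ℝ} (hL : R.OkLab K) (hE : R.OkEnt K) :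
    ∑ e, ENNReal.ofReal (R.q (R.eLab e)) * R.νQ (R.eLab e) ≤ ENNReal.ofReal K * R.depths.card := by
  classical
  rw [← Finset.sum_fiberwise (Finset.univ : Finset R.Ent) R.eLab]
  calc ∑ Q, ∑ e ∈ Finset.univ.filter (fun e => R.eLab e = Q), ENNReal.ofReal (R.q (R.eLab e)) * R.νQ (R.eLab e)
      ≤ ∑ Q, ENNReal.ofReal K * (ENNReal.ofReal (R.q Q) * R.νQ Q) := by
        refine Finset.sum_le_sum fun Q _ => ?_
        rw [Finset.sum_congr rfl (fun e he => by rw [(Finset.mem_filter.1 he).2]), Finset.sum_const, nsmul_eq_mul]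
        refine mul_le_mul' ?_ le_rfl
        have h1 := hE.ent_card Q
        have h2 : {e | R.eLab e = Q} = ((Finset.univ.filter (fun e => R.eLab e = Q) : Finset R.Ent) : Set R.Ent) := by
          ext e
          simp
        rw [h2, Set.ncard_coe_finset] at h1
        rw [← ENNReal.ofReal_natCast]
        exact ENNReal.ofReal_le_ofReal h1
    _ = ENNReal.ofReal K * ∑ Q, ENNReal.ofReal (R.q Q) * R.νQ Q := (Finset.mul_sum _ _ _).symm
    _ ≤ ENNReal.ofReal K * R.depths.card := mul_le_mul' le_rfl (kpr_fl_lab_sum hL)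

/-- **HUB H4** (leaf-size; `ks_floors` for the family `inc Q`, `eOn e`, thresholds `q ν_Q / K₂`; budgets `ks_budget_depth`, `ent_card`) -/
theorem kpr_floors {R : KsRef v} {K K₂ : ℝ} (hL : R.OkLab K) (hE : R.OkEnt K) (hK : 1 ≤ K₂) :
    ∃ F : Set (R.L × ℝ), MeasurableSet F ∧ ENNReal.ofReal K₂ * R.prior (R.Ev0 \ F) ≤ ENNReal.ofReal (2 * K) * R.depths.card ∧ (R.cut F).OkFlo K₂ := by
  classical
  have hK0 : ENNReal.ofReal K₂ ≠ 0 := by
    rw [Ne, ENNReal.ofReal_eq_zero, not_le]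
    linarith
  have hKt : ENNReal.ofReal K₂ ≠ ⊤ := ENNReal.ofReal_ne_top
  obtain ⟨A, hA⟩ : ∃ A : R.Lab ⊕ R.Ent → Set (R.L × ℝ), A = Sum.elim R.inc R.eOn := ⟨_, rfl⟩
  obtain ⟨θ, hθ⟩ : ∃ θ : R.Lab ⊕ R.Ent → ℝ≥0∞, θ = Sum.elim (fun Q => ENNReal.ofReal (R.q Q) * R.νQ Q) (fun e => ENNReal.ofReal (R.q (R.eLab e)) * R.νQ (R.eLab e)) :=
    ⟨_, rfl⟩
  have hAm : ∀ x, MeasurableSet (A x) := by
    rw [hA]
    rintro (Q | e)
    · exact kpr_fl_inc_meas hL Q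
    · exact hE.m_ent _ e
  obtain ⟨Del, hDel, hkeep⟩ := ks_floors R.lam0 A (fun x => θ x / ENNReal.ofReal K₂)
  have hUm : MeasurableSet (⋃ x ∈ Del, A x) := Finset.measurableSet_biUnion _ fun x _ => hAm x
  have hcur : ∀ S : Set (R.L × ℝ), MeasurableSet S → (R.prior.restrict (R.Ev0 ∩ (⋃ x ∈ Del, A x)ᶜ)) S = R.lam0 (S \ ⋃ x ∈ Del, A x) := by
    intro S hS
    show _ = (R.prior.restrict R.Ev0) _
    rw [Measure.restrict_apply hS, Measure.restrict_apply (hS.diff hUm)]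
    congr 1
    ext p
    simp only [Set.mem_inter_iff, Set.mem_compl_iff, Set.mem_sdiff]
    tauto
  have hfl : ∀ x, (R.Ev0 ∩ (⋃ x ∈ Del, A x)ᶜ) ∩ A x = ∅ ∨ θ x ≤ ENNReal.ofReal K₂ * (R.prior.restrict (R.Ev0 ∩ (⋃ x ∈ Del, A x)ᶜ)) (A x) := by
    intro x
    by_cases hx : x ∈ Del
    · left
      apply Set.eq_empty_of_forall_notMem
      rintro p ⟨⟨-, hp1⟩, hp2⟩
      exact hp1 (Set.mem_biUnion hx hp2)
    · right
      rw [hcur _ (hAm x)]
      have := hkeep x hx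
      calc θ x = ENNReal.ofReal K₂ * (θ x / ENNReal.ofReal K₂) := (ENNReal.mul_div_cancel hK0 hKt).symm
        _ ≤ _ := mul_le_mul' le_rfl this
  refine ⟨(⋃ x ∈ Del, A x)ᶜ, hUm.compl, ?_, ⟨fun Q => ?_, fun e => ?_⟩⟩
  · have e1 : R.prior (R.Ev0 \ (⋃ x ∈ Del, A x)ᶜ) = R.lam0 (⋃ x ∈ Del, A x) := by
      show _ = (R.prior.restrict R.Ev0) _
      rw [Measure.restrict_apply hUm, Set.sdiff_compl, Set.inter_comm]
    rw [e1]
    have hK1 : (1 : ℝ) ≤ K := hL.K_ge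
    calc ENNReal.ofReal K₂ * R.lam0 (⋃ x ∈ Del, A x) ≤ ENNReal.ofReal K₂ * ∑ x ∈ Del, θ x / ENNReal.ofReal K₂ := mul_le_mul' le_rfl hDel
      _ = ∑ x ∈ Del, θ x := by
          rw [Finset.mul_sum]
          exact Finset.sum_congr rfl fun x _ => ENNReal.mul_div_cancel hK0 hKt
      _ ≤ ∑ x, θ x := Finset.sum_le_sum_of_subset (Finset.subset_univ _)
      _ = ∑ Q, ENNReal.ofReal (R.q Q) * R.νQ Q + ∑ e, ENNReal.ofReal (R.q (R.eLab e)) * R.νQ (R.eLab e) := by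
          rw [Fintype.sum_sum_type, hθ]
          rfl
      _ ≤ R.depths.card + ENNReal.ofReal K * R.depths.card := add_le_add (kpr_fl_lab_sum hL) (kpr_fl_ent_sum hL hE)
      _ ≤ ENNReal.ofReal K * R.depths.card + ENNReal.ofReal K * R.depths.card := by
          refine add_le_add ?_ le_rfl
          calc (R.depths.card : ℝ≥0∞) = 1 * R.depths.card := (one_mul _).symm
            _ ≤ ENNReal.ofReal K * R.depths.card := mul_le_mul' (by rw [← ENNReal.ofReal_one]; exact ENNReal.ofReal_le_ofReal hK1) le_rfl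
      _ = ENNReal.ofReal (2 * K) * R.depths.card := by
          rw [ENNReal.ofReal_mul (by norm_num), ENNReal.ofReal_ofNat]
          ring
  · subst hA hθ
    exact hfl (Sum.inl Q)
  · subst hA hθ
    exact hfl (Sum.inr e)

/-! ## H5 : breadth -/

/-- the exponent of the list knowledge of `fine` -/
def kprR0 (G : KsReq) : ℕ := 4 * G.depths.card + 2 * (G.meshes.card * G.widths.card) + 1

/-- **HUB H5** (post BP-252-PREP-H5).  `B` = the breadth-good parents.  A parent is BAD if some measurable `E_A ⊆ Ev0 ∩ {par = A}` and some coarsening `C_A` violate the inequality of `Brd κ u ε`.  Glue: `Rs γ := E_γ` (bad `γ`), `∅` (good `γ`),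
`ℓ γ x := ⟨γ, C_γ (fine x)⟩` (values in a sigma type).  `X.Act (kprR0 G) _ ℓ` by the closure rules (`path`, `base`, `two`, `mesh`, `pair`, `map`; `EntFac`), `X.Amb Rs ℓ K` by `OptP`.  `X.Brd` gives `ε ∑_bad m0 < ε' tot`. -/
theorem kpr_brd {p : KpPrm} {G : KsReq} (hG : G.Ok) {X : KpTan v} {Z : KsPrep X} {τ' K κ u ε ε' : ℝ} (hX : X.Ok p τ') (hH : (X.prep p Z).Has p G) (hsub : ∀ γ, Z.Ev0 γ ⊆ X.P.Ev γ)
    (hnd : ∀ s ∈ Z.depths, Z.nd s ≤ X.G) (hL : (X.prep p Z).OkLab K) (hE : (X.prep p Z).OkEnt K) (hF : (X.prep p Z).EntFac) (hO : (X.prep p Z).OptP K)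
    (hM : ∀ M ∈ G.meshes, M ≤ 1 / τ') (hW : ∀ r ∈ G.widths, r ≤ 1 / τ') (hε : 0 < ε) (hB : X.Brd κ u ε' (kprR0 G) K) :
    ∃ B : Set X.P.W, ENNReal.ofReal ε * (X.prep p Z).prior ((X.prep p Z).Ev0 \ {x | x.1.1 ∈ B}) ≤ ENNReal.ofReal ε' * X.P.tot ∧
      ((X.prep p Z).cut {x | x.1.1 ∈ B}).Brd κ u ε :=
  kpr5_brd hG hX hH hsub hnd hL hE hF hO hM hW hε hB

end

end Claimed.Agent.R252

end PkPrepHubs
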