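import Claimed.Agent.R252.Prep.Hubs
import Claimed.Agent.R252.Prep.H0

/-! PACKED FILE (helper31, closed unit PREP of row 252, FROZEN): parts Prep.MainA, Prep.MainB, Prep.MainC, Prep.MainD, Prep.Main.  Each part is wrapped in its own `section`. -/

section PkPrepMainA

/-!
# ROW 252 (S0492), unit PREP, file 3a (helper80): structural lemmas on `cut` / `withEnt`, monotonicity of the parts, and THE ONE-SCALE CHAIN `kpm_chain` with explicit slacks.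
No `sorry`.   Prefix `kpm_`.
-/

set_option autoImplicit false

namespace Claimed.Agent.R252

open MeasureTheory
open scoped ENNReal BigOperators

noncomputable section

variable {v : KbVer}

/-! ## 1. Structure -/

/-- the entry data of the record itself -/
def kpmSelf (R : KsRef v) : KsEntData R where
  Ent := R.Ent
  fEnt := R.fEnt
  eLab := R.eLab
  eCtr := R.eCtr
  eRad := R.eRad
  eKind := R.eKind
  eG := R.eG
  ent := R.ent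

theorem kpm_withEnt_self (R : KsRef v) : R.withEnt (kpmSelf R) = R := rfl

theorem kpm_cut_cut (R : KsRef v) (F F' : Set (R.L × ℝ)) : (R.cut F).cut F' = R.cut (F ∩ F') := by
  unfold KsRef.cut
  simp only [Set.inter_assoc]

theorem kpm_cut3 (R : KsRef v) (F₁ F₂ F₃ : Set (R.L × ℝ)) : ((R.cut F₁).cut F₂).cut F₃ = R.cut (F₁ ∩ F₂ ∩ F₃) := by
  unfold KsRef.cut
  simp only [Set.inter_assoc]

/-! ## 2. Monotonicity of the parts -/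

theorem kpm_optP_mono {R : KsRef v} {K K' : ℝ} (h : R.OptP K) (hK : K ≤ K') : R.OptP K' := fun x => by
  obtain ⟨F, hF, h2⟩ := h x
  exact ⟨F, hF.trans hK, h2⟩

theorem kpm_joint_mono {R : KsRef v} {K K' : ℝ} (h : R.OkJoint K) (hK : K ≤ K') : R.OkJoint K' := fun M hM r hr A c b =>
  (h M hM r hr A c b).trans (by gcongr)

theorem kpm_flo_mono {R : KsRef v} {K K' : ℝ} (h : R.OkFlo K) (hK : K ≤ K') : R.OkFlo K' :=
  ⟨fun Q => (h.lab_flo Q).imp id fun h' => h'.trans (by gcongr),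
    fun e => (h.ent_flo e).imp id fun h' => h'.trans (by gcongr)⟩

theorem kpm_tilt_mono {R : KsRef KbVer.two} {K K' : ℝ} (h : R.Tilt K) (hK : K ≤ K') : R.Tilt K' :=
  ⟨h.ell_pos, h.tri, fun Q => (h.full Q).trans (mul_le_mul_of_nonneg_right hK (abs_nonneg _)), fun Q => (h.cen Q).trans hK⟩

/-- `Tilt` does not see the entries and the prepared selection -/
theorem kpm_tilt_tr {R : KsRef KbVer.two} {K : ℝ} (h : R.Tilt K) (D : KsEntData R) (F : Set (R.L × ℝ)) : ((R.withEnt D).cut F).Tilt K :=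
  ⟨h.ell_pos, h.tri, h.full, h.cen⟩

/-- `Has` does not see them either -/
theorem kpm_has_tr {R : KsRef v} {p : KpPrm} {G : KsReq} (h : R.Has p G) (D : KsEntData R) (F : Set (R.L × ℝ)) : ((R.withEnt D).cut F).Has p G :=
  ⟨h.prm, h.depths, h.widths, h.meshes, h.ord, h.χ⟩

theorem kpm_has_Z0 (X : KpTan v) (p : KpPrm) (G : KsReq) (rc : KbChart v → KbChart v) (dflt : KsPLab X G.depths (kprNd X)) :
    (X.prep p (kprZ0 X G rc dflt)).Has p G := ⟨rfl, rfl, rfl, rfl, rfl, rfl⟩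

/-! ## 3. The hubs H1, H2, H3 as properties of their constants -/

/-- the body of `kpr_graph` -/
def KpmGraph (v : KbVer) (ord C : ℕ) : Prop :=
  ∀ (R : KsRef v) (K K₁ K₂ : ℝ), R.ord = ord → R.OkLab K → R.depths.Nonempty → 1 ≤ K₁ → (C : ℝ) * (K * K₁) ^ C ≤ K₂ →
    ENNReal.ofReal (C * K ^ C) * R.depths.card < ENNReal.ofReal K₁ * R.prior R.Ev0 →
    ∃ (D : KsEntData R) (F : Set (R.L × ℝ)), MeasurableSet F ∧ ENNReal.ofReal K₁ * R.prior (R.Ev0 \ F) ≤ ENNReal.ofReal (C * K ^ C) * R.depths.card ∧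
      ((R.withEnt D).cut F).OkEnt (C * (K * K₂) ^ C) ∧ ((R.withEnt D).cut F).EntFac

/-- the body of `kpr_opt` -/
def KpmOpt (v : KbVer) (C : ℕ) : Prop :=
  ∀ (R : KsRef v) (K δ : ℝ), R.OkLab K → R.OkEnt K → R.Deep δ → 1 ≤ R.ord →
    (∀ r ∈ R.widths, ∃ s ∈ R.depths, (C : ℝ) * K ^ C * R.a s ≤ R.a r) → (∀ M ∈ R.meshes, δ ≤ R.a M) →
    (∀ Q, ∀ r ∈ R.widths, (C : ℝ) * K ^ C * δ ≤ R.q Q * R.a (R.ell * R.dep Q) * R.a r) →
    R.OptP (((C : ℝ) * K) ^ (R.depths.card + R.meshes.card * R.widths.card))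

/-- the body of `kpr_joint` -/
def KpmJoint (v : KbVer) (C : ℕ) : Prop :=
  ∀ (R : KsRef v) (K K₁ : ℝ), R.OkLab K → R.OptP K → 1 ≤ K₁ →
    ∃ F : Set (R.L × ℝ), MeasurableSet F ∧ ENNReal.ofReal K₁ * R.prior (R.Ev0 \ F) ≤ ENNReal.ofReal (C * K ^ C) * (R.meshes.card * R.widths.card : ℕ) ∧
      (R.cut F).OkJoint (C * K ^ C * K₁)

theorem kpm_graph (v : KbVer) (ord : ℕ) : ∃ C, KpmGraph v ord C := kpr_graph v ord
theorem kpm_opt (v : KbVer) : ∃ C, KpmOpt v C := kpr_opt v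
theorem kpm_joint (v : KbVer) : ∃ C, KpmJoint v C := kpr_joint v

/-! ## 4. The chain at one scale, explicit slacks -/

/-- the result of the chain: all parts, and the three losses -/
structure KpmOut (R : KsRef v) (D : KsEntData R) (F : Set (R.L × ℝ)) (K₃ K₄ K₆ L₇ : ℝ) (x₁ x₂ x₃ : ℝ≥0∞) : Prop where
  meas : MeasurableSet F
  lab : ((R.withEnt D).cut F).OkLab K₃
  ent : ((R.withEnt D).cut F).OkEnt K₃
  fac : ((R.withEnt D).cut F).EntFac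
  opt : ((R.withEnt D).cut F).OptP K₄
  joint : ((R.withEnt D).cut F).OkJoint K₆
  flo : ((R.withEnt D).cut F).OkFlo L₇
  loss : R.prior (R.Ev0 \ F) ≤ x₁ + x₂ + x₃

/-- a record with a retained incidence has an entry, so the slack of `OkEnt` is `≥ 1` -/
theorem kpm_ent_one {R : KsRef v} {K : ℝ} (h : R.OkEnt K) (hne : R.depths.Nonempty) (hE : R.Ev0.Nonempty) : 1 ≤ K := by
  obtain ⟨s, -⟩ := hne
  obtain ⟨x, -⟩ := hE
  have h1 := h.ent_card (R.eLab (R.ent s x))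
  have h2 : 0 < Set.ncard {e | R.eLab e = R.eLab (R.ent s x)} := (Set.ncard_pos (Set.toFinite _)).2 ⟨R.ent s x, rfl⟩
  have h3 : (1 : ℝ) ≤ (Set.ncard {e | R.eLab e = R.eLab (R.ent s x)} : ℝ) := by exact_mod_cast h2
  linarith

/-- **THE CHAIN** H1 → H2 → H3 → H4 at one scale -/
theorem kpm_chain {ord C₁ C₂ C₃ : ℕ} (h1 : KpmGraph v ord C₁) (h2 : KpmOpt v C₂) (h3 : KpmJoint v C₃)
    (R : KsRef v) (hord : R.ord = ord) (hord1 : 1 ≤ ord) (hne : R.depths.Nonempty)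
    (K₀ δ L₁ L₂ K₃ K₄ L₅ K₆ L₇ : ℝ) (hL : R.OkLab K₀) (hD : R.Deep δ)
    (a1 : 1 ≤ L₁) (a2 : (C₁ : ℝ) * (K₀ * L₁) ^ C₁ ≤ L₂)
    (a3 : ENNReal.ofReal (C₁ * K₀ ^ C₁) * R.depths.card < ENNReal.ofReal L₁ * R.prior R.Ev0)
    (a4 : K₀ ≤ K₃) (a5 : (C₁ : ℝ) * (K₀ * L₂) ^ C₁ ≤ K₃)
    (a6 : ∀ r ∈ R.widths, ∃ s ∈ R.depths, (C₂ : ℝ) * K₃ ^ C₂ * R.a s ≤ R.a r)
    (a7 : ∀ M ∈ R.meshes, δ ≤ R.a M)
    (a8 : ∀ Q, ∀ r ∈ R.widths, (C₂ : ℝ) * K₃ ^ C₂ * δ ≤ R.q Q * R.a (R.ell * R.dep Q) * R.a r)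
    (a9 : ((C₂ : ℝ) * K₃) ^ (R.depths.card + R.meshes.card * R.widths.card) ≤ K₄) (a10 : K₃ ≤ K₄)
    (a11 : 1 ≤ L₅) (a12 : (C₃ : ℝ) * K₄ ^ C₃ * L₅ ≤ K₆) (a13 : 1 ≤ L₇) :
    ∃ (D : KsEntData R) (F : Set (R.L × ℝ)) (x₁ x₂ x₃ : ℝ≥0∞), KpmOut R D F K₃ K₄ K₆ L₇ x₁ x₂ x₃ ∧
      ENNReal.ofReal L₁ * x₁ ≤ ENNReal.ofReal (C₁ * K₀ ^ C₁) * R.depths.card ∧
      ENNReal.ofReal L₅ * x₂ ≤ ENNReal.ofReal (C₃ * K₄ ^ C₃) * (R.meshes.card * R.widths.card : ℕ) ∧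
      ENNReal.ofReal L₇ * x₃ ≤ ENNReal.ofReal (2 * K₃) * R.depths.card := by
  -- H1
  obtain ⟨D, F₁, mF₁, l₁, hE₁, hFac₁⟩ := h1 R K₀ L₁ L₂ hord hL hne a1 a2 a3
  have hne₁ : (R.Ev0 ∩ F₁).Nonempty := by
    by_contra hcon
    rw [Set.not_nonempty_iff_eq_empty] at hcon
    have e0 : R.Ev0 \ F₁ = R.Ev0 := by
      ext x
      exact ⟨fun hx => hx.1, fun hx => ⟨hx, fun hx' => (hcon ▸ (⟨hx, hx'⟩ : x ∈ R.Ev0 ∩ F₁) : x ∈ (∅ : Set (R.L × ℝ)))⟩⟩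
    rw [e0] at l₁
    exact absurd a3 (not_lt.2 l₁)
  have a5' : 1 ≤ (C₁ : ℝ) * (K₀ * L₂) ^ C₁ := kpm_ent_one hE₁ hne hne₁
  have hL₁ : ((R.withEnt D).cut F₁).OkLab K₃ := kpr_lab_mono (kpr_lab_cut (kpr_lab_withEnt hL D) mF₁) a4
  have hE₁' : ((R.withEnt D).cut F₁).OkEnt K₃ := kpr_ent_mono hE₁ a5' hL.N_ge a5
  have hD₁ : ((R.withEnt D).cut F₁).Deep δ := kpr_deep_cut (kpr_deep_withEnt hD D) F₁
  -- H2
  have hO₁ : ((R.withEnt D).cut F₁).OptP K₄ :=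
    kpm_optP_mono (h2 ((R.withEnt D).cut F₁) K₃ δ hL₁ hE₁' hD₁ (hord1.trans hord.ge) a6 a7 a8) a9
  -- H3
  obtain ⟨F₂, mF₂, l₂, hJ₂⟩ := h3 ((R.withEnt D).cut F₁) K₄ L₅ (kpr_lab_mono hL₁ a10) hO₁ a11
  have hL₂ : (((R.withEnt D).cut F₁).cut F₂).OkLab K₃ := kpr_lab_cut hL₁ mF₂
  have hE₂ : (((R.withEnt D).cut F₁).cut F₂).OkEnt K₃ := kpr_ent_cut hE₁' F₂
  -- H4
  obtain ⟨F₃, mF₃, l₃, hF₃⟩ := kpr_floors hL₂ hE₂ a13
  have e : (((R.withEnt D).cut F₁).cut F₂).cut F₃ = (R.withEnt D).cut (F₁ ∩ F₂ ∩ F₃) := kpm_cut3 (R.withEnt D) F₁ F₂ F₃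
  refine ⟨D, F₁ ∩ F₂ ∩ F₃, R.prior (R.Ev0 \ F₁), R.prior ((R.Ev0 ∩ F₁) \ F₂), R.prior ((R.Ev0 ∩ F₁ ∩ F₂) \ F₃), ?_, l₁, l₂, l₃⟩
  refine ⟨(mF₁.inter mF₂).inter mF₃, ?_, ?_, ?_, ?_, ?_, ?_, ?_⟩
  · exact Eq.mp (congrArg (fun R' : KsRef v => R'.OkLab K₃) e) (kpr_lab_cut hL₂ mF₃)
  · exact Eq.mp (congrArg (fun R' : KsRef v => R'.OkEnt K₃) e) (kpr_ent_cut hE₂ F₃)
  · exact Eq.mp (congrArg (fun R' : KsRef v => R'.EntFac) e) (kpr_fac_cut (kpr_fac_cut hFac₁ F₂) F₃)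
  · exact Eq.mp (congrArg (fun R' : KsRef v => R'.OptP K₄) e) (kpr_optP_cut (kpr_optP_cut hO₁ F₂) F₃)
  · exact Eq.mp (congrArg (fun R' : KsRef v => R'.OkJoint K₆) e) (kpr_joint_cut (kpm_joint_mono hJ₂ a12) F₃)
  · exact Eq.mp (congrArg (fun R' : KsRef v => R'.OkFlo L₇) e) hF₃
  · refine (measure_mono ?_).trans ((measure_union_le _ _).trans (add_le_add (measure_union_le _ _) le_rfl))
    intro x hx
    by_cases x1 : x ∈ F₁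
    · by_cases x2 : x ∈ F₂
      · exact Or.inr ⟨⟨⟨hx.1, x1⟩, x2⟩, fun x3 => hx.2 ⟨⟨x1, x2⟩, x3⟩⟩
      · exact Or.inl (Or.inr ⟨⟨hx.1, x1⟩, x2⟩)
    · exact Or.inl (Or.inl ⟨hx.1, x1⟩)

end

end Claimed.Agent.R252

end PkPrepMainA

section PkPrepMainB

/-!
# ROW 252 (S0492), unit PREP, file 3b (helper80): numerical lemmas for the bookkeeping of exponents (`Prep/Main.lean`).   Mathlib only, no `sorry`.   Prefix `kpm_`.
-/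

set_option autoImplicit false

namespace Claimed.Agent.R252

open scoped ENNReal

/-- a constant below `N^τ'` is absorbed -/
theorem kpm_rp {N τ' c w z : ℝ} (hN : 1 ≤ N) (hc : c ≤ N ^ τ') (h : τ' + w ≤ z) : c * N ^ w ≤ N ^ z := by
  have hN0 : 0 < N := by linarith
  calc c * N ^ w ≤ N ^ τ' * N ^ w := mul_le_mul_of_nonneg_right hc (Real.rpow_nonneg hN0.le _)
    _ = N ^ (τ' + w) := (Real.rpow_add hN0 _ _).symm
    _ ≤ N ^ z := Real.rpow_le_rpow_of_exponent_le hN h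

theorem kpm_pow {N : ℝ} (hN : 0 < N) (x : ℝ) (C : ℕ) : (N ^ x) ^ C = N ^ ((C : ℝ) * x) := by
  rw [← Real.rpow_natCast, ← Real.rpow_mul hN.le, mul_comm]

theorem kpm_rp1 {N τ' : ℝ} (hN : 1 ≤ N) {C : ℕ} (hC : (C : ℝ) ≤ N ^ τ') (x y z : ℝ) (hz : C * (x + y) + τ' ≤ z) :
    (C : ℝ) * (N ^ x * N ^ y) ^ C ≤ N ^ z := by
  have hN0 : 0 < N := by linarith
  rw [← Real.rpow_add hN0, kpm_pow hN0]
  exact kpm_rp hN hC (by linarith)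

theorem kpm_rp2 {N τ' : ℝ} (hN : 1 ≤ N) {C : ℕ} (hC : (C : ℝ) ≤ N ^ τ') (n : ℕ) (x z : ℝ) (hz : n * (x + τ') ≤ z) :
    ((C : ℝ) * N ^ x) ^ n ≤ N ^ z := by
  have hN0 : 0 < N := by linarith
  have h1 : (C : ℝ) * N ^ x ≤ N ^ (x + τ') := kpm_rp hN hC (by linarith)
  calc ((C : ℝ) * N ^ x) ^ n ≤ (N ^ (x + τ')) ^ n :=
        pow_le_pow_left₀ (mul_nonneg (Nat.cast_nonneg _) (Real.rpow_nonneg hN0.le _)) h1 n
    _ = N ^ ((n : ℝ) * (x + τ')) := kpm_pow hN0 _ _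
    _ ≤ N ^ z := Real.rpow_le_rpow_of_exponent_le hN hz

theorem kpm_rp3 {N τ' : ℝ} (hN : 1 ≤ N) {C : ℕ} (hC : (C : ℝ) ≤ N ^ τ') (x y z : ℝ) (hz : C * x + y + τ' ≤ z) :
    (C : ℝ) * (N ^ x) ^ C * N ^ y ≤ N ^ z := by
  have hN0 : 0 < N := by linarith
  rw [kpm_pow hN0, mul_assoc, ← Real.rpow_add hN0]
  exact kpm_rp hN hC (by linarith)

theorem kpm_one_le {N x : ℝ} (hN : 1 ≤ N) (hx : 0 ≤ x) : 1 ≤ N ^ x := Real.one_le_rpow hN hx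

/-- strict lower bound of a mass -/
theorem kpm_lt {c L T : ℝ} {P : ℝ≥0∞} (hc : 0 ≤ c) (hT0 : 0 < T) (hT : 1 ≤ ENNReal.ofReal T * P) (h : c * T < L) :
    ENNReal.ofReal c < ENNReal.ofReal L * P := by
  have h1 : c < L / T := by rwa [lt_div_iff₀ hT0]
  have h2 : 0 < L / T := lt_of_le_of_lt hc h1
  calc ENNReal.ofReal c < ENNReal.ofReal (L / T) := (ENNReal.ofReal_lt_ofReal_iff h2).2 h1
    _ = ENNReal.ofReal (L / T) * 1 := (mul_one _).symm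
    _ ≤ ENNReal.ofReal (L / T) * (ENNReal.ofReal T * P) := by gcongr
    _ = ENNReal.ofReal L * P := by
        rw [← mul_assoc, ← ENNReal.ofReal_mul h2.le, div_mul_cancel₀ _ hT0.ne']

/-- a loss `≤ c / L` is a small fraction of a mass `≥ 1 / T` -/
theorem kpm_loss {c L T e : ℝ} {x P : ℝ≥0∞} (hc : 0 ≤ c) (hL : 0 < L) (hx : ENNReal.ofReal L * x ≤ ENNReal.ofReal c)
    (hT : 1 ≤ ENNReal.ofReal T * P) (h : c * T ≤ L * e) : x ≤ ENNReal.ofReal e * P := by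
  have h1 : ENNReal.ofReal L * x ≤ ENNReal.ofReal L * (ENNReal.ofReal e * P) := by
    calc ENNReal.ofReal L * x ≤ ENNReal.ofReal c := hx
      _ = ENNReal.ofReal c * 1 := (mul_one _).symm
      _ ≤ ENNReal.ofReal c * (ENNReal.ofReal T * P) := by gcongr
      _ = ENNReal.ofReal (c * T) * P := by rw [← mul_assoc, ← ENNReal.ofReal_mul hc]
      _ ≤ ENNReal.ofReal (L * e) * P := by gcongr
      _ = ENNReal.ofReal L * (ENNReal.ofReal e * P) := by rw [ENNReal.ofReal_mul hL.le, mul_assoc]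
  exact (ENNReal.mul_le_mul_iff_right (ENNReal.ofReal_pos.2 hL).ne' ENNReal.ofReal_ne_top).1 h1

/-- the threshold: `N ≥ B^{1/τ'}` gives `N^{τ'} ≥ B` -/
theorem kpm_thr {N B τ' : ℝ} (hB : 0 ≤ B) (hτ : 0 < τ') (h : B ^ (1 / τ') ≤ N) : B ≤ N ^ τ' := by
  calc B = (B ^ (1 / τ')) ^ τ' := by
        rw [← Real.rpow_mul hB, one_div, inv_mul_cancel₀ hτ.ne', Real.rpow_one]
    _ ≤ N ^ τ' := Real.rpow_le_rpow (Real.rpow_nonneg hB _) h hτ.le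

/-- an element of a finite set of nonnegative numbers is at most the sum -/
theorem kpm_le_sum (S : Finset ℝ) (h : ∀ s ∈ S, 0 ≤ s) {s : ℝ} (hs : s ∈ S) : s ≤ ∑ x ∈ S, x :=
  Finset.single_le_sum (f := fun x => x) h hs

theorem kpm_conv {a : ℝ} (ha : 0 ≤ a) (n : ℕ) : ENNReal.ofReal a * (n : ℝ≥0∞) = ENNReal.ofReal (a * n) := by
  rw [ENNReal.ofReal_mul ha, ENNReal.ofReal_natCast]

/-- the three losses of the chain -/
theorem kpm_lossN {N τ' ε k w L : ℝ} (hN : 1 ≤ N) (hε : 0 < ε) (hk : 0 ≤ k) (hkB : 3 / ε * k ≤ N ^ τ') (hL : L = N ^ (w + 2 * τ'))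
    {x P : ℝ≥0∞} (hx : ENNReal.ofReal L * x ≤ ENNReal.ofReal (k * N ^ w)) (hT : 1 ≤ ENNReal.ofReal (N ^ τ') * P) :
    x ≤ ENNReal.ofReal (ε / 3) * P := by
  have hN0 : 0 < N := by linarith
  have hw : 0 < N ^ w := Real.rpow_pos_of_pos hN0 _
  have ht : 0 < N ^ τ' := Real.rpow_pos_of_pos hN0 _
  refine kpm_loss (mul_nonneg hk hw.le) (by rw [hL]; exact Real.rpow_pos_of_pos hN0 _) hx hT ?_
  have e : N ^ (w + 2 * τ') = N ^ w * N ^ τ' * N ^ τ' := by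
    rw [← Real.rpow_add hN0, ← Real.rpow_add hN0]; congr 1; ring
  rw [hL, e]
  have h1 : k ≤ N ^ τ' * (ε / 3) := by
    have : 3 / ε * k * (ε / 3) ≤ N ^ τ' * (ε / 3) := mul_le_mul_of_nonneg_right hkB (by positivity)
    have e2 : 3 / ε * k * (ε / 3) = k := by field_simp
    linarith
  calc k * N ^ w * N ^ τ' = k * (N ^ w * N ^ τ') := by ring
    _ ≤ N ^ τ' * (ε / 3) * (N ^ w * N ^ τ') := mul_le_mul_of_nonneg_right h1 (by positivity)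
    _ = N ^ w * N ^ τ' * N ^ τ' * (ε / 3) := by ring

end Claimed.Agent.R252

end PkPrepMainB

section PkPrepMainC

/-!
# ROW 252 (S0492), unit PREP, file 3c (helper80): THE CHOICE OF THE EXPONENTS: the chain `kpm_chain` with all slacks powers of `N`.   No `sorry`.   Prefix `kpm_`.
`t₀ = C₀ τ'`, `t₁ = c₁ τ'`, .. with `c₁ = C₁ C₀ + 2`, `c₂ = C₁ (C₀ + c₁) + 1`, `c₃ = C₁ (C₀ + c₂) + 1 + C₀`, `c₄ = n (c₃ + 1)`, `c₅ = C₃ c₄ + 2`, `c₆ = C₃ c₄ + c₅ + 1`, `c₇ = c₃ + 2`;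
`τ' = min τ 1 / Γ`, `Γ` = sum of all the coefficients which have to satisfy `c τ' ≤ min τ 1`.
-/

set_option autoImplicit false

namespace Claimed.Agent.R252

open MeasureTheory
open scoped ENNReal BigOperators

noncomputable section

variable {v : KbVer}

set_option maxHeartbeats 1000000 in
/-- **the chain with powers of `N`** -/
theorem kpm_coreR {ord C₁ C₂ C₃ : ℕ} (h1 : KpmGraph v ord C₁) (h2 : KpmOpt v C₂) (h3 : KpmJoint v C₃)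
    (p : KpPrm) (hp : p.Ok) (G : KsReq) (hG : G.Ok) (hord : G.ord = ord) (C₀ : ℝ) (hC₀ : 1 ≤ C₀) (τ ε : ℝ) (hτ : 0 < τ) (hε : 0 < ε) :
    ∃ τ' : ℝ, 0 < τ' ∧ τ' ≤ τ ∧ C₀ * τ' ≤ 1 ∧ (2 * C₀ + 2) * τ' ≤ τ ∧ (∀ s ∈ G.depths, s ≤ 1 / τ') ∧ (∀ M ∈ G.meshes, M ≤ 1 / τ') ∧
      (∀ r ∈ G.widths, r ≤ 1 / τ') ∧
      ∃ N₁ : ℝ, ∀ R : KsRef v, R.Has p G → N₁ ≤ R.N → R.OkLab (R.N ^ (C₀ * τ')) → R.Deep (R.N ^ (-(1 / (C₀ * τ')))) →
        1 ≤ ENNReal.ofReal (R.N ^ τ') * R.prior R.Ev0 →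
        4 ≤ R.N ^ τ' ∧ ∃ (D : KsEntData R) (F : Set (R.L × ℝ)), MeasurableSet F ∧
          ((R.withEnt D).cut F).OkLab (R.N ^ τ) ∧ ((R.withEnt D).cut F).OkEnt (R.N ^ τ) ∧ ((R.withEnt D).cut F).EntFac ∧
          ((R.withEnt D).cut F).OptP (R.N ^ τ) ∧ ((R.withEnt D).cut F).OkJoint (R.N ^ τ) ∧ ((R.withEnt D).cut F).OkFlo (R.N ^ τ) ∧
          R.prior (R.Ev0 \ F) ≤ ENNReal.ofReal ε * R.prior R.Ev0 := by
  -- the integers
  obtain ⟨cd, hcd⟩ : ∃ cd : ℕ, cd = G.depths.card := ⟨_, rfl⟩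
  obtain ⟨mw, hmw⟩ : ∃ mw : ℕ, mw = G.meshes.card * G.widths.card := ⟨_, rfl⟩
  have hcd1 : 1 ≤ cd := by rw [hcd]; exact Finset.card_pos.2 hG.ne
  have hcd1' : (1 : ℝ) ≤ cd := by exact_mod_cast hcd1
  have hmw0 : (0 : ℝ) ≤ mw := Nat.cast_nonneg _
  have hC₁0 : (0 : ℝ) ≤ C₁ := Nat.cast_nonneg _
  have hC₂0 : (0 : ℝ) ≤ C₂ := Nat.cast_nonneg _
  have hC₃0 : (0 : ℝ) ≤ C₃ := Nat.cast_nonneg _
  have hC₀0 : 0 ≤ C₀ := by linarith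
  -- the coefficients
  obtain ⟨c₁, hc₁⟩ : ∃ c₁ : ℝ, c₁ = C₁ * C₀ + 2 := ⟨_, rfl⟩
  obtain ⟨c₂, hc₂⟩ : ∃ c₂ : ℝ, c₂ = C₁ * (C₀ + c₁) + 1 := ⟨_, rfl⟩
  obtain ⟨c₃, hc₃⟩ : ∃ c₃ : ℝ, c₃ = C₁ * (C₀ + c₂) + 1 + C₀ := ⟨_, rfl⟩
  obtain ⟨c₄, hc₄⟩ : ∃ c₄ : ℝ, c₄ = ((cd + mw : ℕ) : ℝ) * (c₃ + 1) := ⟨_, rfl⟩
  obtain ⟨c₅, hc₅⟩ : ∃ c₅ : ℝ, c₅ = C₃ * c₄ + 2 := ⟨_, rfl⟩
  obtain ⟨c₆, hc₆⟩ : ∃ c₆ : ℝ, c₆ = C₃ * c₄ + c₅ + 1 := ⟨_, rfl⟩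
  obtain ⟨c₇, hc₇⟩ : ∃ c₇ : ℝ, c₇ = c₃ + 2 := ⟨_, rfl⟩
  have p₁ : 0 ≤ c₁ := by rw [hc₁]; positivity
  have p₂ : 0 ≤ c₂ := by rw [hc₂]; positivity
  have p₃ : 0 ≤ c₃ := by rw [hc₃]; positivity
  have hn1 : (1 : ℝ) ≤ ((cd + mw : ℕ) : ℝ) := by push_cast; linarith
  have p₃₄ : c₃ + 1 ≤ c₄ := by
    rw [hc₄]; nlinarith
  have p₄ : 0 ≤ c₄ := by linarith
  have p₅ : 0 ≤ c₅ := by rw [hc₅]; positivity
  have p₆ : 0 ≤ c₆ := by rw [hc₆]; positivity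
  have p₇ : 0 ≤ c₇ := by rw [hc₇]; positivity
  have p₀₃ : C₀ ≤ c₃ := by
    have : 0 ≤ (C₁ : ℝ) * (C₀ + c₂) := by positivity
    rw [hc₃]; linarith
  -- the sums of the lists
  obtain ⟨Sd, hSd⟩ : ∃ Sd : ℝ, Sd = ∑ x ∈ G.depths, x := ⟨_, rfl⟩
  obtain ⟨Sw, hSw⟩ : ∃ Sw : ℝ, Sw = ∑ x ∈ G.widths, x := ⟨_, rfl⟩
  obtain ⟨Sm, hSm⟩ : ∃ Sm : ℝ, Sm = ∑ x ∈ G.meshes, x := ⟨_, rfl⟩
  have lSd : ∀ s ∈ G.depths, s ≤ Sd := fun s hs => hSd ▸ kpm_le_sum _ (fun x hx => (hG.depths x hx).le) hs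
  have lSw : ∀ s ∈ G.widths, s ≤ Sw := fun s hs => hSw ▸ kpm_le_sum _ hG.widths hs
  have lSm : ∀ s ∈ G.meshes, s ≤ Sm := fun s hs => hSm ▸ kpm_le_sum _ hG.meshes hs
  have pSd : 0 ≤ Sd := hSd ▸ Finset.sum_nonneg fun x hx => (hG.depths x hx).le
  have pSw : 0 ≤ Sw := hSw ▸ Finset.sum_nonneg hG.widths
  have pSm : 0 ≤ Sm := hSm ▸ Finset.sum_nonneg hG.meshes
  have pk : 0 ≤ p.k := hp.k_pos.le
  have pl : 0 ≤ p.ell := hp.ell_nonneg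
  obtain ⟨Bq, hBq⟩ : ∃ Bq : ℝ, Bq = 2 + (p.k + p.ell) * Sd + Sw := ⟨_, rfl⟩
  have pBq : 0 ≤ Bq := by rw [hBq]; positivity
  -- the big coefficient
  obtain ⟨Γ, hΓ⟩ : ∃ Γ : ℝ, Γ = 1 + c₃ + c₄ + c₆ + c₇ + C₀ + (C₂ * c₃ + 1) + Sd + Sw + Sm + C₀ * Sm + C₀ * Bq + (2 * C₀ + 2) := ⟨_, rfl⟩
  have q1 : 0 ≤ (C₂ : ℝ) * c₃ := by positivity
  have q2 : 0 ≤ C₀ * Sm := by positivity
  have q3 : 0 ≤ C₀ * Bq := by positivity
  have pΓ : 0 < Γ := by rw [hΓ]; linarith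
  obtain ⟨m, hm⟩ : ∃ m : ℝ, m = min τ 1 := ⟨_, rfl⟩
  have pm : 0 < m := by rw [hm]; exact lt_min hτ one_pos
  have mτ : m ≤ τ := by rw [hm]; exact min_le_left _ _
  have m1 : m ≤ 1 := by rw [hm]; exact min_le_right _ _
  obtain ⟨τ', hτ'⟩ : ∃ τ' : ℝ, τ' = m / Γ := ⟨_, rfl⟩
  have pτ' : 0 < τ' := by rw [hτ']; positivity
  have key : ∀ c : ℝ, c ≤ Γ → c * τ' ≤ m := by
    intro c hc
    calc c * τ' ≤ Γ * τ' := mul_le_mul_of_nonneg_right hc pτ'.le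
      _ = m := by rw [hτ']; field_simp
  have k1 : τ' ≤ m := by have := key 1 (by rw [hΓ]; linarith); linarith
  have k3 : c₃ * τ' ≤ m := key _ (by rw [hΓ]; linarith)
  have k4 : c₄ * τ' ≤ m := key _ (by rw [hΓ]; linarith)
  have k6 : c₆ * τ' ≤ m := key _ (by rw [hΓ]; linarith)
  have k7 : c₇ * τ' ≤ m := key _ (by rw [hΓ]; linarith)
  have k0 : C₀ * τ' ≤ m := key _ (by rw [hΓ]; linarith)
  have k23 : (C₂ * c₃ + 1) * τ' ≤ m := key _ (by rw [hΓ]; linarith)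
  have kSd : Sd * τ' ≤ m := key _ (by rw [hΓ]; linarith)
  have kSw : Sw * τ' ≤ m := key _ (by rw [hΓ]; linarith)
  have kSm : Sm * τ' ≤ m := key _ (by rw [hΓ]; linarith)
  have kCm : C₀ * Sm * τ' ≤ m := key _ (by rw [hΓ]; linarith)
  have kBq : C₀ * Bq * τ' ≤ m := key _ (by rw [hΓ]; linarith)
  have kT : (2 * C₀ + 2) * τ' ≤ m := key _ (by rw [hΓ]; linarith)
  have pC₀τ : 0 < C₀ * τ' := by positivity
  refine ⟨τ', pτ', k1.trans mτ, k0.trans m1, kT.trans mτ, ?_, ?_, ?_, ?_⟩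
  · intro s hs
    rw [le_div_iff₀ pτ']
    exact (mul_le_mul_of_nonneg_right (lSd s hs) pτ'.le).trans (kSd.trans m1)
  · intro s hs
    rw [le_div_iff₀ pτ']
    exact (mul_le_mul_of_nonneg_right (lSm s hs) pτ'.le).trans (kSm.trans m1)
  · intro s hs
    rw [le_div_iff₀ pτ']
    exact (mul_le_mul_of_nonneg_right (lSw s hs) pτ'.le).trans (kSw.trans m1)
  -- the threshold
  obtain ⟨Bc, hBc⟩ : ∃ Bc : ℝ, Bc = 4 + C₁ + C₂ + C₃ + (C₁ * cd + 1) + 3 / ε * (C₁ * cd) + 3 / ε * (C₃ * mw) + 3 / ε * (2 * cd) := ⟨_, rfl⟩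
  have r1 : 0 ≤ (C₁ : ℝ) * cd := by positivity
  have r2 : 0 ≤ 3 / ε * ((C₁ : ℝ) * cd) := by positivity
  have r3 : 0 ≤ 3 / ε * ((C₃ : ℝ) * mw) := by positivity
  have r4 : 0 ≤ 3 / ε * (2 * (cd : ℝ)) := by positivity
  have pBc : 0 ≤ Bc := by rw [hBc]; linarith
  refine ⟨max 2 (Bc ^ (1 / τ')), ?_⟩
  intro R hH hN hL hD hT
  obtain ⟨N, hNdef⟩ : ∃ N : ℝ, N = R.N := ⟨_, rfl⟩
  rw [← hNdef] at hN hL hD hT ⊢
  have hN2 : 2 ≤ N := (le_max_left _ _).trans hN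
  have hN1 : 1 ≤ N := by linarith
  have hN0 : 0 < N := by linarith
  have hB : Bc ≤ N ^ τ' := kpm_thr pBc pτ' ((le_max_right _ _).trans hN)
  have b4 : 4 ≤ N ^ τ' := le_trans (by rw [hBc]; linarith) hB
  have bC₁ : (C₁ : ℝ) ≤ N ^ τ' := le_trans (by rw [hBc]; linarith) hB
  have bC₂ : (C₂ : ℝ) ≤ N ^ τ' := le_trans (by rw [hBc]; linarith) hB
  have bC₃ : (C₃ : ℝ) ≤ N ^ τ' := le_trans (by rw [hBc]; linarith) hB
  have bs : (C₁ : ℝ) * cd + 1 ≤ N ^ τ' := le_trans (by rw [hBc]; linarith) hB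
  have bl1 : 3 / ε * ((C₁ : ℝ) * cd) ≤ N ^ τ' := le_trans (by rw [hBc]; linarith) hB
  have bl2 : 3 / ε * ((C₃ : ℝ) * mw) ≤ N ^ τ' := le_trans (by rw [hBc]; linarith) hB
  have bl3 : 3 / ε * (2 * (cd : ℝ)) ≤ N ^ τ' := le_trans (by rw [hBc]; linarith) hB
  refine ⟨b4, ?_⟩
  have ecd : R.depths.card = cd := by rw [hH.depths, hcd]
  have emw : R.meshes.card * R.widths.card = mw := by rw [hH.meshes, hH.widths, hmw]
  have ea : ∀ s, R.a s = N ^ (-s) := fun s => by rw [hNdef]; rfl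
  have ek : R.k = p.k := congrArg KpPrm.k hH.prm
  have el : R.ell = p.ell := congrArg KpPrm.ell hH.prm
  have mono : ∀ {x y : ℝ}, x ≤ y → N ^ x ≤ N ^ y := fun h => Real.rpow_le_rpow_of_exponent_le hN1 h
  -- the hypotheses of the chain
  have a1 : 1 ≤ N ^ (c₁ * τ') := kpm_one_le hN1 (by positivity)
  have a2 : (C₁ : ℝ) * (N ^ (C₀ * τ') * N ^ (c₁ * τ')) ^ C₁ ≤ N ^ (c₂ * τ') :=
    kpm_rp1 hN1 bC₁ _ _ _ (le_of_eq (by rw [hc₂]; ring))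
  have a3 : ENNReal.ofReal (C₁ * (N ^ (C₀ * τ')) ^ C₁) * R.depths.card < ENNReal.ofReal (N ^ (c₁ * τ')) * R.prior R.Ev0 := by
    rw [ecd, kpm_conv (by positivity)]
    refine kpm_lt (by positivity) (Real.rpow_pos_of_pos hN0 _) hT ?_
    rw [kpm_pow hN0]
    have e : N ^ (c₁ * τ') = N ^ τ' * (N ^ ((C₁ : ℝ) * (C₀ * τ')) * N ^ τ') := by
      rw [← Real.rpow_add hN0, ← Real.rpow_add hN0]; congr 1; rw [hc₁]; ring
    rw [e]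
    have hW : 0 < N ^ ((C₁ : ℝ) * (C₀ * τ')) * N ^ τ' := by positivity
    calc (C₁ : ℝ) * N ^ ((C₁ : ℝ) * (C₀ * τ')) * cd * N ^ τ' = ((C₁ : ℝ) * cd) * (N ^ ((C₁ : ℝ) * (C₀ * τ')) * N ^ τ') := by ring
      _ < N ^ τ' * (N ^ ((C₁ : ℝ) * (C₀ * τ')) * N ^ τ') := mul_lt_mul_of_pos_right (by linarith) hW
  have a4 : N ^ (C₀ * τ') ≤ N ^ (c₃ * τ') := mono (mul_le_mul_of_nonneg_right p₀₃ pτ'.le)
  have a5 : (C₁ : ℝ) * (N ^ (C₀ * τ') * N ^ (c₂ * τ')) ^ C₁ ≤ N ^ (c₃ * τ') := by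
    refine kpm_rp1 hN1 bC₁ _ _ _ ?_
    have : c₃ * τ' = C₁ * (C₀ * τ' + c₂ * τ') + τ' + C₀ * τ' := by rw [hc₃]; ring
    rw [this]; linarith
  have a6 : ∀ r ∈ R.widths, ∃ s ∈ R.depths, (C₂ : ℝ) * (N ^ (c₃ * τ')) ^ C₂ * R.a s ≤ R.a r := by
    intro r hr
    rw [hH.widths] at hr
    obtain ⟨s, hs, hrs⟩ := hG.deep r hr
    refine ⟨s, hH.depths ▸ hs, ?_⟩
    rw [ea, ea]
    refine kpm_rp3 hN1 bC₂ _ _ _ ?_
    have : (C₂ * c₃ + 1) * τ' = C₂ * (c₃ * τ') + τ' := by ring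
    linarith
  have a7 : ∀ M ∈ R.meshes, N ^ (-(1 / (C₀ * τ'))) ≤ R.a M := by
    intro M hM
    rw [hH.meshes] at hM
    rw [ea]
    refine mono (neg_le_neg ?_)
    rw [le_div_iff₀ pC₀τ]
    calc M * (C₀ * τ') ≤ Sm * (C₀ * τ') := mul_le_mul_of_nonneg_right (lSm M hM) pC₀τ.le
      _ = C₀ * Sm * τ' := by ring
      _ ≤ 1 := kCm.trans m1
  have hBig : Bq ≤ 1 / (C₀ * τ') := by
    rw [le_div_iff₀ pC₀τ]
    calc Bq * (C₀ * τ') = C₀ * Bq * τ' := by ring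
      _ ≤ 1 := kBq.trans m1
  have a8 : ∀ Q, ∀ r ∈ R.widths, (C₂ : ℝ) * (N ^ (c₃ * τ')) ^ C₂ * N ^ (-(1 / (C₀ * τ'))) ≤ R.q Q * R.a (R.ell * R.dep Q) * R.a r := by
    intro Q r hr
    rw [hH.widths] at hr
    have hs : R.dep Q ∈ G.depths := hH.depths ▸ hL.dep_mem Q
    have hq := hL.q_lo Q
    obtain ⟨s, hsdef⟩ : ∃ s : ℝ, s = R.dep Q := ⟨_, rfl⟩
    rw [← hsdef] at hs hq ⊢
    rw [ea, ek] at hq
    rw [ea, ea, el]
    have hs0 : 0 ≤ s := (hG.depths s hs).le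
    have hks : (p.k + p.ell) * s ≤ (p.k + p.ell) * Sd := mul_le_mul_of_nonneg_left (lSd s hs) (by positivity)
    have hstep : (C₂ : ℝ) * (N ^ (c₃ * τ')) ^ C₂ * N ^ (-(1 / (C₀ * τ'))) ≤ N ^ (-(p.k * s) - C₀ * τ' + -(p.ell * s) + -r) := by
      refine kpm_rp3 hN1 bC₂ _ _ _ ?_
      have h5 := lSw r hr
      have h6 : (C₂ * c₃ + 1) * τ' = C₂ * (c₃ * τ') + τ' := by ring
      rw [hBq] at hBig
      linarith
    refine hstep.trans ?_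
    rw [Real.rpow_add hN0, Real.rpow_add hN0]
    refine mul_le_mul_of_nonneg_right (mul_le_mul_of_nonneg_right ?_ (Real.rpow_nonneg hN0.le _)) (Real.rpow_nonneg hN0.le _)
    rw [Real.rpow_sub hN0, div_le_iff₀ (Real.rpow_pos_of_pos hN0 _)]
    exact hq.trans (le_of_eq (mul_comm _ _))
  have a9 : ((C₂ : ℝ) * N ^ (c₃ * τ')) ^ (R.depths.card + R.meshes.card * R.widths.card) ≤ N ^ (c₄ * τ') := by
    rw [ecd, emw]
    exact kpm_rp2 hN1 bC₂ _ _ _ (le_of_eq (by rw [hc₄]; ring))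
  have a10 : N ^ (c₃ * τ') ≤ N ^ (c₄ * τ') := mono (mul_le_mul_of_nonneg_right (by linarith) pτ'.le)
  have a11 : 1 ≤ N ^ (c₅ * τ') := kpm_one_le hN1 (by positivity)
  have a12 : (C₃ : ℝ) * (N ^ (c₄ * τ')) ^ C₃ * N ^ (c₅ * τ') ≤ N ^ (c₆ * τ') :=
    kpm_rp3 hN1 bC₃ _ _ _ (le_of_eq (by rw [hc₆]; ring))
  have a13 : 1 ≤ N ^ (c₇ * τ') := kpm_one_le hN1 (by positivity)
  -- the chain
  obtain ⟨D, F, x₁, x₂, x₃, hO, l₁, l₂, l₃⟩ := kpm_chain h1 h2 h3 R (hH.ord.trans hord) (hord ▸ hG.ord) (hH.depths ▸ hG.ne)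
    (N ^ (C₀ * τ')) (N ^ (-(1 / (C₀ * τ')))) (N ^ (c₁ * τ')) (N ^ (c₂ * τ')) (N ^ (c₃ * τ')) (N ^ (c₄ * τ')) (N ^ (c₅ * τ'))
    (N ^ (c₆ * τ')) (N ^ (c₇ * τ')) hL hD a1 a2 a3 a4 a5 a6 a7 a8 a9 a10 a11 a12 a13
  refine ⟨D, F, hO.meas, ?_, ?_, hO.fac, ?_, ?_, ?_, ?_⟩
  · exact kpr_lab_mono hO.lab (mono (k3.trans mτ))
  · exact kpr_ent_mono hO.ent (kpm_one_le hN1 (by positivity)) (hNdef ▸ hN2) (mono (k3.trans mτ))
  · exact kpm_optP_mono hO.opt (mono (k4.trans mτ))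
  · exact kpm_joint_mono hO.joint (mono (k6.trans mτ))
  · exact kpm_flo_mono hO.flo (mono (k7.trans mτ))
  · have y₁ : x₁ ≤ ENNReal.ofReal (ε / 3) * R.prior R.Ev0 := by
      refine kpm_lossN (L := N ^ (c₁ * τ')) (k := (C₁ : ℝ) * cd) (w := (C₁ : ℝ) * (C₀ * τ')) hN1 hε r1 bl1 (by congr 1; rw [hc₁]; ring) ?_ hT
      rw [ecd, kpm_conv (by positivity), kpm_pow hN0] at l₁
      refine l₁.trans (le_of_eq ?_)
      congr 1; ring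
    have y₂ : x₂ ≤ ENNReal.ofReal (ε / 3) * R.prior R.Ev0 := by
      refine kpm_lossN (L := N ^ (c₅ * τ')) (k := (C₃ : ℝ) * mw) (w := (C₃ : ℝ) * (c₄ * τ')) hN1 hε (by positivity) bl2 (by congr 1; rw [hc₅]; ring) ?_ hT
      rw [emw, kpm_conv (by positivity), kpm_pow hN0] at l₂
      refine l₂.trans (le_of_eq ?_)
      congr 1; ring
    have y₃ : x₃ ≤ ENNReal.ofReal (ε / 3) * R.prior R.Ev0 := by
      refine kpm_lossN (L := N ^ (c₇ * τ')) (k := 2 * (cd : ℝ)) (w := c₃ * τ') hN1 hε (by positivity) bl3 (by congr 1; rw [hc₇]; ring) ?_ hT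
      rw [ecd, kpm_conv (by positivity)] at l₃
      refine l₃.trans (le_of_eq ?_)
      congr 1; ring
    calc R.prior (R.Ev0 \ F) ≤ x₁ + x₂ + x₃ := hO.loss
      _ ≤ ENNReal.ofReal (ε / 3) * R.prior R.Ev0 + ENNReal.ofReal (ε / 3) * R.prior R.Ev0 + ENNReal.ofReal (ε / 3) * R.prior R.Ev0 :=
          add_le_add (add_le_add y₁ y₂) y₃
      _ = ENNReal.ofReal ε * R.prior R.Ev0 := by
          rw [← add_mul, ← add_mul, ← ENNReal.ofReal_add (by positivity) (by positivity), ← ENNReal.ofReal_add (by positivity) (by positivity)]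
          congr 2; ring

end

end Claimed.Agent.R252

end PkPrepMainC

section PkPrepMainD

/-!
# ROW 252 (S0492), unit PREP, file 3d (helper80): the bridge side: total mass, slices, `Fits` along a chain of realised cuts, monotonicity of `X.Brd`.   No `sorry`.   Prefix `kpm_`.
-/

set_option autoImplicit false

namespace Claimed.Agent.R252

open MeasureTheory
open scoped ENNReal BigOperators

noncomputable section

variable {v : KbVer}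

/-- the mass of the whole prepared path -/
theorem kpm_mass_Ev (X : KpTan v) : X.P.mass X.P.Ev = X.P.tot := by
  unfold KbPb.tot KbPb.mass
  refine Finset.sum_congr rfl fun γ _ => ?_
  unfold KbPb.mu
  rw [Measure.restrict_apply_self, Measure.restrict_apply_univ]

/-- the prior of the prepared selection of a bridge with `Ev0 = Ev` -/
theorem kpm_tot {X : KpTan v} (p : KpPrm) (Z : KsPrep X) (hwf : X.P.WF) : (X.prep p Z).prior (ksSel X X.P.Ev) = X.P.tot := by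
  rw [ks_tan_prior p Z hwf X.P.Ev fun γ => ⟨hwf.Ev_meas γ, subset_rfl⟩, kpm_mass_Ev]

/-- slices of a measurable set of incidences -/
theorem kpm_slice_meas {X : KpTan v} (p : KpPrm) (Z : KsPrep X) {F : Set ((X.prep p Z).L × ℝ)} (hF : MeasurableSet F) (γ : X.P.W) :
    MeasurableSet {x : X.P.Lam × ℝ | (((γ, x.1), x.2) : (X.P.W × X.P.Lam) × ℝ) ∈ F} := by
  let _ : MeasurableSpace X.P.W := ⊤
  have hm : @Measurable (X.P.Lam × ℝ) ((X.P.W × X.P.Lam) × ℝ) _ (@Prod.instMeasurableSpace _ _ (ksTanMS X) _)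
      fun x : X.P.Lam × ℝ => (((γ, x.1), x.2) : (X.P.W × X.P.Lam) × ℝ) :=
    (measurable_const.prodMk measurable_fst).prodMk measurable_snd
  exact hm hF

/-- sets of whole parents are measurable -/
theorem kpm_par_meas {X : KpTan v} (p : KpPrm) (Z : KsPrep X) (B : Set X.P.W) :
    MeasurableSet ({x | x.1.1 ∈ B} : Set ((X.prep p Z).L × ℝ)) := by
  let _ : MeasurableSpace X.P.W := ⊤
  have hm : @Measurable ((X.P.W × X.P.Lam) × ℝ) X.P.W (@Prod.instMeasurableSpace _ _ (ksTanMS X) _) ⊤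
      fun x : (X.P.W × X.P.Lam) × ℝ => x.1.1 := measurable_fst.comp measurable_fst
  exact hm (MeasurableSpace.measurableSet_top (s := B))

/-- subadditivity of the mass -/
theorem kpm_mass_le (X : KpTan v) (S S₁ S₂ : X.P.W → Set (X.P.Lam × ℝ)) (h : ∀ γ, S γ ⊆ S₁ γ ∪ S₂ γ) :
    X.P.mass S ≤ X.P.mass S₁ + X.P.mass S₂ := by
  unfold KbPb.mass
  rw [← Finset.sum_add_distrib]
  refine Finset.sum_le_sum fun γ _ => ?_
  rw [← mul_add]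
  exact mul_le_mul' le_rfl ((measure_mono (h γ)).trans (measure_union_le _ _))

/-- the preliminary preparation fits, without loss -/
theorem kpm_fits_Z0 {p : KpPrm} {G : KsReq} (hG : G.Ok) {X : KpTan v} {τ' τ : ℝ} (hτ' : 0 < τ') (hττ : τ' ≤ τ) (hX : X.Ok p τ')
    (hs : ∀ s ∈ G.depths, s ≤ 1 / τ') (rc : KbChart v → KbChart v) (dflt : KsPLab X G.depths (kprNd X)) :
    (kprZ0 X G rc dflt).Fits τ 0 := by
  refine ⟨fun s hs' => (kpr_nd_spec hX hτ' (hG.depths s hs') (hs s hs')).1, fun s hs' => ?_, fun γ => subset_rfl, ?_⟩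
  · obtain ⟨-, h1, h2⟩ := kpr_nd_spec hX hτ' (hG.depths s hs') (hs s hs')
    show |X.dep (kprNd X s) - s| ≤ τ
    rw [abs_le]; constructor <;> linarith
  · have : X.P.mass (fun γ => X.P.Ev γ \ (kprZ0 X G rc dflt).Ev0 γ) = 0 := by
      unfold KbPb.mass
      refine Finset.sum_eq_zero fun γ _ => ?_
      have : (fun γ => X.P.Ev γ \ (kprZ0 X G rc dflt).Ev0 γ) γ = ∅ := Set.sdiff_self
      rw [this, measure_empty, mul_zero]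
    rw [this]; exact zero_le

/-- **one realised cut**: `Fits` with the added loss -/
theorem kpm_fits_step {X : KpTan v} (p : KpPrm) {Z Z' : KsPrep X} {τ ε₁ ε₂ : ℝ} (hwf : X.P.WF) (hε₁ : 0 ≤ ε₁) (hε₂ : 0 ≤ ε₂) (hZ : Z.Fits τ ε₁)
    (hmZ : ∀ γ, MeasurableSet (Z.Ev0 γ)) {F : Set ((X.prep p Z).L × ℝ)} (hF : MeasurableSet F) (hd : Z'.depths = Z.depths) (hn : Z'.nd = Z.nd)
    (hE : ∀ γ, Z'.Ev0 γ = Z.Ev0 γ ∩ {x | (((γ, x.1), x.2) : (X.P.W × X.P.Lam) × ℝ) ∈ F})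
    (hl : (X.prep p Z).prior ((X.prep p Z).Ev0 \ F) ≤ ENNReal.ofReal ε₂ * X.P.tot) :
    Z'.Fits τ (ε₁ + ε₂) ∧ ∀ γ, MeasurableSet (Z'.Ev0 γ) := by
  have hm' : ∀ γ, MeasurableSet (Z'.Ev0 γ) := fun γ => by
    rw [hE]; exact (hmZ γ).inter (kpm_slice_meas p Z hF γ)
  refine ⟨⟨fun s hs => ?_, fun s hs => ?_, fun γ => ?_, ?_⟩, hm'⟩
  · rw [hn]; exact hZ.nd_le s (hd ▸ hs)
  · rw [hn]; exact hZ.nd_dep s (hd ▸ hs)
  · rw [hE]; exact Set.inter_subset_left.trans (hZ.sub γ)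
  · have h1 : X.P.mass (fun γ => Z.Ev0 γ \ Z'.Ev0 γ) ≤ ENNReal.ofReal ε₂ * X.P.tot := by
      rw [← ks_tan_prior p Z hwf (fun γ => Z.Ev0 γ \ Z'.Ev0 γ) fun γ => ⟨(hmZ γ).diff (hm' γ), Set.sdiff_subset.trans (hZ.sub γ)⟩]
      refine le_trans (measure_mono ?_) hl
      intro q hq
      have hq' : (q.1.2, q.2) ∈ Z.Ev0 q.1.1 \ Z'.Ev0 q.1.1 := hq
      rw [hE] at hq'
      exact ⟨hq'.1, fun hqF => hq'.2 ⟨hq'.1, hqF⟩⟩
    calc X.P.mass (fun γ => X.P.Ev γ \ Z'.Ev0 γ)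
        ≤ X.P.mass (fun γ => X.P.Ev γ \ Z.Ev0 γ) + X.P.mass (fun γ => Z.Ev0 γ \ Z'.Ev0 γ) := by
          refine kpm_mass_le X _ _ _ fun γ x hx => ?_
          by_cases h : x ∈ Z.Ev0 γ
          · exact Or.inr ⟨h, hx.2⟩
          · exact Or.inl ⟨hx.1, h⟩
      _ ≤ ENNReal.ofReal ε₁ * X.P.tot + ENNReal.ofReal ε₂ * X.P.tot := add_le_add hZ.loss h1
      _ = ENNReal.ofReal (ε₁ + ε₂) * X.P.tot := by rw [ENNReal.ofReal_add hε₁ hε₂, add_mul]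

/-- breadth is decreasing in the ambiguity -/
theorem kpm_brd_anti {X : KpTan v} {κ u ε K K' : ℝ} {r : ℕ} (h : X.Brd κ u ε r K) (hK : K' ≤ K) : X.Brd κ u ε r K' :=
  fun Rs D ℓ h1 h2 h3 h4 => h Rs D ℓ h1 h2 h3 fun e => by
    obtain ⟨L, hL, hL'⟩ := h4 e
    exact ⟨L, hL.trans hK, hL'⟩

end

end Claimed.Agent.R252

end PkPrepMainD

section PkPrepMain

/-!
# ROW 252 (S0492), unit PREP (helper31), file 3: THE THREE HUBS `ks_prep`, `ks_prep_brd`, `ks_prep_tilt`, from H0 .. H5.        PROVED from the hubs (helper80): `MainA` (chain), `MainB` (numerics), `MainC` (exponents), `MainD` (bridge).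

PLAN (all three).  `C₀` from `kpb_base`, `C₁` from `kpr_graph v G.ord`, `C₂` from `kpr_opt`, `C₃` from `kpr_joint`, `n := depths.card + meshes.card * widths.card`.   All slacks are powers `N^{t_i}`, `t_i` LINEAR in `τ'`:
 `t₀ = C₀ τ'` (OkLab) ; `t₁ = C₁ t₀ + 2τ'` (label threshold `K₁`) ; `t₂ = C₁ (t₀ + t₁) + τ'` (entry threshold `K₂`) ; `t₃ = C₁ (t₀ + t₂) + τ' + t₀` (OkEnt) ; `t₄ = n (t₃ + τ')` (OptP) ;
 `t₅ = C₃ t₄ + 2τ'` (threshold of H3) ; `t₆ = C₃ t₄ + t₅ + τ'` (OkJoint) ; `t₇ = t₃ + 2τ'` (threshold of H4 = slack of OkFlo).   Choose `τ'` with `max t_i ≤ τ`, `C₂ t₃ + τ' ≤ 1`, `C₀ τ' ≤ 1`,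
 `1 / (C₀ τ') ≥ C₂ t₃ + τ' + (k + ℓ) s_max + t₀ + r_max + M_max`, and `N₁` with `N₁^{τ'} ≥` every constant (`C_i`, `3 card / ε`, ..).   Every loss is `≤ (ε / 3) N^{-τ'} ≤ (ε / 3) tot` (`ntv.mass`).
 `dflt` from `kpr_lab_nonempty`; `rc := id` or `kprTri`; parts are transported by the `cut` / `withEnt` / `mono` leaves of `Parts.lean`; `kpr_realise` (twice: cuts compose) gives `Z`; `Fits` from `kpr_nd_spec` and the losses.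
 `Tilt` does not see `Ev0` and the entries.   For `ks_prep_brd`: `ε' := ε² / 2`, `r₀ := kprR0 G`, the core is called with `min τ τB`; `X.Brd` is monotone (decreasing) in its last argument.
-/

set_option autoImplicit false

namespace Claimed.Agent.R252

open MeasureTheory
open scoped ENNReal BigOperators

noncomputable section

variable {v : KbVer}

/-- the output of the common core -/
structure KpmCore (p : KpPrm) (G : KsReq) (X : KpTan v) (Z₀ Z : KsPrep X) (K₀ K τ ε : ℝ) : Prop where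
  lab0 : (X.prep p Z₀).OkLab K₀
  tr : ∃ (D : KsEntData (X.prep p Z₀)) (F : Set ((X.prep p Z₀).L × ℝ)), X.prep p Z = ((X.prep p Z₀).withEnt D).cut F
  has : (X.prep p Z).Has p G
  lab : (X.prep p Z).OkLab K
  ent : (X.prep p Z).OkEnt K
  fac : (X.prep p Z).EntFac
  opt : (X.prep p Z).OptP K
  joint : (X.prep p Z).OkJoint K
  flo : (X.prep p Z).OkFlo K
  fits : Z.Fits τ ε
  meas : ∀ γ, MeasurableSet (Z.Ev0 γ)

/-- **the common core of the three hubs** -/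
theorem kpm_coreX (p : KpPrm) (hp : p.Ok) (hv : v = KbVer.one → p.ell = 0) (G : KsReq) (hG : G.Ok) (τ ε : ℝ) (hτ : 0 < τ) (hε : 0 < ε) :
    ∃ C₀ τ' : ℝ, 0 < τ' ∧ τ' ≤ τ ∧ (2 * C₀ + 2) * τ' ≤ τ ∧ (∀ s ∈ G.depths, s ≤ 1 / τ') ∧ (∀ M ∈ G.meshes, M ≤ 1 / τ') ∧ (∀ r ∈ G.widths, r ≤ 1 / τ') ∧
      ∃ N₁ : ℝ, ∀ (X : KpTan v) (rc : KbChart v → KbChart v), KprRc rc → X.Ok p τ' → N₁ ≤ X.N →
        4 ≤ X.N ^ τ' ∧ ∃ (dflt : KsPLab X G.depths (kprNd X)) (Z : KsPrep X), KpmCore p G X (kprZ0 X G rc dflt) Z (X.N ^ (C₀ * τ')) (X.N ^ τ) τ ε := by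
  obtain ⟨C₀, hC₀, hbase⟩ := kpb_base (v := v) p hp hv G hG
  obtain ⟨C₁, h1⟩ := kpm_graph v G.ord
  obtain ⟨C₂, h2⟩ := kpm_opt v
  obtain ⟨C₃, h3⟩ := kpm_joint v
  obtain ⟨τ', pτ', hττ, hC₀τ, hT, hsd, hsm, hsw, N₁R, hR⟩ := kpm_coreR h1 h2 h3 p hp G hG rfl C₀ hC₀ τ ε hτ hε
  obtain ⟨N₁B, hB⟩ := hbase τ' pτ' hC₀τ
  refine ⟨C₀, τ', pτ', hττ, hT, hsd, hsm, hsw, max N₁R N₁B, ?_⟩
  intro X rc hrc hX hN
  obtain ⟨dflt⟩ := kpr_lab_nonempty hG pτ' hX hsd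
  obtain ⟨hL, hD⟩ := hB X rc dflt hrc hX ((le_max_right _ _).trans hN)
  have htot : (X.prep p (kprZ0 X G rc dflt)).prior (X.prep p (kprZ0 X G rc dflt)).Ev0 = X.P.tot := kpm_tot p _ hX.wf
  have hmass : 1 ≤ ENNReal.ofReal (X.N ^ τ') * (X.prep p (kprZ0 X G rc dflt)).prior (X.prep p (kprZ0 X G rc dflt)).Ev0 := by
    rw [htot]; exact hX.ntv.mass
  obtain ⟨b4, D, F, mF, l1, l2, l3, l4, l5, l6, loss⟩ :=
    hR (X.prep p (kprZ0 X G rc dflt)) (kpm_has_Z0 X p G rc dflt) ((le_max_left _ _).trans hN) hL hD hmass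
  obtain ⟨Z, hZ, hd, hn, hE⟩ := kpr_realise p (kprZ0 X G rc dflt) D F
  rw [htot] at loss
  obtain ⟨hfit, hmeas⟩ := kpm_fits_step p hX.wf le_rfl hε.le (kpm_fits_Z0 hG pτ' hττ hX hsd rc dflt) (fun γ => hX.wf.Ev_meas γ) mF hd hn hE loss
  rw [zero_add] at hfit
  refine ⟨b4, dflt, Z, hL, ⟨D, F, hZ⟩, ?_, ?_, ?_, ?_, ?_, ?_, ?_, hfit, hmeas⟩
  · exact Eq.mpr (congrArg (fun R' : KsRef v => R'.Has p G) hZ) (kpm_has_tr (kpm_has_Z0 X p G rc dflt) D F)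
  · exact Eq.mpr (congrArg (fun R' : KsRef v => R'.OkLab (X.N ^ τ)) hZ) l1
  · exact Eq.mpr (congrArg (fun R' : KsRef v => R'.OkEnt (X.N ^ τ)) hZ) l2
  · exact Eq.mpr (congrArg (fun R' : KsRef v => R'.EntFac) hZ) l3
  · exact Eq.mpr (congrArg (fun R' : KsRef v => R'.OptP (X.N ^ τ)) hZ) l4
  · exact Eq.mpr (congrArg (fun R' : KsRef v => R'.OkJoint (X.N ^ τ)) hZ) l5
  · exact Eq.mpr (congrArg (fun R' : KsRef v => R'.OkFlo (X.N ^ τ)) hZ) l6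

/-- **HUB PREP-0** (`ℓ = 0`) -/
theorem ks_prep (p : KpPrm) (hp : p.Ok) (hell : p.ell = 0) (G : KsReq) (hG : G.Ok) (τ ε : ℝ) (hτ : 0 < τ) (hε : 0 < ε) :
    ∃ τ' : ℝ, 0 < τ' ∧ ∃ N₁ : ℝ, ∀ X : KpTan v, X.Ok p τ' → N₁ ≤ X.N →
      ∃ Z : KsPrep X, (X.prep p Z).Has p G ∧ (X.prep p Z).Ok (X.N ^ τ) ∧ Z.Fits τ ε := by
  obtain ⟨C₀, τ', pτ', -, -, -, -, -, N₁, h⟩ := kpm_coreX (v := v) p hp (fun _ => hell) G hG τ ε hτ hε
  refine ⟨τ', pτ', N₁, fun X hX hN => ?_⟩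
  obtain ⟨-, dflt, Z, hc⟩ := h X id kpr_rc_id hX hN
  exact ⟨Z, hc.has, kpr_ok_of_parts hc.lab hc.ent hc.opt hc.joint hc.flo, hc.fits⟩

/-- **HUB PREP-0b** (`ℓ = 0`, with breadth).  `r₀` = exponent of the list knowledge of `fine` (closure rules `KpTan.ActOk`); `τB` = the tolerance delivered by `KpBreadth` for `(κ, u, ε', r₀)`: it is given BEFORE `τ'`
(the ambiguity of `fine` per end history is `≤ N^{C τ'} ≤ N^{τB}`).   The breadth-bad parents have total prepared mass `≤ (ε' / ε) tot` (glue their bad selections into ONE residual, the state contains the parent) and are deleted in `Ev0`. -/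
theorem ks_prep_brd (p : KpPrm) (hp : p.Ok) (hell : p.ell = 0) (G : KsReq) (hG : G.Ok) (τ ε κ u : ℝ) (hτ : 0 < τ) (hε : 0 < ε) (hκ : 0 < κ) (hu : 0 < u) :
    ∃ (ε' : ℝ) (r₀ : ℕ), 0 < ε' ∧ ∀ τB : ℝ, 0 < τB → ∃ τ' : ℝ, 0 < τ' ∧ ∃ N₁ : ℝ, ∀ X : KpTan v, X.Ok p τ' → X.Brd κ u ε' r₀ (X.N ^ τB) → N₁ ≤ X.N →
      ∃ Z : KsPrep X, (X.prep p Z).Has p G ∧ (X.prep p Z).Ok (X.N ^ τ) ∧ Z.Fits τ ε ∧ (X.prep p Z).Brd κ u ε := by
  refine ⟨ε * (ε / 2), kprR0 G, by positivity, fun τB hτB => ?_⟩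
  obtain ⟨C₀, τ', pτ', -, -, hsd, hsm, hsw, N₁, h⟩ := kpm_coreX (v := v) p hp (fun _ => hell) G hG (min τ τB) (ε / 2) (lt_min hτ hτB) (by positivity)
  refine ⟨τ', pτ', max N₁ 2, fun X hX hBrd hN => ?_⟩
  obtain ⟨-, dflt, Z, hc⟩ := h X id kpr_rc_id hX ((le_max_left _ _).trans hN)
  have hN1 : 1 ≤ X.N := by linarith [(le_max_right N₁ 2).trans hN]
  have hK : X.N ^ (min τ τB) ≤ X.N ^ τ := Real.rpow_le_rpow_of_exponent_le hN1 (min_le_left _ _)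
  have hKB : X.N ^ (min τ τB) ≤ X.N ^ τB := Real.rpow_le_rpow_of_exponent_le hN1 (min_le_right _ _)
  obtain ⟨B, hBl, hBb⟩ := kpr_brd hG hX hc.has hc.fits.sub hc.fits.nd_le hc.lab hc.ent hc.fac hc.opt hsm hsw hε (kpm_brd_anti hBrd hKB)
  have mB := kpm_par_meas p Z B
  obtain ⟨Z', hZ', hd, hn, hE⟩ := kpr_realise p Z (kpmSelf (X.prep p Z)) {x | x.1.1 ∈ B}
  have hZ'' : X.prep p Z' = (X.prep p Z).cut {x | x.1.1 ∈ B} := hZ'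
  have hloss : (X.prep p Z).prior ((X.prep p Z).Ev0 \ {x | x.1.1 ∈ B}) ≤ ENNReal.ofReal (ε / 2) * X.P.tot := by
    rw [ENNReal.ofReal_mul hε.le, mul_assoc] at hBl
    exact (ENNReal.mul_le_mul_iff_right (ENNReal.ofReal_pos.2 hε).ne' ENNReal.ofReal_ne_top).1 hBl
  obtain ⟨hfit, -⟩ := kpm_fits_step p hX.wf (by positivity) (by positivity) hc.fits hc.meas mB hd hn hE hloss
  have hfit' : Z'.Fits τ ε := by
    have e : ε / 2 + ε / 2 = ε := by ring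
    rw [e] at hfit
    exact ⟨hfit.nd_le, fun s hs => (hfit.nd_dep s hs).trans (min_le_left _ _), hfit.sub, hfit.loss⟩
  have hN2 : 2 ≤ (X.prep p Z).N := (le_max_right N₁ 2).trans hN
  have hK1 : 1 ≤ X.N ^ (min τ τB) := Real.one_le_rpow hN1 (lt_min hτ hτB).le
  refine ⟨Z', ?_, ?_, hfit', ?_⟩
  · exact Eq.mpr (congrArg (fun R' : KsRef v => R'.Has p G) hZ') (kpm_has_tr hc.has _ _)
  · refine Eq.mpr (congrArg (fun R' : KsRef v => R'.Ok (X.N ^ τ)) hZ'') ?_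
    exact kpr_ok_of_parts (kpr_lab_mono (kpr_lab_cut hc.lab mB) hK) (kpr_ent_mono (kpr_ent_cut hc.ent _) hK1 hN2 hK)
      (kpm_optP_mono (kpr_optP_cut hc.opt _) hK) (kpm_joint_mono (kpr_joint_cut hc.joint _) hK)
      (kpm_flo_mono (kpr_flo_cut_par hc.flo hc.lab hc.ent B) hK)
  · exact Eq.mpr (congrArg (fun R' : KsRef v => R'.Brd κ u ε) hZ'') hBb

/-- **HUB PREP-1** (`0 < ℓ`, version 2) -/
theorem ks_prep_tilt (p : KpPrm) (hp : p.Ok) (hell : 0 < p.ell) (G : KsReq) (hG : G.Ok) (τ ε : ℝ) (hτ : 0 < τ) (hε : 0 < ε) :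
    ∃ τ' : ℝ, 0 < τ' ∧ ∃ N₁ : ℝ, ∀ X : KpTan KbVer.two, X.Ok p τ' → N₁ ≤ X.N →
      ∃ Z : KsPrep X, (X.prep p Z).Has p G ∧ (X.prep p Z).Ok (X.N ^ τ) ∧ (X.prep p Z).Tilt (X.N ^ τ) ∧ Z.Fits τ ε := by
  obtain ⟨C₀, τ', pτ', -, hT, hsd, -, -, N₁, h⟩ := kpm_coreX (v := KbVer.two) p hp (fun h => by cases h) G hG τ ε hτ hε
  refine ⟨τ', pτ', max N₁ 2, fun X hX hN => ?_⟩
  obtain ⟨b4, dflt, Z, hc⟩ := h X kprTri kpr_rc_tri hX ((le_max_left _ _).trans hN)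
  have hN1 : 1 ≤ X.N := by linarith [(le_max_right N₁ 2).trans hN]
  have hN0 : 0 < X.N := by linarith
  refine ⟨Z, hc.has, kpr_ok_of_parts hc.lab hc.ent hc.opt hc.joint hc.flo, ?_, hc.fits⟩
  obtain ⟨D, F, hZ⟩ := hc.tr
  have ht := kpr_base_tilt p hp hell G hG pτ' hX hsd dflt hc.lab0
  have hle : 4 * (X.N ^ (C₀ * τ')) ^ 2 * X.N ^ τ' ≤ X.N ^ τ := by
    rw [kpm_pow hN0, mul_assoc, ← Real.rpow_add hN0]
    refine kpm_rp hN1 b4 ?_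
    push_cast
    linarith
  exact Eq.mpr (congrArg (fun R' : KsRef KbVer.two => R'.Tilt (X.N ^ τ)) hZ) (kpm_tilt_tr (kpm_tilt_mono ht hle) D F)

end

end Claimed.Agent.R252

end PkPrepMain
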