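import Claimed.Agent.R252.State.KsTan
import Claimed.Agent.R252.S2s.Api
import Claimed.Agent.R252.State.KsStateC

/-! PACKED FILE (helper31, closed unit PREP of row 252, FROZEN): parts Prep.Parts, Prep.H2.Opt, Prep.H3.Joint.  Each part is wrapped in its own `section`. -/

section PkPrepParts

/-!
# ROW 252 (S0492), unit PREP (helper31), file 1: THE PARTS OF `KsRef.Ok` AND THE OPERATIONS ON RECORDS.        Definitions + easy leaves L-252-KPR-P*.

PREP = proof of the hubs `ks_prep`, `ks_prep_brd`, `ks_prep_tilt` of `State/KsTan.lean` = second half of the proof of `prop:tangent-palette` (04 l.655-850).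
THE WHOLE PREPARATION IS A CHAIN OF RECORD TRANSFORMATIONS which change ONLY the prepared selection (`R.cut F`) and the entry data (`R.withEnt D`):

   X.Ok p τ'  --H0 `kpr_base`-->  R₀ = X.prep p Z₀ : OkLab, Deep      (nodes, re-charting, offset caps, packet-base-cap, palette, end histories)
              --H1 `kpr_graph`->  R₁ = (R₀.withEnt D).cut F₁ : OkEnt, EntFac      (stable graphs; light labels and light entries deleted)
              --H2 `kpr_opt`--->  R₁ : OptP      (POINTWISE lists of the finest state per end history)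
              --H3 `kpr_joint`->  R₂ = R₁.cut F₂ : OkJoint      (appended-entry floor, `ksc_step`)
              --H4 `kpr_floors`>  R₃ = R₂.cut F₃ : OkFlo      (`ks_floors`)
              --H5 `kpr_brd`--->  R₄ = R₃.cut {par ∈ B} : Brd      (only Sec 6: delete the breadth-bad PARENTS; whole parents, so the floors survive: `kpr_flo_cut_par`)
   `kpr_ok_of_parts` : OkLab ∧ OkEnt ∧ OptP ∧ OkJoint ∧ OkFlo → Ok.        All parts except `OkFlo`, `Brd` are stable under `cut` (leaves P2).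
   One-scale slacks are explicit: every hub reads `hyp K → concl (C * K ^ C)`, losses are `≤ C K^C / K₁` with a free threshold `K₁`.   The exponents are chosen only in `Prep/Main.lean`.
-/

set_option autoImplicit false

namespace Claimed.Agent.R252

open MeasureTheory
open scoped ENNReal BigOperators

noncomputable section

variable {v : KbVer}

/-! ## 1. Operations -/

/-- the entry data over a record -/
structure KsEntData (R : KsRef v) where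
  Ent : Type
  fEnt : Fintype Ent
  eLab : Ent → R.Lab
  eCtr : Ent → ℝ × KbB v
  eRad : Ent → ℝ
  eKind : Ent → KsKind
  eG : Ent → ℝ × KbB v → ℝ
  ent : ℝ → R.L × ℝ → Ent

namespace KsRef

variable (R : KsRef v)

/-- restriction of the prepared selection -/
def cut (F : Set (R.L × ℝ)) : KsRef v := { R with Ev0 := R.Ev0 ∩ F }

/-- replacement of the entry data -/
def withEnt (D : KsEntData R) : KsRef v :=
  { R with Ent := D.Ent, fEnt := D.fEnt, eLab := D.eLab, eCtr := D.eCtr, eRad := D.eRad, eKind := D.eKind, eG := D.eG, ent := D.ent }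

/-! ## 2. The parts -/

/-- **part LAB**: all clauses of `Ok` which do not mention the entries, the options, the joint caps, the floors; + bounded speed of the centres -/
structure OkLab (K : ℝ) : Prop where
  N_ge : 2 ≤ R.N
  K_ge : 1 ≤ K
  prm : R.prm.Ok
  ell_v1 : v = KbVer.one → R.ell = 0
  prob : IsProbabilityMeasure R.ν
  m_co : Measurable R.co
  m_Sp : MeasurableSet R.Sp
  m_Ev0 : MeasurableSet R.Ev0
  m_par : KsLab R.par
  m_hist : KsLab R.hist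
  m_asg : ∀ Q, MeasurableSet (R.asg Q)
  Sp_full : R.ν R.Spᶜ = 0
  Ev0_sub : R.Ev0 ⊆ R.Sp ×ˢ Set.Icc (0 : ℝ) 1
  y_bd : ∀ l ∈ R.Sp, ∀ t ∈ Set.Icc (0 : ℝ) 1, ‖R.y l t‖ ≤ K
  V_bd : ∀ l ∈ R.Sp, ‖R.V l‖ ≤ K
  X_bd : ∀ l ∈ R.Sp, ∀ t ∈ Set.Icc (0 : ℝ) 1, |R.X l t| ≤ K
  nat_adm : ∀ A, KbAdm (R.nat A)
  nat_v1 : v = KbVer.one → ∀ A t y w, R.nat A t y w = w
  nat_w : ∀ l ∈ R.Sp, ∀ t ∈ Set.Icc (0 : ℝ) 1, |R.ev (kbDw (R.nat (R.par l))) l t| ≤ K
  nat_ww : ∀ A t y w, |kbDww (R.nat A) t y w| ≤ K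
  nat_lo : ∀ p ∈ R.Ev0, 1 ≤ K * |R.ev (kbDw (R.nat (R.par p.1))) p.1 p.2|
  χ_pos : 0 < R.χ
  χ_le : R.χ ≤ 1
  pal_le : ∀ A, R.pal A Set.univ ≤ 1
  pal_ball : ∀ A x p, R.χ ≤ p → R.pal A (Metric.closedBall x p) ≤ ENNReal.ofReal (K * p ^ R.S)
  ref_par : ∀ A, ∑ h, R.ref (A, h) ≤ ENNReal.ofReal K * R.pA A
  ref_Q : ∀ Q, ∑ x ∈ R.histIn Q, R.ref x ≤ ENNReal.ofReal K * (ENNReal.ofReal (R.q Q) * R.νQ Q)
  dep_mem : ∀ Q, R.dep Q ∈ R.depths
  dep_nonneg : ∀ Q, 0 ≤ R.dep Q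
  lev_dep : ∀ Q Q', R.dep Q = R.dep Q' → R.lev Q = R.lev Q'
  iv_lt : ∀ Q, R.iv Q < 2 ^ R.lev Q
  asg_Sp : ∀ Q, R.asg Q ⊆ R.Sp
  asg_par : ∀ Q, R.asg Q ⊆ R.par ⁻¹' {R.lpar Q}
  q_lo : ∀ Q, R.a (R.k * R.dep Q) ≤ K * R.q Q
  q_hi : ∀ Q, R.q Q ≤ K * R.a (R.k * R.dep Q)
  inv : ∀ Q, (R.ch Q).D * (R.ch Q).Di = 1
  J_lo : ∀ Q, R.q Q ^ v.j * R.a (R.ell * R.dep Q) ≤ K * R.J Q
  J_hi : ∀ Q, R.J Q ≤ K * (R.q Q ^ v.j * R.a (R.ell * R.dep Q))
  D_hi : ∀ Q, kbMn (R.ch Q).D ≤ K * R.q Q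
  ν_lo : ∀ Q, R.pA (R.lpar Q) * ENNReal.ofReal (R.a (R.dep Q) ^ R.d * R.J Q) ≤ ENNReal.ofReal K * R.νQ Q
  ν_hi : ∀ Q, R.νQ Q ≤ ENNReal.ofReal K * (R.pA (R.lpar Q) * ENNReal.ofReal (R.a (R.dep Q) ^ R.d * R.J Q))
  disj : ∀ Q Q', R.dep Q = R.dep Q' → R.iv Q = R.iv Q' → Q ≠ Q' → Disjoint (R.asg Q) (R.asg Q')
  nested : ∀ Q', ∀ s ∈ R.depths, s ≤ R.dep Q' → ∃ Q, R.dep Q = s ∧ R.Desc Q' Q
  box_mem : ∀ Q, ∀ l ∈ R.asg Q, ∀ t ∈ R.blk Q, ‖(R.unit Q (t, R.y l t)).2‖ ≤ K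
  tst_adm : ∀ Q, KbAdm (R.tst Q)
  tst_val : ∀ Q, ∀ l ∈ R.asg Q, ∀ t ∈ R.blk Q, |R.ev (R.tst Q) l t| ≤ K * R.a (R.dep Q)
  tst_w : ∀ Q, ∀ l ∈ R.asg Q, ∀ t ∈ R.blk Q, |R.ev (kbDw (R.tst Q)) l t| ≤ K
  tst_ww : ∀ Q t y w, |kbDww (R.tst Q) t y w| * R.a (R.dep Q) ≤ K
  tst_lo : ∀ Q, ∀ p ∈ R.Ev0 ∩ R.inc Q, 1 ≤ K * |R.ev (kbDw (R.tst Q)) p.1 p.2|
  /-- every retained incidence has a true label at every required depth -/
  lab_ex : ∀ s ∈ R.depths, ∀ p ∈ R.Ev0, ∃ Q, R.IsLab s p Q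
  capX : ∀ r ∈ R.widths, ∀ A (U : Set (ℝ × KbB v)) (f : ℝ × KbB v → ℝ), MeasurableSet U → Measurable f →
    R.lam0 {p | R.par p.1 = A ∧ R.base p ∈ U ∧ |R.X p.1 p.2 - f (R.base p)| ≤ R.a r}
      ≤ ENNReal.ofReal K * ENNReal.ofReal (R.a r ^ R.d) * R.pA A * volume U
  capw : ∀ r ∈ R.widths, ∀ A (U : Set (ℝ × KbB v)) (f : ℝ × KbB v → ℝ), MeasurableSet U → Measurable f →
    R.lam0 {p | R.par p.1 = A ∧ R.base p ∈ U ∧ |R.w p.1 p.2 - f (R.base p)| ≤ R.a r}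
      ≤ ENNReal.ofReal K * ENNReal.ofReal (R.a r ^ R.d) * R.pA A * volume U
  capQ : ∀ Q (U : Set (ℝ × KbB v)), MeasurableSet U →
    ENNReal.ofReal (R.J Q) * R.lam0 (R.inc Q ∩ R.base ⁻¹' U) ≤ ENNReal.ofReal K * R.νQ Q * volume U
  dom : KsDom R.lam0 R.st R.vT (fun x b => R.pi x.1 b) R.ref (ENNReal.ofReal K)
  /-- bounded speed of the moving centres -/
  cen : ∀ Q, ‖(R.ch Q).y1‖ ≤ K

/-- **part ENT**: stable graphs -/
structure OkEnt (K : ℝ) : Prop where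
  m_eG : ∀ e, Measurable (R.eG e)
  m_ent : ∀ s, KsLab (R.ent s)
  lab : ∀ s ∈ R.depths, ∀ p ∈ R.Ev0, R.IsLab s p (R.labAt s p)
  ent_card : ∀ Q, (Set.ncard {e | R.eLab e = Q} : ℝ) ≤ K
  ent_rad : ∀ e, 1 ≤ K * R.eRad e
  ent_rad_le : ∀ e, R.eRad e ≤ 1
  ent_cov : ∀ s ∈ R.depths, ∀ p ∈ R.Ev0, p ∈ R.eInc (R.ent s p) ∧ |R.w p.1 p.2 - R.eG (R.ent s p) (R.base p)| ≤ K * R.a s
  ent_root : ∀ e, R.eKind e ≠ KsKind.centre → ∀ u ∈ R.eInt e,
    R.onG e (R.tst (R.eLab e)) u = 0 ∧ 1 ≤ K * ((R.eKind e).sgn * R.onG e (kbDw (R.tst (R.eLab e))) u) ∧ |R.onG e (kbDw (R.tst (R.eLab e))) u| ≤ K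
  ent_ctr : ∀ e, R.eKind e = KsKind.centre → ∀ u ∈ R.eInt e, R.onG e (kbDw (R.tst (R.eLab e))) u = 0
  ent_smooth : ∀ e, ContDiffOn ℝ R.ord (R.eF e) (R.eInt e)
  ent_der : ∀ e, ∀ u ∈ R.eInt e, ∀ i ≤ R.ord, ‖iteratedFDeriv ℝ i (R.eF e) u‖ ≤ K

/-- the entry is a function of (true label, exact base, sign of the incidence derivative): needed for the list knowledge `KpTan.Act` of `fine` (breadth) -/
def EntFac : Prop :=
  ∀ s ∈ R.depths, ∃ Φ : R.Lab → ℝ × KbB v → Bool → R.Ent, (∀ Q σ e, MeasurableSet {z | Φ Q z σ = e}) ∧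
    ∀ p ∈ R.Ev0, R.ent s p = Φ (R.labAt s p) (R.base p) (decide (0 < R.ev (kbDw (R.tst (R.labAt s p))) p.1 p.2))

/-- the end history localises the exact base to `δ` (parent coordinates) and determines the true labels -/
def Deep (δ : ℝ) : Prop :=
  ∀ p ∈ R.Ev0, ∀ p' ∈ R.Ev0, R.st p = R.st p' → dist (R.base p) (R.base p') ≤ δ ∧ ∀ s ∈ R.depths, ∀ Q, R.IsLab s p Q → R.IsLab s p' Q

/-- **part OPT**, POINTWISE: `≤ K` values of the finest prepared state per end history -/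
def OptP (K : ℝ) : Prop :=
  ∀ x : R.Par × R.Hist, ∃ F : Finset R.Fine, (F.card : ℝ) ≤ K ∧ ∀ p ∈ R.Ev0, R.st p = x → R.fine p ∈ F

/-- **part JOINT** -/
def OkJoint (K : ℝ) : Prop :=
  ∀ M ∈ R.meshes, ∀ r ∈ R.widths, ∀ A c b,
    R.lam0 {p | R.par p.1 = A ∧ R.pt M r p = c ∧ R.vbin p.1 = b}
      ≤ ENNReal.ofReal K * ENNReal.ofReal (R.a r ^ R.d * R.a M ^ (v.j + 1)) * R.pA A * R.pi A b

/-- **part FLOORS** -/
structure OkFlo (K : ℝ) : Prop where
  lab_flo : ∀ Q, R.Ev0 ∩ R.inc Q = ∅ ∨ ENNReal.ofReal (R.q Q) * R.νQ Q ≤ ENNReal.ofReal K * R.lam0 (R.inc Q)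
  ent_flo : ∀ e, R.Ev0 ∩ R.eOn e = ∅ ∨ ENNReal.ofReal (R.q (R.eLab e)) * R.νQ (R.eLab e) ≤ ENNReal.ofReal K * R.lam0 (R.eOn e)

end KsRef

/-! ## 3. Easy leaves -/

/-- a factor of the finest state has `≤ K` options per end history -/
theorem kpr_opt_aux {R : KsRef v} {K : ℝ} (hK : 0 ≤ K) (hm : MeasurableSet R.Ev0) (h : R.OptP K) {D : Type*} (d : R.L × ℝ → D) (φ : R.Fine → D)
    (hφ : ∀ p, d p = φ (R.fine p)) : ∃ n : ℕ, (n : ℝ) ≤ K ∧ KsOpt R.lam0 R.st d n := by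
  classical
  refine ⟨⌊K⌋₊, Nat.floor_le hK, fun s0 => ?_⟩
  obtain ⟨F, hF, hF'⟩ := h s0
  refine ⟨F.image φ, Finset.card_image_le.trans (Nat.le_floor hF), fun d0 hd0 => ?_⟩
  show (R.prior.restrict R.Ev0) (ksPair R.st d ⁻¹' {(s0, d0)}) = 0
  rw [Measure.restrict_apply' hm]
  have : ksPair R.st d ⁻¹' {(s0, d0)} ∩ R.Ev0 = ∅ := by
    apply Set.eq_empty_of_forall_notMem
    rintro p ⟨hp1, hp2⟩
    have h1 : (R.st p, d p) = (s0, d0) := hp1
    have h2 := hF' p hp2 (congrArg Prod.fst h1)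
    apply hd0
    have h3 : d p = d0 := congrArg Prod.snd h1
    rw [← h3]
    exact Finset.mem_image.2 ⟨_, h2, (hφ p).symm⟩
  rw [this, measure_empty]

/-- **L-252-KPR-P1** the pointwise lists give the options of `Ok`   (hypotheses `0 ≤ K`, `MeasurableSet Ev0` added by helper43: without them the statement is false) -/
theorem kpr_opt_of_optP {R : KsRef v} {K : ℝ} (hK : 0 ≤ K) (hm : MeasurableSet R.Ev0) (h : R.OptP K) :
    (∀ M ∈ R.meshes, ∀ r ∈ R.widths, ∃ n : ℕ, (n : ℝ) ≤ K ∧ KsOpt R.lam0 R.st (R.pt M r) n) ∧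
      ∀ s ∈ R.depths, ∃ n : ℕ, (n : ℝ) ≤ K ∧ KsOpt R.lam0 R.st (R.ent s) n := by
  refine ⟨fun M hM r hr => ?_, fun s hs => ?_⟩
  · exact kpr_opt_aux hK hm h (R.pt M r) (fun f => f.2.2 (⟨M, hM⟩, ⟨r, hr⟩)) fun _ => rfl
  · exact kpr_opt_aux hK hm h (R.ent s) (fun f => f.2.1 ⟨s, hs⟩) fun _ => rfl

/-- **L-252-KPR-P1** assembly -/
theorem kpr_ok_of_parts {R : KsRef v} {K : ℝ} (h1 : R.OkLab K) (h2 : R.OkEnt K) (h3 : R.OptP K) (h4 : R.OkJoint K) (h5 : R.OkFlo K) : R.Ok K :=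
  { h1, h2, h5 with
    opt_pt := (kpr_opt_of_optP (by linarith [h1.K_ge]) h1.m_Ev0 h3).1
    opt_ent := (kpr_opt_of_optP (by linarith [h1.K_ge]) h1.m_Ev0 h3).2
    joint := h4 }

/-- the prepared law decreases under `cut` -/
theorem kpr_cut_lam0_le (R : KsRef v) (F : Set (R.L × ℝ)) : (R.cut F).lam0 ≤ R.lam0 :=
  Measure.restrict_mono Set.inter_subset_left le_rfl

/-- fewer end histories occur inside a label after a `cut` -/
theorem kpr_cut_histIn (R : KsRef v) (F : Set (R.L × ℝ)) (Q : R.Lab) : (R.cut F).histIn Q ⊆ R.histIn Q := by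
  classical
  intro x hx
  obtain ⟨p, hp⟩ := (Finset.mem_filter.1 hx).2
  exact Finset.mem_filter.2 ⟨Finset.mem_univ _, p, ⟨hp.1.1.1, hp.1.2⟩, hp.2⟩

/-- **L-252-KPR-P2** stability under `cut` -/
theorem kpr_lab_cut {R : KsRef v} {K : ℝ} (h : R.OkLab K) {F : Set (R.L × ℝ)} (hF : MeasurableSet F) : (R.cut F).OkLab K := by
  exact
  { N_ge := h.N_ge
    K_ge := h.K_ge
    prm := h.prm
    ell_v1 := h.ell_v1
    prob := h.prob
    m_co := h.m_co
    m_Sp := h.m_Sp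
    m_Ev0 := h.m_Ev0.inter hF
    m_par := h.m_par
    m_hist := h.m_hist
    m_asg := h.m_asg
    Sp_full := h.Sp_full
    Ev0_sub := Set.inter_subset_left.trans h.Ev0_sub
    y_bd := h.y_bd
    V_bd := h.V_bd
    X_bd := h.X_bd
    nat_adm := h.nat_adm
    nat_v1 := h.nat_v1
    nat_w := h.nat_w
    nat_ww := h.nat_ww
    nat_lo := fun p hp => h.nat_lo p hp.1
    χ_pos := h.χ_pos
    χ_le := h.χ_le
    pal_le := h.pal_le
    pal_ball := h.pal_ball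
    ref_par := h.ref_par
    ref_Q := fun Q => (Finset.sum_le_sum_of_subset (kpr_cut_histIn R F Q)).trans (h.ref_Q Q)
    dep_mem := h.dep_mem
    dep_nonneg := h.dep_nonneg
    lev_dep := h.lev_dep
    iv_lt := h.iv_lt
    asg_Sp := h.asg_Sp
    asg_par := h.asg_par
    q_lo := h.q_lo
    q_hi := h.q_hi
    inv := h.inv
    J_lo := h.J_lo
    J_hi := h.J_hi
    D_hi := h.D_hi
    ν_lo := h.ν_lo
    ν_hi := h.ν_hi
    disj := h.disj
    nested := h.nested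
    box_mem := h.box_mem
    tst_adm := h.tst_adm
    tst_val := h.tst_val
    tst_w := h.tst_w
    tst_ww := h.tst_ww
    tst_lo := fun Q p hp => h.tst_lo Q p ⟨hp.1.1, hp.2⟩
    lab_ex := fun s hs p hp => h.lab_ex s hs p hp.1
    capX := fun r hr A U f hU hf => (kpr_cut_lam0_le R F _).trans (h.capX r hr A U f hU hf)
    capw := fun r hr A U f hU hf => (kpr_cut_lam0_le R F _).trans (h.capw r hr A U f hU hf)
    capQ := fun Q U hU => (mul_le_mul' le_rfl (kpr_cut_lam0_le R F _)).trans (h.capQ Q U hU)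
    dom := ks_dom_mono h.dom (kpr_cut_lam0_le R F) (fun _ _ => le_rfl) (fun _ => le_rfl) le_rfl
    cen := h.cen }

theorem kpr_ent_cut {R : KsRef v} {K : ℝ} (h : R.OkEnt K) (F : Set (R.L × ℝ)) : (R.cut F).OkEnt K := by
  exact
  { m_eG := h.m_eG
    m_ent := h.m_ent
    lab := fun s hs p hp => h.lab s hs p hp.1
    ent_card := h.ent_card
    ent_rad := h.ent_rad
    ent_rad_le := h.ent_rad_le
    ent_cov := fun s hs p hp => h.ent_cov s hs p hp.1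
    ent_root := h.ent_root
    ent_ctr := h.ent_ctr
    ent_smooth := h.ent_smooth
    ent_der := h.ent_der }

theorem kpr_fac_cut {R : KsRef v} (h : R.EntFac) (F : Set (R.L × ℝ)) : (R.cut F).EntFac := by
  intro s hs
  obtain ⟨Φ, h1, h2⟩ := h s hs
  exact ⟨Φ, h1, fun p hp => h2 p hp.1⟩

theorem kpr_deep_cut {R : KsRef v} {δ : ℝ} (h : R.Deep δ) (F : Set (R.L × ℝ)) : (R.cut F).Deep δ := by
  intro p hp p' hp' hst
  exact h p hp.1 p' hp'.1 hst

theorem kpr_optP_cut {R : KsRef v} {K : ℝ} (h : R.OptP K) (F : Set (R.L × ℝ)) : (R.cut F).OptP K := by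
  intro x
  obtain ⟨T, h1, h2⟩ := h x
  exact ⟨T, h1, fun p hp hst => h2 p hp.1 hst⟩

theorem kpr_joint_cut {R : KsRef v} {K : ℝ} (h : R.OkJoint K) (F : Set (R.L × ℝ)) : (R.cut F).OkJoint K := by
  intro M hM r hr A c b
  exact (kpr_cut_lam0_le R F _).trans (h M hM r hr A c b)

/-- a floor survives a `cut` which contains or misses the whole event -/
theorem kpr_flo_aux {R : KsRef v} (hm : MeasurableSet R.Ev0) {F : Set (R.L × ℝ)} (hF : MeasurableSet F) (T : Set (R.L × ℝ)) (x k : ℝ≥0∞)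
    (h : R.Ev0 ∩ T = ∅ ∨ x ≤ k * R.lam0 T) (hT : R.Ev0 ∩ T ⊆ F ∨ R.Ev0 ∩ T ⊆ Fᶜ) : (R.Ev0 ∩ F) ∩ T = ∅ ∨ x ≤ k * (R.cut F).lam0 T := by
  rcases hT with hT | hT
  · rcases h with h | h
    · left
      apply Set.eq_empty_of_forall_notMem
      intro p hp
      have : p ∈ R.Ev0 ∩ T := ⟨hp.1.1, hp.2⟩
      rw [h] at this
      exact this
    · right
      have e : (R.cut F).lam0 T = R.lam0 T := by
        show (R.prior.restrict (R.Ev0 ∩ F)) T = (R.prior.restrict R.Ev0) T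
        rw [Measure.restrict_apply' (hm.inter hF), Measure.restrict_apply' hm]
        congr 1
        ext p
        constructor
        · intro hp
          exact ⟨hp.1, hp.2.1⟩
        · intro hp
          exact ⟨hp.1, hp.2, hT ⟨hp.2, hp.1⟩⟩
      rw [e]
      exact h
  · left
    apply Set.eq_empty_of_forall_notMem
    intro p hp
    exact hT ⟨hp.1.1, hp.2⟩ hp.1.2

/-- the floors survive the deletion of whole parents -/
theorem kpr_flo_cut_par {R : KsRef v} {K K' : ℝ} (h : R.OkFlo K) (hL : R.OkLab K') (hE : R.OkEnt K') (B : Set R.Par) : (R.cut {x | R.par x.1 ∈ B}).OkFlo K := by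
  have hF : MeasurableSet {x : R.L × ℝ | R.par x.1 ∈ B} := measurable_fst (ks_lab_preimage hL.m_par B)
  have key : ∀ (Q : R.Lab) (T : Set (R.L × ℝ)), R.Ev0 ∩ T ⊆ R.inc Q →
      R.Ev0 ∩ T ⊆ {x | R.par x.1 ∈ B} ∨ R.Ev0 ∩ T ⊆ {x | R.par x.1 ∈ B}ᶜ := by
    intro Q T hT
    have hp : ∀ p ∈ R.Ev0 ∩ T, R.par p.1 = R.lpar Q := fun p hp => hL.asg_par Q (hT hp).1
    by_cases hB : R.lpar Q ∈ B
    · left
      intro p hp'
      show R.par p.1 ∈ B
      rw [hp p hp']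
      exact hB
    · right
      intro p hp' hpB
      have : R.par p.1 ∈ B := hpB
      rw [hp p hp'] at this
      exact hB this
  refine ⟨fun Q => ?_, fun e => ?_⟩
  · exact kpr_flo_aux hL.m_Ev0 hF (R.inc Q) _ _ (h.lab_flo Q) (key Q _ Set.inter_subset_right)
  · refine kpr_flo_aux hL.m_Ev0 hF (R.eOn e) _ _ (h.ent_flo e) (key (R.eLab e) _ ?_)
    intro p hp
    have h1 : R.ent (R.dep (R.eLab e)) p = e := hp.2
    have h2 := (hE.lab _ (hL.dep_mem (R.eLab e)) p hp.1).2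
    unfold KsRef.labAt at h2
    rw [h1] at h2
    exact h2

/-- **L-252-KPR-P3** `OkLab`, `Deep` do not see the entries -/
theorem kpr_lab_withEnt {R : KsRef v} {K : ℝ} (h : R.OkLab K) (D : KsEntData R) : (R.withEnt D).OkLab K := by
  exact
  { N_ge := h.N_ge
    K_ge := h.K_ge
    prm := h.prm
    ell_v1 := h.ell_v1
    prob := h.prob
    m_co := h.m_co
    m_Sp := h.m_Sp
    m_Ev0 := h.m_Ev0
    m_par := h.m_par
    m_hist := h.m_hist
    m_asg := h.m_asg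
    Sp_full := h.Sp_full
    Ev0_sub := h.Ev0_sub
    y_bd := h.y_bd
    V_bd := h.V_bd
    X_bd := h.X_bd
    nat_adm := h.nat_adm
    nat_v1 := h.nat_v1
    nat_w := h.nat_w
    nat_ww := h.nat_ww
    nat_lo := h.nat_lo
    χ_pos := h.χ_pos
    χ_le := h.χ_le
    pal_le := h.pal_le
    pal_ball := h.pal_ball
    ref_par := h.ref_par
    ref_Q := h.ref_Q
    dep_mem := h.dep_mem
    dep_nonneg := h.dep_nonneg
    lev_dep := h.lev_dep
    iv_lt := h.iv_lt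
    asg_Sp := h.asg_Sp
    asg_par := h.asg_par
    q_lo := h.q_lo
    q_hi := h.q_hi
    inv := h.inv
    J_lo := h.J_lo
    J_hi := h.J_hi
    D_hi := h.D_hi
    ν_lo := h.ν_lo
    ν_hi := h.ν_hi
    disj := h.disj
    nested := h.nested
    box_mem := h.box_mem
    tst_adm := h.tst_adm
    tst_val := h.tst_val
    tst_w := h.tst_w
    tst_ww := h.tst_ww
    tst_lo := h.tst_lo
    lab_ex := h.lab_ex
    capX := h.capX
    capw := h.capw
    capQ := h.capQ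
    dom := h.dom
    cen := h.cen }

theorem kpr_deep_withEnt {R : KsRef v} {δ : ℝ} (h : R.Deep δ) (D : KsEntData R) : (R.withEnt D).Deep δ := by
  exact h

/-- **L-252-KPR-P4** monotonicity in the slack -/
theorem kpr_lab_mono {R : KsRef v} {K K' : ℝ} (h : R.OkLab K) (hK : K ≤ K') : R.OkLab K' := by
  have hK0 : 0 < K := lt_of_lt_of_le one_pos h.K_ge
  have hk : ENNReal.ofReal K ≤ ENNReal.ofReal K' := ENNReal.ofReal_le_ofReal hK
  have ha : ∀ s, 0 ≤ R.a s := fun s => Real.rpow_nonneg (by linarith [h.N_ge]) _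
  have hq : ∀ Q, 0 ≤ R.q Q := fun Q => by
    unfold KsRef.q kbQ
    positivity
  exact
  { N_ge := h.N_ge
    K_ge := h.K_ge.trans hK
    prm := h.prm
    ell_v1 := h.ell_v1
    prob := h.prob
    m_co := h.m_co
    m_Sp := h.m_Sp
    m_Ev0 := h.m_Ev0
    m_par := h.m_par
    m_hist := h.m_hist
    m_asg := h.m_asg
    Sp_full := h.Sp_full
    Ev0_sub := h.Ev0_sub
    y_bd := fun l hl t ht => (h.y_bd l hl t ht).trans hK
    V_bd := fun l hl => (h.V_bd l hl).trans hK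
    X_bd := fun l hl t ht => (h.X_bd l hl t ht).trans hK
    nat_adm := h.nat_adm
    nat_v1 := h.nat_v1
    nat_w := fun l hl t ht => (h.nat_w l hl t ht).trans hK
    nat_ww := fun A t y w => (h.nat_ww A t y w).trans hK
    nat_lo := fun p hp => ksl1_mul' hK (abs_nonneg _) (h.nat_lo p hp)
    χ_pos := h.χ_pos
    χ_le := h.χ_le
    pal_le := h.pal_le
    pal_ball := fun A x p hp => (h.pal_ball A x p hp).trans
      (ENNReal.ofReal_le_ofReal (mul_le_mul_of_nonneg_right hK (Real.rpow_nonneg (h.χ_pos.le.trans hp) _)))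
    ref_par := fun A => ksl1_emul hk (h.ref_par A)
    ref_Q := fun Q => ksl1_emul hk (h.ref_Q Q)
    dep_mem := h.dep_mem
    dep_nonneg := h.dep_nonneg
    lev_dep := h.lev_dep
    iv_lt := h.iv_lt
    asg_Sp := h.asg_Sp
    asg_par := h.asg_par
    q_lo := fun Q => ksl1_mul' hK (hq Q) (h.q_lo Q)
    q_hi := fun Q => ksl1_mul' hK (ha _) (h.q_hi Q)
    inv := h.inv
    J_lo := fun Q => ksl1_mul hK0 hK (mul_nonneg (pow_nonneg (hq Q) _) (ha _)) (h.J_lo Q)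
    J_hi := fun Q => ksl1_mul' hK (mul_nonneg (pow_nonneg (hq Q) _) (ha _)) (h.J_hi Q)
    D_hi := fun Q => ksl1_mul' hK (hq Q) (h.D_hi Q)
    ν_lo := fun Q => ksl1_emul hk (h.ν_lo Q)
    ν_hi := fun Q => ksl1_emul hk (h.ν_hi Q)
    disj := h.disj
    nested := h.nested
    box_mem := fun Q l hl t ht => (h.box_mem Q l hl t ht).trans hK
    tst_adm := h.tst_adm
    tst_val := fun Q l hl t ht => ksl1_mul' hK (ha _) (h.tst_val Q l hl t ht)
    tst_w := fun Q l hl t ht => (h.tst_w Q l hl t ht).trans hK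
    tst_ww := fun Q t y w => (h.tst_ww Q t y w).trans hK
    tst_lo := fun Q p hp => ksl1_mul' hK (abs_nonneg _) (h.tst_lo Q p hp)
    lab_ex := h.lab_ex
    capX := fun r hr A U f hU hf => (h.capX r hr A U f hU hf).trans (mul_le_mul' (mul_le_mul' (mul_le_mul' hk le_rfl) le_rfl) le_rfl)
    capw := fun r hr A U f hU hf => (h.capw r hr A U f hU hf).trans (mul_le_mul' (mul_le_mul' (mul_le_mul' hk le_rfl) le_rfl) le_rfl)
    capQ := fun Q U hU => (h.capQ Q U hU).trans (mul_le_mul' (mul_le_mul' hk le_rfl) le_rfl)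
    dom := ks_dom_mono h.dom le_rfl (fun _ _ => le_rfl) (fun _ => le_rfl) hk
    cen := fun Q => (h.cen Q).trans hK }

theorem kpr_ent_mono {R : KsRef v} {K K' : ℝ} (h : R.OkEnt K) (h1 : 1 ≤ K) (hN : 2 ≤ R.N) (hK : K ≤ K') : R.OkEnt K' := by
  have hK0 : 0 < K := lt_of_lt_of_le one_pos h1
  have ha : ∀ s, 0 ≤ R.a s := fun s => Real.rpow_nonneg (by linarith [hN]) _
  exact
  { m_eG := h.m_eG
    m_ent := h.m_ent
    lab := h.lab
    ent_card := fun Q => (h.ent_card Q).trans hK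
    ent_rad := fun e => ksl1_mul hK0 hK zero_le_one (h.ent_rad e)
    ent_rad_le := h.ent_rad_le
    ent_cov := fun s hs p hp => ⟨(h.ent_cov s hs p hp).1, ksl1_mul' hK (ha _) (h.ent_cov s hs p hp).2⟩
    ent_root := fun e he u hu => ⟨(h.ent_root e he u hu).1, ksl1_mul hK0 hK zero_le_one (h.ent_root e he u hu).2.1,
      (h.ent_root e he u hu).2.2.trans hK⟩
    ent_ctr := h.ent_ctr
    ent_smooth := h.ent_smooth
    ent_der := fun e u hu i hi => (h.ent_der e u hu i hi).trans hK }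

/-- **L-252-KPR-P5** the API of `State/KsLoc.lean` under `OkLab` (+ `OkEnt`) instead of `Ok` : COPY the proofs of `ks_lab_unique`, `ks_budget_block`, `ks_budget_depth`, `ks_unit_ofUnit`, `ks_ofUnit_unit`, `ks_X_err` -/
theorem kpr_lab_unique {R : KsRef v} {K : ℝ} (h : R.OkLab K) {s : ℝ} {p : R.L × ℝ} {Q Q' : R.Lab} (hQ : R.IsLab s p Q) (hQ' : R.IsLab s p Q') : Q = Q' := by
  by_contra hne
  have hd : R.dep Q = R.dep Q' := hQ.1.trans hQ'.1.symm
  have hl : R.lev Q = R.lev Q' := h.lev_dep Q Q' hd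
  have h1 : p.2 ∈ kbI (R.lev Q) (R.iv Q) := hQ.2.2
  have h2 : p.2 ∈ kbI (R.lev Q) (R.iv Q') := by
    rw [hl]
    exact hQ'.2.2
  have hi : R.iv Q = R.iv Q' := ksl_kbI_inj h1 h2
  exact Set.disjoint_left.1 (h.disj Q Q' hd hi hne) hQ.2.1 hQ'.2.1

open Classical in
theorem kpr_budget_block {R : KsRef v} {K : ℝ} (h : R.OkLab K) (s : ℝ) (i : ℕ) : ∑ Q ∈ Finset.univ.filter (fun Q => R.dep Q = s ∧ R.iv Q = i), R.νQ Q ≤ 1 := by
  have := h.prob
  unfold KsRef.νQ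
  rw [← measure_biUnion_finset _ (fun Q _ => h.m_asg Q)]
  · exact prob_le_one
  · intro Q hQ Q' hQ' hne
    have hQ1 := (Finset.mem_filter.1 hQ).2
    have hQ2 := (Finset.mem_filter.1 hQ').2
    exact h.disj Q Q' (hQ1.1.trans hQ2.1.symm) (hQ1.2.trans hQ2.2.symm) hne

open Classical in
theorem kpr_budget_depth {R : KsRef v} {K : ℝ} (h : R.OkLab K) (s : ℝ) : ∑ Q ∈ Finset.univ.filter (fun Q => R.dep Q = s), ENNReal.ofReal (R.q Q) * R.νQ Q ≤ 1 := by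
  rcases (Finset.univ.filter (fun Q => R.dep Q = s)).eq_empty_or_nonempty with he | ⟨Q0, hQ0⟩
  · rw [he]
    simp
  have hQ0' : R.dep Q0 = s := (Finset.mem_filter.1 hQ0).2
  have hlev : ∀ Q ∈ Finset.univ.filter (fun Q => R.dep Q = s), R.lev Q = R.lev Q0 := fun Q hQ =>
    h.lev_dep Q Q0 ((Finset.mem_filter.1 hQ).2.trans hQ0'.symm)
  have hmaps : ∀ Q ∈ Finset.univ.filter (fun Q => R.dep Q = s), R.iv Q ∈ Finset.range (2 ^ R.lev Q0) := fun Q hQ => by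
    rw [Finset.mem_range, ← hlev Q hQ]
    exact h.iv_lt Q
  rw [← Finset.sum_fiberwise_of_maps_to hmaps]
  have hb : ∀ i ∈ Finset.range (2 ^ R.lev Q0),
      ∑ Q ∈ (Finset.univ.filter (fun Q => R.dep Q = s)).filter (fun Q => R.iv Q = i), ENNReal.ofReal (R.q Q) * R.νQ Q
        ≤ ENNReal.ofReal (kbQ (R.lev Q0)) := by
    intro i _
    have h1 : ∑ Q ∈ (Finset.univ.filter (fun Q => R.dep Q = s)).filter (fun Q => R.iv Q = i), ENNReal.ofReal (R.q Q) * R.νQ Q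
        = ∑ Q ∈ (Finset.univ.filter (fun Q => R.dep Q = s)).filter (fun Q => R.iv Q = i), ENNReal.ofReal (kbQ (R.lev Q0)) * R.νQ Q := by
      refine Finset.sum_congr rfl fun Q hQ => ?_
      rw [KsRef.q, hlev Q (Finset.mem_filter.1 hQ).1]
    rw [h1, ← Finset.mul_sum, Finset.filter_filter]
    calc _ ≤ ENNReal.ofReal (kbQ (R.lev Q0)) * 1 := mul_le_mul' le_rfl (kpr_budget_block h s i)
      _ = _ := mul_one _
  refine (Finset.sum_le_sum hb).trans ?_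
  rw [Finset.sum_const, Finset.card_range, nsmul_eq_mul]
  have h2 : ((2 ^ R.lev Q0 : ℕ) : ℝ≥0∞) = ENNReal.ofReal ((2 : ℝ) ^ R.lev Q0) := by
    rw [← ENNReal.ofReal_natCast]
    push_cast
    rfl
  rw [h2, ← ENNReal.ofReal_mul (by positivity), kbQ, ← mul_pow]
  norm_num

theorem kpr_unit_ofUnit {R : KsRef v} {K : ℝ} (h : R.OkLab K) (Q : R.Lab) (u : ℝ × KbB v) : R.unit Q (R.ofUnit Q u) = u := by
  have hq := ksl_q_ne (R := R) Q
  have hi : (R.ch Q).Di * (R.ch Q).D = 1 := mul_eq_one_comm.1 (h.inv Q)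
  unfold KsRef.unit KsRef.ofUnit
  refine Prod.ext ?_ ?_
  · simp only
    field_simp
    ring
  · simp only [add_sub_cancel_left, Matrix.mulVec_mulVec, hi, Matrix.one_mulVec]

theorem kpr_ofUnit_unit {R : KsRef v} {K : ℝ} (h : R.OkLab K) (Q : R.Lab) (z : ℝ × KbB v) : R.ofUnit Q (R.unit Q z) = z := by
  have hq := ksl_q_ne (R := R) Q
  have h1 : R.t0 Q + R.q Q * ((z.1 - R.t0 Q) / R.q Q) = z.1 := by
    field_simp
    ring
  unfold KsRef.unit KsRef.ofUnit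
  refine Prod.ext ?_ ?_
  · exact h1
  · simp only [h1, Matrix.mulVec_mulVec, h.inv Q, Matrix.one_mulVec, add_sub_cancel]

theorem kpr_X_err {R : KsRef v} {K : ℝ} (h : R.OkLab K) (hE : R.OkEnt K) {s : ℝ} (hs : s ∈ R.depths) {p : R.L × ℝ} (hp : p ∈ R.Ev0) :
    |R.X p.1 p.2 - R.eF (R.ent s p) (R.unit (R.labAt s p) (R.base p))| ≤ 2 * K ^ 3 * R.a s := by
  have hlab := hE.lab s hs p hp
  have hs0 : 0 ≤ s := hlab.1 ▸ h.dep_nonneg _
  have hN : (1 : ℝ) ≤ R.N := by linarith [h.N_ge]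
  have ha0 : 0 ≤ R.a s := Real.rpow_nonneg (by linarith) _
  have ha1 : R.a s ≤ 1 := Real.rpow_le_one_of_one_le_of_nonpos hN (by linarith)
  have hSp := h.Ev0_sub hp
  have hpar : R.par p.1 = R.lpar (R.labAt s p) := h.asg_par _ hlab.2.1
  have hcov := (hE.ent_cov s hs p hp).2
  have hF : R.eF (R.ent s p) (R.unit (R.labAt s p) (R.base p))
      = R.nat (R.par p.1) p.2 (kbY (R.co p.1) p.2) (R.eG (R.ent s p) (R.base p)) := by
    unfold KsRef.eF KsRef.onG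
    have h1 : R.ofUnit (R.eLab (R.ent s p)) (R.unit (R.labAt s p) (R.base p)) = R.base p := kpr_ofUnit_unit h _ _
    rw [h1, hpar]
    rfl
  refine ksl_taylor_bd h.K_ge ha0 ha1 (hF.trans (ks_quad_taylor (h.nat_adm (R.par p.1)).1 p.2 (kbY (R.co p.1) p.2) (kbW (R.co p.1) p.2) _))
    (h.nat_w p.1 hSp.1 p.2 hSp.2) (h.nat_ww _ _ _ _) ?_
  rw [abs_sub_comm]
  exact hcov

/-- **L-252-KPR-P6** a transformed bridge is a bridge -/
theorem kpr_realise {X : KpTan v} (p : KpPrm) (Z₀ : KsPrep X) (D : KsEntData (X.prep p Z₀)) (F : Set ((X.prep p Z₀).L × ℝ)) :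
    ∃ Z : KsPrep X, X.prep p Z = ((X.prep p Z₀).withEnt D).cut F ∧ Z.depths = Z₀.depths ∧ Z.nd = Z₀.nd ∧
      ∀ γ, Z.Ev0 γ = Z₀.Ev0 γ ∩ {x | (((γ, x.1), x.2) : (X.P.W × X.P.Lam) × ℝ) ∈ F} := by
  refine ⟨{ Z₀ with
    Ev0 := fun γ => Z₀.Ev0 γ ∩ {x | (((γ, x.1), x.2) : (X.P.W × X.P.Lam) × ℝ) ∈ F}
    Ent := D.Ent
    fEnt := D.fEnt
    eLab := D.eLab
    eCtr := D.eCtr
    eRad := D.eRad
    eKind := D.eKind
    eG := D.eG
    ent := fun s γ x => D.ent s ((γ, x.1), x.2) }, ?_, rfl, rfl, fun γ => rfl⟩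
  rfl

end

end Claimed.Agent.R252

end PkPrepParts

section PkPrepH2Opt

/-!
# ROW 252 (S0492), unit PREP, post BP-252-PREP-H2 (helper218): POINTWISE AMBIGUITY OF THE FINEST STATE PER END HISTORY (04 l.802-818).

`kpr2_opt` = the statement of the hub `kpr_opt` of `Prep/Hubs.lean`, with `C = 256`.
Chain:  `kpr2_prod` (product of lists)  ←  `kpr2_ent` (entries: the label is determined by the history, `ent_card`)  +  `kpr2_pt` (point states)
        `kpr2_pt`  ←  bins of `S2s/Api` (`k2s_bin_ball`, `k2s_bin_ball_pi`) for `(t, y)`  +  `kpr2_Xbin` (signal)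
        `kpr2_Xbin`  ←  `kpr2_X_close` (fixed entry: the signal moves by `≤ a_r`)  ←  `kpr_X_err`, `kpr2_eF_lip` (mean value on the ball `eInt e`), `kpr2_unit_dist`  ←  `kpr2_Di` (inverse frame).
-/

set_option autoImplicit false

namespace Claimed.Agent.R252

open MeasureTheory
open scoped ENNReal BigOperators

noncomputable section

variable {v : KbVer}

/-! ## 1. Product of lists -/

open Classical in
/-- product of lists -/
theorem kpr2_prod {R : KsRef v} {K₁ K₂ : ℝ} (x : R.Par × R.Hist)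
    (hE : ∀ s ∈ R.depths, ∃ E : Finset R.Ent, (E.card : ℝ) ≤ K₁ ∧ ∀ p ∈ R.Ev0, R.st p = x → R.ent s p ∈ E)
    (hB : ∀ M ∈ R.meshes, ∀ r ∈ R.widths, ∃ B : Finset (ℤ × (Fin v.j → ℤ) × ℤ), (B.card : ℝ) ≤ K₂ ∧ ∀ p ∈ R.Ev0, R.st p = x → R.pt M r p ∈ B) :
    ∃ F : Finset R.Fine, (F.card : ℝ) ≤ K₁ ^ R.depths.card * K₂ ^ (R.meshes.card * R.widths.card) ∧ ∀ p ∈ R.Ev0, R.st p = x → R.fine p ∈ F := by
  choose E hE1 hE2 using fun s : {s // s ∈ R.depths} => hE s.1 s.2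
  choose B hB1 hB2 using fun m : {M // M ∈ R.meshes} × {r // r ∈ R.widths} => hB m.1.1 m.1.2 m.2.1 m.2.2
  refine ⟨({x.1} : Finset R.Par) ×ˢ (Fintype.piFinset E ×ˢ Fintype.piFinset B), ?_, fun p hp hx => ?_⟩
  · rw [Finset.card_product, Finset.card_product, Finset.card_singleton, one_mul, Fintype.card_piFinset, Fintype.card_piFinset]
    push_cast
    refine mul_le_mul ?_ ?_ (Finset.prod_nonneg fun _ _ => Nat.cast_nonneg _) ?_
    · calc ∏ i, ((E i).card : ℝ) ≤ ∏ _i : {s // s ∈ R.depths}, K₁ := Finset.prod_le_prod (fun i _ => Nat.cast_nonneg _) fun i _ => hE1 i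
        _ = K₁ ^ R.depths.card := by rw [Finset.prod_const, Finset.card_univ, Fintype.card_coe]
    · calc ∏ i, ((B i).card : ℝ) ≤ ∏ _i : {M // M ∈ R.meshes} × {r // r ∈ R.widths}, K₂ := Finset.prod_le_prod (fun i _ => Nat.cast_nonneg _) fun i _ => hB1 i
        _ = K₂ ^ (R.meshes.card * R.widths.card) := by rw [Finset.prod_const, Finset.card_univ, Fintype.card_prod, Fintype.card_coe, Fintype.card_coe]
    · by_cases hne : R.depths.card = 0
      · rw [hne, pow_zero]; exact zero_le_one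
      · obtain ⟨s, hs⟩ := Finset.card_pos.1 (Nat.pos_of_ne_zero hne)
        exact pow_nonneg ((Nat.cast_nonneg _).trans (hE1 ⟨s, hs⟩)) _
  · rw [Finset.mem_product, Finset.mem_product, Finset.mem_singleton, Fintype.mem_piFinset, Fintype.mem_piFinset]
    refine ⟨?_, fun s => hE2 s p hp hx, fun m => hB2 m p hp hx⟩
    rw [← hx]; rfl

/-! ## 2. Entries -/

open Classical in
/-- the label is determined by the history, the entry has `≤ K` values -/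
theorem kpr2_ent {R : KsRef v} {K δ : ℝ} (hL : R.OkLab K) (hE : R.OkEnt K) (hD : R.Deep δ) (x : R.Par × R.Hist) {s : ℝ} (hs : s ∈ R.depths) :
    ∃ E : Finset R.Ent, (E.card : ℝ) ≤ K ∧ ∀ p ∈ R.Ev0, R.st p = x → R.ent s p ∈ E := by
  by_cases hne : ∃ p₀ ∈ R.Ev0, R.st p₀ = x
  · obtain ⟨p₀, hp₀, hx₀⟩ := hne
    refine ⟨Finset.univ.filter fun e => R.eLab e = R.labAt s p₀, ?_, fun p hp hx => ?_⟩
    · have := hE.ent_card (R.labAt s p₀)
      rwa [Set.ncard_eq_toFinset_card', Set.toFinset_ofPred] at this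
    · rw [Finset.mem_filter]
      refine ⟨Finset.mem_univ _, ?_⟩
      have h1 : R.IsLab s p (R.labAt s p₀) := (hD p₀ hp₀ p hp (hx₀.trans hx.symm)).2 s hs _ (hE.lab s hs p₀ hp₀)
      exact kpr_lab_unique hL (hE.lab s hs p hp) h1
  · refine ⟨∅, ?_, fun p hp hx => (hne ⟨p, hp, hx⟩).elim⟩
    rw [Finset.card_empty, Nat.cast_zero]
    exact zero_le_one.trans hL.K_ge

/-! ## 3. The inverse frame, unit coordinates -/

theorem kpr2_adj_one (D : Matrix (Fin 1) (Fin 1) ℝ) (x : Fin 1 → ℝ) : ‖D.adjugate.mulVec x‖ ≤ kbMn D ^ 0 * ‖x‖ := by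
  rw [Matrix.adjugate_fin_one, Matrix.one_mulVec, pow_zero, one_mul]

theorem kpr2_adj_two (D : Matrix (Fin 2) (Fin 2) ℝ) (x : Fin 2 → ℝ) : ‖D.adjugate.mulVec x‖ ≤ kbMn D ^ 1 * ‖x‖ := by
  have h0 : |x 0| ≤ ‖x‖ := norm_le_pi_norm x 0
  have h1 : |x 1| ≤ ‖x‖ := norm_le_pi_norm x 1
  have hM : kbMn D = |D 0 0| + |D 0 1| + (|D 1 0| + |D 1 1|) := by
    unfold kbMn
    rw [Fin.sum_univ_two, Fin.sum_univ_two, Fin.sum_univ_two]
  have hx := norm_nonneg x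
  rw [Matrix.adjugate_fin_two, pow_one, hM, pi_norm_le_iff_of_nonneg (by positivity)]
  intro i
  fin_cases i
  · simp only [Matrix.mulVec, dotProduct, Fin.sum_univ_two, Real.norm_eq_abs]
    simp only [Fin.zero_eta, Fin.isValue, Matrix.of_apply, Matrix.cons_val', Matrix.cons_val_zero, Matrix.cons_val_fin_one, Matrix.cons_val_one]
    calc |D 1 1 * x 0 + -D 0 1 * x 1| ≤ |D 1 1| * |x 0| + |D 0 1| * |x 1| := by
          refine (abs_add_le _ _).trans ?_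
          rw [abs_mul, abs_mul, abs_neg]
      _ ≤ |D 1 1| * ‖x‖ + |D 0 1| * ‖x‖ := by gcongr
      _ ≤ _ := by nlinarith [abs_nonneg (D 0 0), abs_nonneg (D 1 0)]
  · simp only [Matrix.mulVec, dotProduct, Fin.sum_univ_two, Real.norm_eq_abs]
    simp only [Fin.mk_one, Fin.isValue, Matrix.of_apply, Matrix.cons_val', Matrix.cons_val_zero, Matrix.cons_val_fin_one, Matrix.cons_val_one]
    calc |-D 1 0 * x 0 + D 0 0 * x 1| ≤ |D 1 0| * |x 0| + |D 0 0| * |x 1| := by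
          refine (abs_add_le _ _).trans ?_
          rw [abs_mul, abs_mul, abs_neg]
      _ ≤ |D 1 0| * ‖x‖ + |D 0 0| * ‖x‖ := by gcongr
      _ ≤ _ := by nlinarith [abs_nonneg (D 0 1), abs_nonneg (D 1 1)]

/-- the inverse matrix by the adjugate -/
theorem kpr2_inv_bd (D Di : Matrix (Fin v.j) (Fin v.j) ℝ) (h : D * Di = 1) (x : KbB v) :
    ‖Di.mulVec x‖ * |D.det| ≤ kbMn D ^ (v.j - 1) * ‖x‖ := by
  have e1 : D.det • Di = D.adjugate := by
    calc D.det • Di = (D.det • (1 : Matrix (Fin v.j) (Fin v.j) ℝ)) * Di := by rw [Matrix.smul_mul, Matrix.one_mul]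
      _ = D.adjugate * D * Di := by rw [Matrix.adjugate_mul]
      _ = D.adjugate := by rw [Matrix.mul_assoc, h, Matrix.mul_one]
  have e2 : ‖Di.mulVec x‖ * |D.det| = ‖D.adjugate.mulVec x‖ := by
    rw [← e1, Matrix.smul_mulVec, norm_smul, Real.norm_eq_abs, mul_comm]
  rw [e2]
  cases v
  · exact kpr2_adj_one D x
  · exact kpr2_adj_two D x

theorem kpr2_a_pos {R : KsRef v} {K : ℝ} (hL : R.OkLab K) (s : ℝ) : 0 < R.a s :=
  Real.rpow_pos_of_pos (by linarith [hL.N_ge]) _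

theorem kpr2_g_le {R : KsRef v} {K : ℝ} (hL : R.OkLab K) (Q : R.Lab) : R.a (R.ell * R.dep Q) ≤ 1 := by
  unfold KsRef.a
  refine Real.rpow_le_one_of_one_le_of_nonpos (by linarith [hL.N_ge]) ?_
  have := mul_nonneg hL.prm.ell_nonneg (hL.dep_nonneg Q)
  linarith

/-- the inverse frame has size `≤ K² / (q g)` -/
theorem kpr2_Di {R : KsRef v} {K : ℝ} (hL : R.OkLab K) (Q : R.Lab) (x : KbB v) :
    ‖(R.ch Q).Di.mulVec x‖ * (R.q Q * R.a (R.ell * R.dep Q)) ≤ K ^ 2 * ‖x‖ := by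
  have hK := hL.K_ge
  have hq : 0 < R.q Q := ksl8_q_pos R Q
  have hg : 0 < R.a (R.ell * R.dep Q) := kpr2_a_pos hL _
  have h1 : ‖(R.ch Q).Di.mulVec x‖ * R.J Q ≤ kbMn (R.ch Q).D ^ (v.j - 1) * ‖x‖ := kpr2_inv_bd _ _ (hL.inv Q) x
  have h2 := hL.J_lo Q
  have h3 := hL.D_hi Q
  have hM : 0 ≤ kbMn (R.ch Q).D := Finset.sum_nonneg fun _ _ => Finset.sum_nonneg fun _ _ => abs_nonneg _
  have hn := norm_nonneg ((R.ch Q).Di.mulVec x)
  have hx := norm_nonneg x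
  set n := ‖(R.ch Q).Di.mulVec x‖
  set g := R.a (R.ell * R.dep Q)
  set q := R.q Q
  have h4 : n * (q ^ v.j * g) ≤ K * (kbMn (R.ch Q).D ^ (v.j - 1) * ‖x‖) :=
    calc n * (q ^ v.j * g) ≤ n * (K * R.J Q) := by gcongr
      _ = K * (n * R.J Q) := by ring
      _ ≤ _ := by gcongr
  cases v
  · have h5 : n * (q ^ 1 * g) ≤ K * (kbMn (R.ch Q).D ^ 0 * ‖x‖) := h4
    rw [pow_one, pow_zero, one_mul] at h5
    refine h5.trans ?_
    have : K ≤ K ^ 2 := by nlinarith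
    gcongr
  · have h5 : n * (q ^ 2 * g) ≤ K * (kbMn (R.ch Q).D ^ 1 * ‖x‖) := h4
    rw [pow_one] at h5
    have h6 : q * (n * (q * g)) ≤ q * (K ^ 2 * ‖x‖) :=
      calc q * (n * (q * g)) = n * (q ^ 2 * g) := by ring
        _ ≤ K * (kbMn (R.ch Q).D * ‖x‖) := h5
        _ ≤ K * ((K * q) * ‖x‖) := by gcongr
        _ = q * (K ^ 2 * ‖x‖) := by ring
    exact le_of_mul_le_mul_left h6 hq

/-- unit coordinates are Lipschitz with the constant `2 K³ / (q g)` -/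
theorem kpr2_unit_dist {R : KsRef v} {K : ℝ} (hL : R.OkLab K) (Q : R.Lab) (z z' : ℝ × KbB v) :
    dist (R.unit Q z) (R.unit Q z') * (R.q Q * R.a (R.ell * R.dep Q)) ≤ 2 * K ^ 3 * dist z z' := by
  have hK := hL.K_ge
  have hq : 0 < R.q Q := ksl8_q_pos R Q
  have hg : 0 < R.a (R.ell * R.dep Q) := kpr2_a_pos hL _
  have hg1 := kpr2_g_le hL Q
  have hd : 0 ≤ dist z z' := dist_nonneg
  have d1 : |z.1 - z'.1| ≤ dist z z' := by
    rw [← Real.dist_eq]; exact le_max_left _ _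
  have d2 : ‖z.2 - z'.2‖ ≤ dist z z' := by
    rw [← dist_eq_norm]; exact le_max_right _ _
  have hK3 : 1 ≤ K ^ 3 := one_le_pow₀ hK
  rw [Prod.dist_eq, max_mul_of_nonneg _ _ (by positivity)]
  refine max_le ?_ ?_
  · have e : dist (R.unit Q z).1 (R.unit Q z').1 = |z.1 - z'.1| / R.q Q := by
      unfold KsRef.unit
      rw [Real.dist_eq, ← sub_div, abs_div, abs_of_pos hq]
      congr 2
      ring
    rw [e]
    calc |z.1 - z'.1| / R.q Q * (R.q Q * R.a (R.ell * R.dep Q)) = |z.1 - z'.1| * R.a (R.ell * R.dep Q) := by field_simp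
      _ ≤ dist z z' * 1 := by gcongr
      _ ≤ 2 * K ^ 3 * dist z z' := by nlinarith
  · have e : dist (R.unit Q z).2 (R.unit Q z').2 = ‖(R.ch Q).Di.mulVec ((z.2 - z'.2) - (z.1 - z'.1) • (R.ch Q).y1)‖ := by
      unfold KsRef.unit KbChart.yc
      rw [dist_eq_norm, ← Matrix.mulVec_sub]
      congr 2
      rw [sub_smul]
      abel
    rw [e]
    refine (kpr2_Di hL Q _).trans ?_
    have h1 : ‖(z.2 - z'.2) - (z.1 - z'.1) • (R.ch Q).y1‖ ≤ dist z z' + dist z z' * K := by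
      refine (norm_sub_le _ _).trans ?_
      rw [norm_smul, Real.norm_eq_abs]
      have := hL.cen Q
      gcongr
    calc K ^ 2 * ‖(z.2 - z'.2) - (z.1 - z'.1) • (R.ch Q).y1‖ ≤ K ^ 2 * (dist z z' + dist z z' * K) := by gcongr
      _ ≤ 2 * K ^ 3 * dist z z' := by nlinarith [mul_nonneg (mul_nonneg (sq_nonneg K) hd) (sub_nonneg.2 hK)]

/-! ## 4. The signal for a fixed entry -/

/-- mean value inequality on the used interior -/
theorem kpr2_eF_lip {R : KsRef v} {K : ℝ} (hE : R.OkEnt K) (hord : 1 ≤ R.ord) (e : R.Ent) {u u' : ℝ × KbB v} (hu : u ∈ R.eInt e) (hu' : u' ∈ R.eInt e) :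
    |R.eF e u - R.eF e u'| ≤ K * dist u u' := by
  have hdiff : ∀ x ∈ R.eInt e, DifferentiableAt ℝ (R.eF e) x := fun x hx =>
    ((hE.ent_smooth e).contDiffAt (Metric.isOpen_ball.mem_nhds hx)).differentiableAt (by
      have : (1 : WithTop ℕ∞) ≤ (R.ord : WithTop ℕ∞) := by exact_mod_cast hord
      exact (zero_lt_one.trans_le this).ne')
  have hbd : ∀ x ∈ R.eInt e, ‖fderiv ℝ (R.eF e) x‖ ≤ K := fun x hx => by
    rw [← norm_iteratedFDeriv_one]
    exact hE.ent_der e x hx 1 hord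
  have := Convex.norm_image_sub_le_of_norm_fderiv_le hdiff hbd (convex_ball _ _) hu' hu
  rwa [Real.norm_eq_abs, ← dist_eq_norm] at this

/-- for a FIXED entry the signal moves by `≤ ρ` inside one end history -/
theorem kpr2_X_close {R : KsRef v} {K δ ρ : ℝ} (hL : R.OkLab K) (hE : R.OkEnt K) (hD : R.Deep δ) (hord : 1 ≤ R.ord) {s : ℝ} (hs : s ∈ R.depths)
    (h1 : 8 * K ^ 3 * R.a s ≤ ρ) (h2 : ∀ Q, 8 * K ^ 4 * δ ≤ R.q Q * R.a (R.ell * R.dep Q) * ρ)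
    {p p' : R.L × ℝ} (hp : p ∈ R.Ev0) (hp' : p' ∈ R.Ev0) (hst : R.st p = R.st p') (he : R.ent s p = R.ent s p') :
    |R.X p.1 p.2 - R.X p'.1 p'.2| ≤ ρ := by
  have hK := hL.K_ge
  set e := R.ent s p with hedef
  set Q := R.eLab e with hQdef
  have hq : 0 < R.q Q := ksl8_q_pos R Q
  have hg : 0 < R.a (R.ell * R.dep Q) := kpr2_a_pos hL _
  have hrad : 0 < R.eRad e := by
    have := hE.ent_rad e
    by_contra hc
    have : K * R.eRad e ≤ 0 := mul_nonpos_of_nonneg_of_nonpos (by linarith) (not_lt.1 hc)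
    linarith
  have x1 : |R.X p.1 p.2 - R.eF e (R.unit Q (R.base p))| ≤ 2 * K ^ 3 * R.a s := kpr_X_err hL hE hs hp
  have x2 : |R.X p'.1 p'.2 - R.eF e (R.unit Q (R.base p'))| ≤ 2 * K ^ 3 * R.a s := by
    have := kpr_X_err hL hE hs hp'
    unfold KsRef.labAt at this
    rwa [← he] at this
  have u1 : R.unit Q (R.base p) ∈ R.eInt e := by
    have := ((hE.ent_cov s hs p hp).1).2
    have h3 : dist (R.unit Q (R.base p)) (R.eCtr e) ≤ R.eRad e := this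
    exact Metric.mem_ball.2 (by linarith)
  have u2 : R.unit Q (R.base p') ∈ R.eInt e := by
    have := ((hE.ent_cov s hs p' hp').1).2
    rw [← he] at this
    have h3 : dist (R.unit Q (R.base p')) (R.eCtr e) ≤ R.eRad e := this
    exact Metric.mem_ball.2 (by linarith)
  have l1 := kpr2_eF_lip hE hord e u1 u2
  have l2 := kpr2_unit_dist hL Q (R.base p) (R.base p')
  have l3 : dist (R.base p) (R.base p') ≤ δ := (hD p hp p' hp' hst).1
  have l4 : K * dist (R.unit Q (R.base p)) (R.unit Q (R.base p')) ≤ ρ / 2 := by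
    have hpos : 0 < R.q Q * R.a (R.ell * R.dep Q) := mul_pos hq hg
    have : (K * dist (R.unit Q (R.base p)) (R.unit Q (R.base p'))) * (R.q Q * R.a (R.ell * R.dep Q)) ≤ ρ / 2 * (R.q Q * R.a (R.ell * R.dep Q)) :=
      calc (K * dist (R.unit Q (R.base p)) (R.unit Q (R.base p'))) * (R.q Q * R.a (R.ell * R.dep Q))
          = K * (dist (R.unit Q (R.base p)) (R.unit Q (R.base p')) * (R.q Q * R.a (R.ell * R.dep Q))) := by ring
        _ ≤ K * (2 * K ^ 3 * dist (R.base p) (R.base p')) := by gcongr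
        _ ≤ K * (2 * K ^ 3 * δ) := by gcongr
        _ = (8 * K ^ 4 * δ) / 4 := by ring
        _ ≤ (R.q Q * R.a (R.ell * R.dep Q) * ρ) / 4 := by have := h2 Q; gcongr
        _ ≤ ρ / 2 * (R.q Q * R.a (R.ell * R.dep Q)) := by
          have hρ : 0 ≤ ρ := le_trans (by have := kpr2_a_pos hL s; positivity) h1
          nlinarith [mul_nonneg hpos.le hρ]
    exact le_of_mul_le_mul_right this hpos
  have tri : |R.X p.1 p.2 - R.X p'.1 p'.2| ≤ |R.X p.1 p.2 - R.eF e (R.unit Q (R.base p))| + |R.eF e (R.unit Q (R.base p)) - R.eF e (R.unit Q (R.base p'))|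
      + |R.X p'.1 p'.2 - R.eF e (R.unit Q (R.base p'))| := by
    rw [abs_sub_comm (R.X p'.1 p'.2)]
    have t1 := abs_sub_le (R.X p.1 p.2) (R.eF e (R.unit Q (R.base p))) (R.X p'.1 p'.2)
    have t2 := abs_sub_le (R.eF e (R.unit Q (R.base p))) (R.eF e (R.unit Q (R.base p'))) (R.X p'.1 p'.2)
    linarith
  linarith

/-! ## 5. Bins -/

open Classical in
/-- the bins of the signal: `≤ 4` per entry -/
theorem kpr2_Xbin {R : KsRef v} {K δ : ℝ} (hL : R.OkLab K) (hE : R.OkEnt K) (hD : R.Deep δ) (hord : 1 ≤ R.ord) (x : R.Par × R.Hist) {s r : ℝ} (hs : s ∈ R.depths)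
    (h1 : 8 * K ^ 3 * R.a s ≤ R.a r) (h2 : ∀ Q, 8 * K ^ 4 * δ ≤ R.q Q * R.a (R.ell * R.dep Q) * R.a r) :
    ∃ B : Finset ℤ, (B.card : ℝ) ≤ 4 * K ∧ ∀ p ∈ R.Ev0, R.st p = x → kbBin (R.a r) (R.X p.1 p.2) ∈ B := by
  obtain ⟨E, hE1, hE2⟩ := kpr2_ent hL hE hD x hs
  have har := kpr2_a_pos hL r
  have key : ∀ e : R.Ent, ∃ S : Finset ℤ, (S.card : ℝ) ≤ 4 ∧ ∀ p ∈ R.Ev0, R.st p = x → R.ent s p = e → kbBin (R.a r) (R.X p.1 p.2) ∈ S := by
    intro e
    by_cases hne : ∃ p₀ ∈ R.Ev0, R.st p₀ = x ∧ R.ent s p₀ = e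
    · obtain ⟨p₀, hp₀, hx₀, he₀⟩ := hne
      obtain ⟨S, hS1, hS2⟩ := k2s_bin_ball har har.le (R.X p₀.1 p₀.2)
      refine ⟨S, hS1.trans (le_of_eq ?_), fun p hp hx he => hS2 _ ?_⟩
      · field_simp; norm_num
      · exact kpr2_X_close hL hE hD hord hs h1 h2 hp hp₀ (hx.trans hx₀.symm) (he.trans he₀.symm)
    · exact ⟨∅, by simp, fun p hp hx he => (hne ⟨p, hp, hx, he⟩).elim⟩
  choose S hS1 hS2 using key
  refine ⟨E.biUnion S, ?_, fun p hp hx => Finset.mem_biUnion.2 ⟨R.ent s p, hE2 p hp hx, hS2 _ p hp hx rfl⟩⟩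
  calc ((E.biUnion S).card : ℝ) ≤ ((∑ e ∈ E, (S e).card : ℕ) : ℝ) := by exact_mod_cast Finset.card_biUnion_le
    _ = ∑ e ∈ E, ((S e).card : ℝ) := by push_cast; rfl
    _ ≤ ∑ _e ∈ E, (4 : ℝ) := Finset.sum_le_sum fun e _ => hS1 e
    _ = 4 * (E.card : ℝ) := by rw [Finset.sum_const, nsmul_eq_mul, mul_comm]
    _ ≤ 4 * K := by gcongr

/-- the point states -/
theorem kpr2_pt {R : KsRef v} {K δ : ℝ} (hL : R.OkLab K) (hE : R.OkEnt K) (hD : R.Deep δ) (hord : 1 ≤ R.ord) (x : R.Par × R.Hist) {s r M : ℝ} (hs : s ∈ R.depths)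
    (h1 : 8 * K ^ 3 * R.a s ≤ R.a r) (h2 : ∀ Q, 8 * K ^ 4 * δ ≤ R.q Q * R.a (R.ell * R.dep Q) * R.a r) (h3 : δ ≤ R.a M) :
    ∃ B : Finset (ℤ × (Fin v.j → ℤ) × ℤ), (B.card : ℝ) ≤ 256 * K ∧ ∀ p ∈ R.Ev0, R.st p = x → R.pt M r p ∈ B := by
  have hK := hL.K_ge
  by_cases hne : ∃ p₀ ∈ R.Ev0, R.st p₀ = x
  · obtain ⟨p₀, hp₀, hx₀⟩ := hne
    have haM := kpr2_a_pos hL M
    obtain ⟨B3, hB3, hB3'⟩ := kpr2_Xbin hL hE hD hord x hs h1 h2
    obtain ⟨B1, hB1, hB1'⟩ := k2s_bin_ball haM haM.le p₀.2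
    obtain ⟨B2, hB2, hB2'⟩ := k2s_bin_ball_pi haM haM.le (R.y p₀.1 p₀.2)
    have e4 : 2 * R.a M / R.a M + 2 = 4 := by field_simp; norm_num
    rw [e4] at hB1 hB2
    have hj : (4 : ℝ) ^ v.j ≤ 16 := by cases v <;> norm_num [KbVer.j]
    refine ⟨B1 ×ˢ (B2 ×ˢ B3), ?_, fun p hp hx => ?_⟩
    · rw [Finset.card_product, Finset.card_product]
      push_cast
      calc (B1.card : ℝ) * ((B2.card : ℝ) * (B3.card : ℝ)) ≤ 4 * (16 * (4 * K)) := by
            have := hB2.trans hj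
            gcongr
        _ = 256 * K := by ring
    · have hd : dist (R.base p) (R.base p₀) ≤ R.a M := ((hD p hp p₀ hp₀ (hx.trans hx₀.symm)).1).trans h3
      rw [Finset.mem_product, Finset.mem_product]
      refine ⟨hB1' _ ?_, hB2' _ ?_, hB3' p hp hx⟩
      · rw [← Real.dist_eq]; exact (le_max_left _ _).trans hd
      · rw [← dist_eq_norm]; exact (le_max_right _ _).trans hd
  · exact ⟨∅, by simp; positivity, fun p hp hx => (hne ⟨p, hp, hx⟩).elim⟩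

/-! ## 6. The hub -/

/-- **HUB H2** with `C = 256` -/
theorem kpr2_opt (R : KsRef v) (K δ : ℝ) (hL : R.OkLab K) (hE : R.OkEnt K) (hD : R.Deep δ) (hord : 1 ≤ R.ord)
    (hW : ∀ r ∈ R.widths, ∃ s ∈ R.depths, ((256 : ℕ) : ℝ) * K ^ 256 * R.a s ≤ R.a r) (hM : ∀ M ∈ R.meshes, δ ≤ R.a M)
    (hQ : ∀ Q, ∀ r ∈ R.widths, ((256 : ℕ) : ℝ) * K ^ 256 * δ ≤ R.q Q * R.a (R.ell * R.dep Q) * R.a r) :
    R.OptP ((((256 : ℕ) : ℝ) * K) ^ (R.depths.card + R.meshes.card * R.widths.card)) := by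
  have hK := hL.K_ge
  intro x
  by_cases hne : ∃ p₀ ∈ R.Ev0, R.st p₀ = x
  · obtain ⟨p₀, hp₀, -⟩ := hne
    have hδ : 0 ≤ δ := by
      have := (hD p₀ hp₀ p₀ hp₀ rfl).1
      rwa [dist_self] at this
    have k3 : 8 * K ^ 3 ≤ ((256 : ℕ) : ℝ) * K ^ 256 := by
      have : K ^ 3 ≤ K ^ 256 := pow_le_pow_right₀ hK (by norm_num)
      push_cast
      nlinarith [pow_pos (zero_lt_one.trans_le hK) 3]
    have k4 : 8 * K ^ 4 ≤ ((256 : ℕ) : ℝ) * K ^ 256 := by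
      have : K ^ 4 ≤ K ^ 256 := pow_le_pow_right₀ hK (by norm_num)
      push_cast
      nlinarith [pow_pos (zero_lt_one.trans_le hK) 4]
    obtain ⟨F, hF1, hF2⟩ := kpr2_prod (K₁ := K) (K₂ := 256 * K) x (fun s hs => kpr2_ent hL hE hD x hs) (fun M hMm r hr => by
      obtain ⟨s, hs, hsr⟩ := hW r hr
      refine kpr2_pt hL hE hD hord x hs ?_ (fun Q => ?_) (hM M hMm)
      · exact (mul_le_mul_of_nonneg_right k3 (kpr2_a_pos hL s).le).trans hsr
      · exact (mul_le_mul_of_nonneg_right k4 hδ).trans (hQ Q r hr))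
    refine ⟨F, hF1.trans ?_, hF2⟩
    rw [pow_add]
    push_cast
    have : K ≤ 256 * K := by linarith
    gcongr
  · refine ⟨∅, ?_, fun p hp hx => (hne ⟨p, hp, hx⟩).elim⟩
    rw [Finset.card_empty, Nat.cast_zero]
    positivity

end

end Claimed.Agent.R252

end PkPrepH2Opt

section PkPrepH3Joint

/-!
# ROW 252 (S0492), unit PREP, hub H3 (post BP-252-PREP-H3, helper43; prefix `kpr3_`): JOINT CAPS AT THE POINT STATES.

`kpr3_joint` = `kpr_joint` verbatim.   For every `(M, r)`: `ksc_step` with `s = st`, `d = pt M r`, `C (x, c) = (x.1, c)`, threshold `K₁`; `F` = intersection of the kept sets;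
the pre-omission mass of `(A, c)` is `≤ K a_r^d p_A (2 a_M)^{j+1}` by `capX` (constant offset = centre of the bin).
-/

set_option autoImplicit false

namespace Claimed.Agent.R252

open MeasureTheory
open scoped ENNReal BigOperators

noncomputable section

variable {v : KbVer}

/-! ## 1. Measurability of the labels -/

theorem kpr3_X_cont (T : KbTest v) (hT : KbIsQuad T) : Continuous fun x : KbTj v × ℝ => kbX T x.1 x.2 := by
  obtain ⟨Q, hQ⟩ := hT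
  have h : (fun x : KbTj v × ℝ => kbX T x.1 x.2) = fun x : KbTj v × ℝ => Q.ev x.2 (kbY x.1 x.2) (kbW x.1 x.2) := by
    funext x
    exact hQ _ _ _
  rw [h]
  have hY : Continuous fun x : KbTj v × ℝ => kbY x.1 x.2 := by
    unfold kbY
    fun_prop
  have hW : Continuous fun x : KbTj v × ℝ => kbW x.1 x.2 := by
    unfold kbW
    fun_prop
  have ht : Continuous fun x : KbTj v × ℝ => x.2 := continuous_snd
  unfold KbQuad.ev
  have d1 : ∀ u : KbB v, Continuous fun x : KbTj v × ℝ => u ⬝ᵥ kbY x.1 x.2 := fun u => continuous_const.dotProduct hY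
  have d2 : Continuous fun x : KbTj v × ℝ => kbY x.1 x.2 ⬝ᵥ Q.cyy.mulVec (kbY x.1 x.2) := hY.dotProduct (continuous_const.matrix_mulVec hY)
  exact (((((((((continuous_const.add (continuous_const.mul ht)).add (d1 _)).add (continuous_const.mul hW)).add (continuous_const.mul (ht.pow 2))).add (ht.mul (d1 _))).add
    ((continuous_const.mul ht).mul hW)).add d2).add (hW.mul (d1 _))).add (continuous_const.mul (hW.pow 2)))

theorem kpr3_lab_par {R : KsRef v} {K : ℝ} (h : R.OkLab K) : KsLab (fun p : R.L × ℝ => R.par p.1) := fun A =>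
  measurable_fst (h.m_par A)

theorem kpr3_lab_st {R : KsRef v} {K : ℝ} (h : R.OkLab K) : KsLab R.st :=
  ks_lab_pair (kpr3_lab_par h) h.m_hist

theorem kpr3_co_meas {R : KsRef v} {K : ℝ} (h : R.OkLab K) : Measurable fun p : R.L × ℝ => ((R.co p.1, p.2) : KbTj v × ℝ) :=
  (h.m_co.comp measurable_fst).prodMk measurable_snd

theorem kpr3_base_meas {R : KsRef v} {K : ℝ} (h : R.OkLab K) : Measurable R.base := by
  have hY : Continuous fun x : KbTj v × ℝ => ((x.2, kbY x.1 x.2) : ℝ × KbB v) := by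
    unfold kbY
    fun_prop
  exact hY.measurable.comp (kpr3_co_meas h)

/-- events of the native signal -/
theorem kpr3_X_meas {R : KsRef v} {K : ℝ} (h : R.OkLab K) (S : Set ℝ) (hS : MeasurableSet S) : MeasurableSet {p : R.L × ℝ | R.X p.1 p.2 ∈ S} := by
  have e : {p : R.L × ℝ | R.X p.1 p.2 ∈ S} = ⋃ A : R.Par, ({p : R.L × ℝ | R.par p.1 = A} ∩ {p : R.L × ℝ | kbX (R.nat A) (R.co p.1) p.2 ∈ S}) := by
    ext p
    simp only [Set.mem_iUnion, Set.mem_inter_iff]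
    constructor
    · intro hp
      exact ⟨R.par p.1, rfl, hp⟩
    · rintro ⟨A, hA, hp⟩
      have hA' : R.par p.1 = A := hA
      show kbX (R.nat (R.par p.1)) (R.co p.1) p.2 ∈ S
      rw [hA']
      exact hp
  rw [e]
  refine MeasurableSet.iUnion fun A => (kpr3_lab_par h A).inter ?_
  exact ((kpr3_X_cont (R.nat A) (h.nat_adm A).1).measurable.comp (kpr3_co_meas h)) hS

/-- the cell of the base -/
def kpr3Cell (wd : ℝ) (c : ℤ × (Fin v.j → ℤ)) : Set (ℝ × KbB v) := {z | kbBin wd z.1 = c.1 ∧ ∀ i, kbBin wd (z.2 i) = c.2 i}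

theorem kpr3Cell_eqns_cite : True := by
  have := @kpr3Cell.eq_1
  trivial

theorem kpr3_cell_eq (wd : ℝ) (c : ℤ × (Fin v.j → ℤ)) :
    kpr3Cell wd c = Set.Ico ((c.1 : ℝ) * kbDy wd) (((c.1 : ℝ) + 1) * kbDy wd) ×ˢ
      Set.pi Set.univ fun i => Set.Ico ((c.2 i : ℝ) * kbDy wd) (((c.2 i : ℝ) + 1) * kbDy wd) := by
  ext z
  simp only [kpr3Cell, Set.mem_prod, Set.mem_pi, Set.mem_univ, true_imp_iff, Set.mem_Ico, k2s_bin_iff]
  rfl

theorem kpr3_cell_meas (wd : ℝ) (c : ℤ × (Fin v.j → ℤ)) : MeasurableSet (kpr3Cell wd c) := by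
  rw [kpr3_cell_eq]
  exact measurableSet_Ico.prod (MeasurableSet.univ_pi fun _ => measurableSet_Ico)

theorem kpr3_cell_vol {wd : ℝ} (hwd : 0 < wd) (c : ℤ × (Fin v.j → ℤ)) : volume (kpr3Cell wd c) ≤ ENNReal.ofReal ((2 * wd) ^ (v.j + 1)) := by
  rw [kpr3_cell_eq, Measure.volume_eq_prod, Measure.prod_prod, Real.volume_Ico, Real.volume_pi_Ico]
  have e : ∀ x : ℝ, (x + 1) * kbDy wd - x * kbDy wd = kbDy wd := fun x => by ring
  simp only [e, Finset.prod_const, Finset.card_univ, Fintype.card_fin]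
  rw [← ENNReal.ofReal_pow (k2s_dy_pos wd).le, ← ENNReal.ofReal_mul (k2s_dy_pos wd).le]
  refine ENNReal.ofReal_le_ofReal ?_
  rw [← pow_succ']
  exact pow_le_pow_left₀ (k2s_dy_pos wd).le (k2s_dy_lt hwd).le _

theorem kpr3_pt_pre (R : KsRef v) (M r : ℝ) (c : ℤ × (Fin v.j → ℤ) × ℤ) :
    R.pt M r ⁻¹' {c} = R.base ⁻¹' kpr3Cell (R.a M) (c.1, c.2.1) ∩ {p : R.L × ℝ | R.X p.1 p.2 ∈ kbBin (R.a r) ⁻¹' {c.2.2}} := by
  ext p
  simp only [Set.mem_preimage, Set.mem_singleton_iff, Set.mem_inter_iff, KsRef.pt, Prod.ext_iff, funext_iff]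
  constructor
  · rintro ⟨h1, h2, h3⟩
    exact ⟨⟨h1, h2⟩, h3⟩
  · rintro ⟨⟨h1, h2⟩, h3⟩
    exact ⟨h1, h2, h3⟩

theorem kpr3_lab_pt {R : KsRef v} {K : ℝ} (h : R.OkLab K) (M r : ℝ) : KsLab (R.pt M r) := by
  intro c
  rw [kpr3_pt_pre]
  exact (kpr3_base_meas h (kpr3_cell_meas _ _)).inter (kpr3_X_meas h _ (k2s_bin_meas _ (measurableSet_singleton _)))

/-! ## 2. Budgets -/

theorem kpr3_a_pos {R : KsRef v} {K : ℝ} (h : R.OkLab K) (s : ℝ) : 0 < R.a s :=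
  Real.rpow_pos_of_pos (by linarith [h.N_ge]) _

theorem kpr3_pA_sum {R : KsRef v} {K : ℝ} (h : R.OkLab K) : ∑ A, R.pA A = 1 := by
  have h1 := ks_mass_sum R.ν h.m_par
  have := h.prob
  rw [measure_univ] at h1
  exact h1

theorem kpr3_ref_sum {R : KsRef v} {K : ℝ} (h : R.OkLab K) : ∑' x, R.ref x ≤ ENNReal.ofReal K := by
  rw [tsum_fintype, Fintype.sum_prod_type]
  calc ∑ A, ∑ hh, R.ref (A, hh) ≤ ∑ A, ENNReal.ofReal K * R.pA A := Finset.sum_le_sum fun A _ => h.ref_par A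
    _ = ENNReal.ofReal K := by rw [← Finset.mul_sum, kpr3_pA_sum h, mul_one]

/-- the pre-omission mass of a point state -/
theorem kpr3_mass {R : KsRef v} {K : ℝ} (h : R.OkLab K) (M : ℝ) {r : ℝ} (hr : r ∈ R.widths) (A : R.Par) (c : ℤ × (Fin v.j → ℤ) × ℤ) :
    R.lam0 {p | R.par p.1 = A ∧ R.pt M r p = c}
      ≤ ENNReal.ofReal K * ENNReal.ofReal (R.a r ^ R.d) * R.pA A * ENNReal.ofReal ((2 * R.a M) ^ (v.j + 1)) := by
  have h1 := h.capX r hr A (kpr3Cell (R.a M) (c.1, c.2.1)) (fun _ => ((c.2.2 : ℝ) + 1 / 2) * kbDy (R.a r)) (kpr3_cell_meas _ _) measurable_const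
  refine (measure_mono ?_).trans (h1.trans (mul_le_mul' le_rfl (kpr3_cell_vol (kpr3_a_pos h M) _)))
  rintro p ⟨hA, hp⟩
  have hp' : p ∈ R.pt M r ⁻¹' {c} := hp
  rw [kpr3_pt_pre] at hp'
  refine ⟨hA, hp'.1, ?_⟩
  have h3 : kbBin (R.a r) (R.X p.1 p.2) = c.2.2 := hp'.2
  have h4 := (k2s_bin_iff _ _ _).1 h3
  have h5 := k2s_dy_lt (kpr3_a_pos h r)
  rw [abs_le]
  constructor <;> nlinarith [h4.1, h4.2]

/-! ## 3. One pair `(M, r)` -/

/-- the kept set of the pair `(M, r)` -/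
def kpr3Keep (R : KsRef v) (K₁ M r : ℝ) : Set (R.L × ℝ) :=
  ksPair R.st (R.pt M r) ⁻¹' ksKeep R.lam0 (ksPair R.st (R.pt M r)) (fun x => R.ref x.1) (ENNReal.ofReal K₁)

theorem kpr3Keep_eqns_cite : True := by
  have := @kpr3Keep.eq_1
  trivial

theorem kpr3_keep_meas {R : KsRef v} {K : ℝ} (h : R.OkLab K) (K₁ M r : ℝ) : MeasurableSet (kpr3Keep R K₁ M r) :=
  ksc_lab_preimage (ks_lab_pair (kpr3_lab_st h) (kpr3_lab_pt h M r)) _

theorem kpr3_one {R : KsRef v} {K : ℝ} (h : R.OkLab K) (hO : R.OptP K) (K₁ : ℝ) {M r : ℝ} (hM : M ∈ R.meshes) (hr : r ∈ R.widths) :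
    ENNReal.ofReal K₁ * R.prior (R.Ev0 \ kpr3Keep R K₁ M r) ≤ ENNReal.ofReal (K ^ 2) ∧
    ∀ A c b, R.lam0.restrict (kpr3Keep R K₁ M r) {p | R.par p.1 = A ∧ R.pt M r p = c ∧ R.vbin p.1 = b}
      ≤ ENNReal.ofReal K * ENNReal.ofReal K₁ * R.pi A b * R.lam0 {p | R.par p.1 = A ∧ R.pt M r p = c} := by
  have hK0 : 0 ≤ K := by linarith [h.K_ge]
  obtain ⟨n, hn, hopt⟩ := (kpr_opt_of_optP hK0 h.m_Ev0 hO).1 M hM r hr
  obtain ⟨g1, g2⟩ := ksc_step (kpr3_lab_st h) (kpr3_lab_pt h M r) h.dom (ENNReal.ofReal K₁) n hopt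
    (fun x : (R.Par × R.Hist) × (ℤ × (Fin v.j → ℤ) × ℤ) => (x.1.1, x.2)) (fun x b => R.pi x.1 b) (fun _ _ => le_rfl)
  constructor
  · have e1 : R.prior (R.Ev0 \ kpr3Keep R K₁ M r) = R.lam0 (ksPair R.st (R.pt M r) ⁻¹' (ksKeep R.lam0 (ksPair R.st (R.pt M r)) (fun x => R.ref x.1) (ENNReal.ofReal K₁))ᶜ) := by
      show _ = (R.prior.restrict R.Ev0) _
      rw [Measure.restrict_apply' h.m_Ev0, Set.preimage_compl, Set.inter_comm]
      rfl
    rw [e1]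
    refine g2.trans ?_
    calc (n : ℝ≥0∞) * ∑' x, R.ref x ≤ ENNReal.ofReal K * ENNReal.ofReal K := by
          refine mul_le_mul' ?_ (kpr3_ref_sum h)
          rw [← ENNReal.ofReal_natCast]
          exact ENNReal.ofReal_le_ofReal hn
      _ = ENNReal.ofReal (K ^ 2) := by rw [← ENNReal.ofReal_mul hK0, sq]
  · intro A c b
    have g3 := g1 (A, c) b
    have e2 : ((fun x : (R.Par × R.Hist) × (ℤ × (Fin v.j → ℤ) × ℤ) => (x.1.1, x.2)) ∘ ksPair R.st (R.pt M r)) ⁻¹' {(A, c)}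
        = {p | R.par p.1 = A ∧ R.pt M r p = c} := by
      ext p
      simp only [Set.mem_preimage, Function.comp_apply, Set.mem_singleton_iff, Prod.ext_iff]
      rfl
    have e3 : {p : R.L × ℝ | R.par p.1 = A ∧ R.pt M r p = c ∧ R.vbin p.1 = b} = {p | R.par p.1 = A ∧ R.pt M r p = c} ∩ R.vT b := by
      ext p
      constructor
      · rintro ⟨a1, a2, a3⟩
        exact ⟨⟨a1, a2⟩, a3⟩
      · rintro ⟨⟨a1, a2⟩, a3⟩
        exact ⟨a1, a2, a3⟩
    unfold ksMass at g3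
    rw [e2] at g3
    rw [e3]
    exact g3

/-! ## 4. The hub -/

theorem kpr3_joint (v : KbVer) : ∃ C : ℕ, ∀ (R : KsRef v) (K K₁ : ℝ), R.OkLab K → R.OptP K → 1 ≤ K₁ →
    ∃ F : Set (R.L × ℝ), MeasurableSet F ∧ ENNReal.ofReal K₁ * R.prior (R.Ev0 \ F) ≤ ENNReal.ofReal (C * K ^ C) * (R.meshes.card * R.widths.card : ℕ) ∧
      (R.cut F).OkJoint (C * K ^ C * K₁) := by
  refine ⟨2 ^ (v.j + 1), fun R K K₁ h hO hK₁ => ?_⟩
  have hK1 : 1 ≤ K := h.K_ge
  have hK0 : 0 ≤ K := by linarith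
  have hC2 : 2 ≤ 2 ^ (v.j + 1) := by
    calc 2 = 2 ^ 1 := (pow_one 2).symm
      _ ≤ 2 ^ (v.j + 1) := Nat.pow_le_pow_right (by norm_num) (by omega)
  have hKC : K ^ 2 ≤ K ^ (2 ^ (v.j + 1)) := pow_le_pow_right₀ hK1 hC2
  have hCK : K ^ 2 ≤ ((2 ^ (v.j + 1) : ℕ) : ℝ) * K ^ (2 ^ (v.j + 1)) := by
    have : (1 : ℝ) ≤ ((2 ^ (v.j + 1) : ℕ) : ℝ) := by exact_mod_cast (by omega : 1 ≤ 2 ^ (v.j + 1))
    nlinarith [pow_nonneg hK0 (2 ^ (v.j + 1))]
  refine ⟨⋂ x ∈ R.meshes ×ˢ R.widths, kpr3Keep R K₁ x.1 x.2, ?_, ?_, ?_⟩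
  · exact Finset.measurableSet_biInter _ fun x _ => kpr3_keep_meas h K₁ x.1 x.2
  · have e1 : R.Ev0 \ (⋂ x ∈ R.meshes ×ˢ R.widths, kpr3Keep R K₁ x.1 x.2) = ⋃ x ∈ R.meshes ×ˢ R.widths, (R.Ev0 \ kpr3Keep R K₁ x.1 x.2) := by
      ext p
      simp only [Set.mem_sdiff, Set.mem_iInter, Set.mem_iUnion, not_forall, exists_prop]
      constructor
      · rintro ⟨a1, x, a2, a3⟩
        exact ⟨x, a2, a1, a3⟩
      · rintro ⟨x, a2, a1, a3⟩
        exact ⟨a1, x, a2, a3⟩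
    rw [e1]
    calc ENNReal.ofReal K₁ * R.prior (⋃ x ∈ R.meshes ×ˢ R.widths, (R.Ev0 \ kpr3Keep R K₁ x.1 x.2))
        ≤ ENNReal.ofReal K₁ * ∑ x ∈ R.meshes ×ˢ R.widths, R.prior (R.Ev0 \ kpr3Keep R K₁ x.1 x.2) :=
          mul_le_mul' le_rfl (measure_biUnion_finset_le _ _)
      _ = ∑ x ∈ R.meshes ×ˢ R.widths, ENNReal.ofReal K₁ * R.prior (R.Ev0 \ kpr3Keep R K₁ x.1 x.2) := Finset.mul_sum _ _ _
      _ ≤ ∑ _x ∈ R.meshes ×ˢ R.widths, ENNReal.ofReal (((2 ^ (v.j + 1) : ℕ) : ℝ) * K ^ (2 ^ (v.j + 1))) := by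
          refine Finset.sum_le_sum fun x hx => ?_
          have hx' := Finset.mem_product.1 hx
          exact (kpr3_one h hO K₁ hx'.1 hx'.2).1.trans (ENNReal.ofReal_le_ofReal hCK)
      _ = ENNReal.ofReal (((2 ^ (v.j + 1) : ℕ) : ℝ) * K ^ (2 ^ (v.j + 1))) * (R.meshes.card * R.widths.card : ℕ) := by
          rw [Finset.sum_const, Finset.card_product, nsmul_eq_mul, mul_comm]
  · intro M hM r hr A c b
    have hM' : M ∈ R.meshes := hM
    have hr' : r ∈ R.widths := hr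
    show (R.prior.restrict (R.Ev0 ∩ ⋂ x ∈ R.meshes ×ˢ R.widths, kpr3Keep R K₁ x.1 x.2)) {p : R.L × ℝ | R.par p.1 = A ∧ R.pt M r p = c ∧ R.vbin p.1 = b}
      ≤ ENNReal.ofReal (((2 ^ (v.j + 1) : ℕ) : ℝ) * K ^ (2 ^ (v.j + 1)) * K₁) * ENNReal.ofReal (R.a r ^ R.d * R.a M ^ (v.j + 1)) * R.pA A * R.pi A b
    have hle : R.prior.restrict (R.Ev0 ∩ ⋂ x ∈ R.meshes ×ˢ R.widths, kpr3Keep R K₁ x.1 x.2) ≤ R.lam0.restrict (kpr3Keep R K₁ M r) := by
      show _ ≤ (R.prior.restrict R.Ev0).restrict (kpr3Keep R K₁ M r)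
      rw [Measure.restrict_restrict (kpr3_keep_meas h K₁ M r), Set.inter_comm (kpr3Keep R K₁ M r)]
      refine Measure.restrict_mono (Set.inter_subset_inter_right _ ?_) le_rfl
      exact Set.biInter_subset_of_mem (s := fun x : ℝ × ℝ => x ∈ R.meshes ×ˢ R.widths) (t := fun x => kpr3Keep R K₁ x.1 x.2) (x := (M, r))
        (Finset.mem_product.2 ⟨hM', hr'⟩)
    refine (hle _).trans (((kpr3_one h hO K₁ hM' hr').2 A c b).trans ?_)
    have ha_r : 0 ≤ R.a r ^ R.d := (Real.rpow_pos_of_pos (kpr3_a_pos h r) _).le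
    have ha_M : 0 ≤ R.a M := (kpr3_a_pos h M).le
    calc ENNReal.ofReal K * ENNReal.ofReal K₁ * R.pi A b * R.lam0 {p | R.par p.1 = A ∧ R.pt M r p = c}
        ≤ ENNReal.ofReal K * ENNReal.ofReal K₁ * R.pi A b * (ENNReal.ofReal K * ENNReal.ofReal (R.a r ^ R.d) * R.pA A * ENNReal.ofReal ((2 * R.a M) ^ (v.j + 1))) :=
          mul_le_mul' le_rfl (kpr3_mass h M hr' A c)
      _ = (ENNReal.ofReal K * ENNReal.ofReal K₁ * ENNReal.ofReal K * ENNReal.ofReal (R.a r ^ R.d) * ENNReal.ofReal ((2 * R.a M) ^ (v.j + 1))) * R.pA A * R.pi A b := by ring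
      _ = ENNReal.ofReal (K * K₁ * K * R.a r ^ R.d * (2 * R.a M) ^ (v.j + 1)) * R.pA A * R.pi A b := by
          rw [ENNReal.ofReal_mul (by positivity), ENNReal.ofReal_mul (by positivity), ENNReal.ofReal_mul (by positivity), ENNReal.ofReal_mul hK0]
      _ ≤ ENNReal.ofReal ((((2 ^ (v.j + 1) : ℕ) : ℝ) * K ^ (2 ^ (v.j + 1)) * K₁) * (R.a r ^ R.d * R.a M ^ (v.j + 1))) * R.pA A * R.pi A b := by
          refine mul_le_mul' (mul_le_mul' (ENNReal.ofReal_le_ofReal ?_) le_rfl) le_rfl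
          have e : K * K₁ * K * R.a r ^ R.d * (2 * R.a M) ^ (v.j + 1) = (((2 ^ (v.j + 1) : ℕ) : ℝ) * K ^ 2 * K₁) * (R.a r ^ R.d * R.a M ^ (v.j + 1)) := by
            push_cast
            rw [mul_pow]
            ring
          rw [e]
          refine mul_le_mul_of_nonneg_right ?_ (by positivity)
          refine mul_le_mul_of_nonneg_right ?_ (by linarith)
          exact mul_le_mul_of_nonneg_left hKC (by positivity)
      _ = ENNReal.ofReal (((2 ^ (v.j + 1) : ℕ) : ℝ) * K ^ (2 ^ (v.j + 1)) * K₁) * ENNReal.ofReal (R.a r ^ R.d * R.a M ^ (v.j + 1)) * R.pA A * R.pi A b := by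
          rw [ENNReal.ofReal_mul (by positivity)]

end

end Claimed.Agent.R252

end PkPrepH3Joint
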